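import Claimed.Agent.R323.Fa.AreaMaster

/-!
# Row 323, block E2: CONTACT and the AREA INEQUALITY (chart free).   Owner (co-architect + prover): helper209.   Exit statements: helper256.

`u = gmtSimSd S`, `N = ∇u`, `H = D²u`, tube `U` (`GmtSimTube S U u`), `FaSd K u` (`1`-Lipschitz, `1`-homogeneous, `|u z| ≤ K |z|`, `K < 1`).  NO minimality.

* `faa_cover`, `faa_psd`, `faa_proj`: `g(q) = (u q - u z)² - |q - z|² ≤ 0` (`u` is `1`-Lipschitz) vanishes at the contact point: first and second order conditions.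
* `faa_main`: `∫ Φ dy ≤ ∫_𝒞 ∫_ℝ Φb(p,s) D(p) 𝒟(1 + s H(p)) ds dμ(p)` whenever `Φ(𝒴_v(p,s)) ≤ Φb(p,s)` at all contacts.   PROOF: header of `Fa/AreaDefs.lean` (layers `{|𝔥 - c| < ε}`), files `Fa/Area{Alg,Tube,Img,Sel,Mink,Master}.lean`.
-/

set_option autoImplicit false
open scoped ContDiff ENNReal NNReal RealInnerProductSpace Topology
open MeasureTheory Metric Set Filter

namespace Claimed.Agent.R323

open Claimed.Agent.Gmt

variable {n : ℕ}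

/-- (C1) every `z ≠ 0` has a contact point `p ≠ 0`. -/
theorem faa_cover {S U : Set (E n)} {K : ℝ} (h0 : (0 : E n) ∈ gmtBd S)
    (hT : GmtSimTube S U (gmtSimSd S)) (hK : FaSd K (gmtSimSd S)) (z : E n) (hz : z ≠ 0) :
    ∃ p ∈ gmtBd S, p ≠ 0 ∧ z = p + gmtSimSd S z • gradient (gmtSimSd S) p :=
  faa_cover' (faa_tube_mk h0 hT hK) z hz

/-- (C2) the second order condition at a contact. -/
theorem faa_psd {S U : Set (E n)} {K : ℝ} (hT : GmtSimTube S U (gmtSimSd S)) (hK : FaSd K (gmtSimSd S))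
    {p : E n} (hp : p ∈ gmtBd S) (hp0 : p ≠ 0) {s : ℝ} (hc : FaCt (gmtSimSd S) p s) (w : E n) :
    0 ≤ ⟪(1 + s • gmtSimH (gmtSimSd S) p) w, w⟫ := by
  have hpU : p ∈ U := hT.bd p hp hp0
  have h0 : gmtSimSd S p = 0 := (hT.zero_iff p hpU).2 hp
  refine faa_second hT.opn hT.smooth hT.eik hK.lip hpU ?_ w
  unfold FaaCt
  rw [h0, zero_add]
  exact hc

/-- (C3) a contact inside the tube: the normal is constant along the segment (hence `gmtSimPi u z = p`). -/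
theorem faa_proj {S U : Set (E n)} {K : ℝ} (hT : GmtSimTube S U (gmtSimSd S)) (hK : FaSd K (gmtSimSd S))
    {p : E n} (hp : p ∈ gmtBd S) (hp0 : p ≠ 0) {s : ℝ} (hc : FaCt (gmtSimSd S) p s)
    (hz : p + s • gradient (gmtSimSd S) p ∈ U) :
    gradient (gmtSimSd S) (p + s • gradient (gmtSimSd S) p) = gradient (gmtSimSd S) p :=
  faa_proj' hT hK hp hp0 hc hz

/-- **the area inequality.** -/
theorem faa_main {S U : Set (E n)} {K : ℝ} (hS : MeasurableSet S) (h0 : (0 : E n) ∈ gmtBd S)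
    (hT : GmtSimTube S U (gmtSimSd S)) (hK : FaSd K (gmtSimSd S)) {v : E n} (hv : ‖v‖ < 1)
    (Φ : E n → ℝ≥0∞) (hΦ : Measurable Φ) (Φb : E n → ℝ → ℝ)
    (hc : ContinuousOn (fun q : E n × ℝ => Φb q.1 q.2) (U ×ˢ univ)) (hnn : ∀ p s, 0 ≤ Φb p s)
    {r₁ r₂ L : ℝ} (hr₁ : 0 < r₁) (hsupp : ∀ p s, Φb p s ≠ 0 → r₁ ≤ ‖p‖ ∧ ‖p‖ ≤ r₂ ∧ |s| ≤ L)
    (hdom : ∀ p ∈ gmtBd S, p ≠ 0 → ∀ s, FaCt (gmtSimSd S) p s →
      Φ (faYs (gmtSimSd S) v p s) ≤ ENNReal.ofReal (Φb p s)) :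
    ∫⁻ y, Φ y ≤ ∫⁻ p, (∫⁻ s : ℝ, ENNReal.ofReal
      (Φb p s * faD (gmtSimSd S) v p * faDet (1 + s • gmtSimH (gmtSimSd S) p))) ∂(gmtMu S) :=
  faa_master hS (faa_tube_mk h0 hT hK) hv Φ hΦ Φb hc hnn hr₁ hsupp hdom

end Claimed.Agent.R323
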