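import Claimed.Agent.R323.Fa.Defs

/-!
# Row 323, block E1a: LORENTZ ALGEBRA.   Architect: helper256.   Pure inner product space algebra, Mathlib only (+ `Fa/Defs`).

`C = faC v`, `C² (1 - |v|²) = 1`, `B x = x + C²/(C+1) ⟨v,x⟩ v`.  Useful: `C²/(C+1) · |v|² = C - 1` (because `C² |v|² = C² - 1`).
All statements follow by expanding `faB` (`fa_B_apply`), `inner_add_left`, `inner_smul_left`, `real_inner_self_eq_norm_sq`, and `field_simp`/`nlinarith`/`linear_combination` with `fa_C_sq`.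
-/

set_option autoImplicit false
open scoped ContDiff ENNReal NNReal RealInnerProductSpace Topology
open MeasureTheory Metric Set Filter

namespace Claimed.Agent.R323

open Claimed.Agent.Gmt

variable {n : ℕ}

theorem fa_one_sub_pos {v : E n} (hv : ‖v‖ < 1) : 0 < 1 - ‖v‖ ^ 2 := by
  have h0 := norm_nonneg v
  nlinarith

theorem fa_C_pos {v : E n} (hv : ‖v‖ < 1) : 0 < faC v :=
  inv_pos.2 (Real.sqrt_pos.2 (fa_one_sub_pos hv))

theorem fa_C_sq {v : E n} (hv : ‖v‖ < 1) : faC v ^ 2 * (1 - ‖v‖ ^ 2) = 1 := by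
  have h := fa_one_sub_pos hv
  unfold faC
  rw [inv_pow, Real.sq_sqrt h.le]
  exact inv_mul_cancel₀ h.ne'

theorem fa_C_ge_one {v : E n} (hv : ‖v‖ < 1) : 1 ≤ faC v := by
  have h1 := fa_C_sq hv
  have h2 := fa_C_pos hv
  have h3 : 0 ≤ ‖v‖ ^ 2 := by positivity
  by_contra hc
  rw [not_le] at hc
  have h4 : faC v ^ 2 < 1 := by nlinarith
  have h5 := fa_one_sub_pos hv
  nlinarith

theorem fa_C_zero : faC (0 : E n) = 1 := by
  simp [faC]

/-- `C` is continuous on the open ball. -/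
theorem fa_C_cont : ContinuousOn (fun v : E n => faC v) (ball 0 1) := by
  unfold faC
  refine ContinuousOn.inv₀ (by fun_prop) fun v hv => ?_
  rw [mem_ball_zero_iff] at hv
  exact (Real.sqrt_pos.2 (fa_one_sub_pos hv)).ne'

theorem fa_B_apply (v x : E n) : faB v x = x + (faC v ^ 2 / (faC v + 1) * ⟪v, x⟫) • v := by
  simp [faB, gmtSimR1, smul_smul]

/-- `C²/(C+1) |v|² = C - 1`. -/
theorem fa_C_aux {v : E n} (hv : ‖v‖ < 1) : faC v ^ 2 / (faC v + 1) * ‖v‖ ^ 2 = faC v - 1 := by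
  have h1 := fa_C_sq hv
  have h2 := fa_C_pos hv
  have h3 : faC v + 1 ≠ 0 := by positivity
  field_simp
  linear_combination -h1

theorem fa_B_self {v : E n} (hv : ‖v‖ < 1) : faB v v = faC v • v := by
  rw [fa_B_apply, real_inner_self_eq_norm_sq, fa_C_aux hv, sub_smul, one_smul]
  abel

theorem fa_B_symm (v x y : E n) : ⟪faB v x, y⟫ = ⟪x, faB v y⟫ := by
  rw [fa_B_apply, fa_B_apply, inner_add_left, inner_add_right, inner_smul_left, inner_smul_right,
    real_inner_comm v x]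
  simp only [conj_trivial]
  ring

theorem fa_inner_v_B {v : E n} (hv : ‖v‖ < 1) (x : E n) : ⟪v, faB v x⟫ = faC v * ⟪v, x⟫ := by
  rw [← fa_B_symm, fa_B_self hv, inner_smul_left]
  simp

/-- `B² = 1 + C² v vᵀ`. -/
theorem fa_B_B {v : E n} (hv : ‖v‖ < 1) (x : E n) : faB v (faB v x) = x + (faC v ^ 2 * ⟪v, x⟫) • v := by
  have h2 := fa_C_pos hv
  have h3 : faC v + 1 ≠ 0 := by positivity
  rw [fa_B_apply v (faB v x), fa_inner_v_B hv, fa_B_apply, add_assoc, ← add_smul]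
  congr 2
  field_simp
  ring

theorem fa_B_inner {v : E n} (hv : ‖v‖ < 1) (x y : E n) :
    ⟪faB v x, faB v y⟫ = ⟪x, y⟫ + faC v ^ 2 * ⟪v, x⟫ * ⟪v, y⟫ := by
  rw [fa_B_symm, fa_B_B hv, inner_add_right, inner_smul_right, real_inner_comm v x]
  ring

/-- `|B x| ≤ C |x|`. -/
theorem fa_B_norm_le {v : E n} (hv : ‖v‖ < 1) (x : E n) : ‖faB v x‖ ≤ faC v * ‖x‖ := by
  have h2 := fa_C_pos hv
  have h1 := fa_C_sq hv
  refine abs_le_of_sq_le_sq' ?_ (by positivity) |>.2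
  rw [← real_inner_self_eq_norm_sq, fa_B_inner hv, real_inner_self_eq_norm_sq, mul_pow]
  have h4 : ⟪v, x⟫ ^ 2 ≤ ‖v‖ ^ 2 * ‖x‖ ^ 2 := by
    rw [← mul_pow, ← sq_abs]
    exact pow_le_pow_left₀ (abs_nonneg _) (abs_real_inner_le_norm v x) 2
  have h5 : 0 ≤ faC v ^ 2 := by positivity
  have h6 : faC v ^ 2 * ‖v‖ ^ 2 = faC v ^ 2 - 1 := by linear_combination -h1
  calc ‖x‖ ^ 2 + faC v ^ 2 * ⟪v, x⟫ * ⟪v, x⟫ = ‖x‖ ^ 2 + faC v ^ 2 * ⟪v, x⟫ ^ 2 := by ring
    _ ≤ ‖x‖ ^ 2 + faC v ^ 2 * (‖v‖ ^ 2 * ‖x‖ ^ 2) := by gcongr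
    _ = faC v ^ 2 * ‖x‖ ^ 2 := by rw [← mul_assoc, h6]; ring

/-- the boost is linear: differences. -/
theorem fa_Z_sub (v y y' : E n) (b b' : ℝ) : faZ v y b - faZ v y' b' = faZ v (y - y') (b - b') := by
  unfold faZ
  rw [map_sub, mul_sub, sub_smul]
  abel

theorem fa_H_sub (v y y' : E n) (b b' : ℝ) : faH v y b - faH v y' b' = faH v (y - y') (b - b') := by
  unfold faH
  rw [inner_sub_right]
  ring

theorem fa_Z_smul (v y : E n) (b t : ℝ) : faZ v (t • y) (t * b) = t • faZ v y b := by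
  unfold faZ
  rw [map_smul, smul_add, smul_smul]
  congr 2
  ring

theorem fa_H_smul (v y : E n) (b t : ℝ) : faH v (t • y) (t * b) = t * faH v y b := by
  unfold faH
  rw [inner_smul_right]
  ring

/-- Lorentz invariance. -/
theorem fa_inv {v : E n} (hv : ‖v‖ < 1) (y : E n) (b : ℝ) :
    ‖faZ v y b‖ ^ 2 - faH v y b ^ 2 = ‖y‖ ^ 2 - b ^ 2 := by
  have h1 := fa_C_sq hv
  unfold faZ faH
  rw [← real_inner_self_eq_norm_sq, inner_add_left, inner_add_right, inner_add_right, fa_B_inner hv,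
    inner_smul_left, inner_smul_right, inner_smul_left, inner_smul_right, fa_inner_v_B hv,
    real_inner_comm v (faB v y), fa_inner_v_B hv, real_inner_self_eq_norm_sq, real_inner_self_eq_norm_sq]
  simp only [conj_trivial]
  linear_combination (-b ^ 2) * h1

theorem fa_inv' {v : E n} (hv : ‖v‖ < 1) (z : E n) (h : ℝ) :
    ‖faY v z h‖ ^ 2 - faBt v z h ^ 2 = ‖z‖ ^ 2 - h ^ 2 := by
  have h1 := fa_C_sq hv
  unfold faY faBt
  rw [← real_inner_self_eq_norm_sq, inner_sub_left, inner_sub_right, inner_sub_right, fa_B_inner hv,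
    inner_smul_left, inner_smul_right, inner_smul_left, inner_smul_right, fa_inner_v_B hv,
    real_inner_comm v (faB v z), fa_inner_v_B hv, real_inner_self_eq_norm_sq, real_inner_self_eq_norm_sq]
  simp only [conj_trivial]
  linear_combination (-h ^ 2) * h1

theorem fa_Y_Z {v : E n} (hv : ‖v‖ < 1) (y : E n) (b : ℝ) : faY v (faZ v y b) (faH v y b) = y := by
  unfold faY faZ faH
  rw [map_add, map_smul, fa_B_B hv, fa_B_self hv, smul_smul, add_assoc, ← add_smul, add_sub_assoc, ← sub_smul]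
  have : faC v ^ 2 * ⟪v, y⟫ + faC v * b * faC v - faC v * (faC v * (b + ⟪v, y⟫)) = 0 := by ring
  rw [this, zero_smul, add_zero]

theorem fa_Bt_Z {v : E n} (hv : ‖v‖ < 1) (y : E n) (b : ℝ) : faBt v (faZ v y b) (faH v y b) = b := by
  have h1 := fa_C_sq hv
  unfold faBt faZ faH
  rw [inner_add_right, inner_smul_right, fa_inner_v_B hv, real_inner_self_eq_norm_sq]
  linear_combination b * h1

theorem fa_Z_Y {v : E n} (hv : ‖v‖ < 1) (z : E n) (h : ℝ) : faZ v (faY v z h) (faBt v z h) = z := by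
  unfold faY faZ faBt
  rw [map_sub, map_smul, fa_B_B hv, fa_B_self hv, smul_smul, add_sub_assoc, ← sub_smul, add_assoc, ← add_smul]
  have : faC v ^ 2 * ⟪v, z⟫ - faC v * h * faC v + faC v * (faC v * (h - ⟪v, z⟫)) = 0 := by ring
  rw [this, zero_smul, add_zero]

theorem fa_H_Y {v : E n} (hv : ‖v‖ < 1) (z : E n) (h : ℝ) : faH v (faY v z h) (faBt v z h) = h := by
  have h1 := fa_C_sq hv
  unfold faBt faY faH
  rw [inner_sub_right, inner_smul_right, fa_inner_v_B hv, real_inner_self_eq_norm_sq]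
  linear_combination h * h1

/-- `D > 0`. -/
theorem fa_D_pos' {v N : E n} (hv : ‖v‖ < 1) (hN : ‖N‖ = 1) : 0 < faC v * (1 - ⟪v, N⟫) := by
  refine mul_pos (fa_C_pos hv) ?_
  have h := real_inner_le_norm v N
  rw [hN, mul_one] at h
  linarith

/-- `|B N - C v| = C (1 - ⟨v,N⟩)` for a unit vector `N` (so `N' = (B N - C v)/D` is a unit vector). -/
theorem fa_Np_norm {v N : E n} (hv : ‖v‖ < 1) (hN : ‖N‖ = 1) :
    ‖faB v N - faC v • v‖ = faC v * (1 - ⟪v, N⟫) := by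
  have h := fa_inv' hv N 1
  have hD := fa_D_pos' hv hN
  unfold faY faBt at h
  rw [mul_one, hN] at h
  have h2 : ‖faB v N - faC v • v‖ ^ 2 = (faC v * (1 - ⟪v, N⟫)) ^ 2 := by linarith
  exact (sq_eq_sq₀ (norm_nonneg _) hD.le).1 h2

/-- `⟨B w, B N - C v⟩ = - C ⟨v,w⟩ D` for `w ⟂ N`. -/
theorem fa_Bw_Np {v N w : E n} (hv : ‖v‖ < 1) (hw : ⟪w, N⟫ = 0) :
    ⟪faB v w, faB v N - faC v • v⟫ = -(faC v * ⟪v, w⟫) * (faC v * (1 - ⟪v, N⟫)) := by
  rw [inner_sub_right, fa_B_inner hv, hw, inner_smul_right, real_inner_comm v (faB v w), fa_inner_v_B hv]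
  ring

/-- `O w = B w + C ⟨v,w⟩ N'` is an isometry on `N^⊥`  (`c = C ⟨v,w⟩ / D`). -/
theorem fa_O_norm {v N w : E n} (hv : ‖v‖ < 1) (hN : ‖N‖ = 1) (hw : ⟪w, N⟫ = 0) :
    ‖faB v w + (faC v * ⟪v, w⟫ / (faC v * (1 - ⟪v, N⟫))) • (faB v N - faC v • v)‖ = ‖w‖ := by
  have hD := fa_D_pos' hv hN
  have h1 := fa_Np_norm hv hN
  have h2 := fa_Bw_Np (N := N) hv hw
  refine (sq_eq_sq₀ (norm_nonneg _) (norm_nonneg _)).1 ?_
  rw [← real_inner_self_eq_norm_sq, inner_add_left, inner_add_right, inner_add_right, inner_smul_left,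
    inner_smul_right, inner_smul_left, inner_smul_right, real_inner_comm (faB v w) (faB v N - faC v • v), h2,
    real_inner_self_eq_norm_sq (faB v N - faC v • v), h1, fa_B_inner hv, real_inner_self_eq_norm_sq]
  simp only [conj_trivial]
  generalize faC v * (1 - ⟪v, N⟫) = D at hD
  have hD' : D ≠ 0 := hD.ne'
  field_simp
  ring

/-- `O w ⟂ N'`. -/
theorem fa_O_perp {v N w : E n} (hv : ‖v‖ < 1) (hN : ‖N‖ = 1) (hw : ⟪w, N⟫ = 0) :
    ⟪faB v w + (faC v * ⟪v, w⟫ / (faC v * (1 - ⟪v, N⟫))) • (faB v N - faC v • v),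
      faB v N - faC v • v⟫ = 0 := by
  have hD := fa_D_pos' hv hN
  have h1 := fa_Np_norm hv hN
  have h2 := fa_Bw_Np (N := N) hv hw
  rw [inner_add_left, inner_smul_left, h2, real_inner_self_eq_norm_sq, h1]
  simp only [conj_trivial]
  field_simp
  ring

/-- `b_v(p,s) = D s - C ⟨v,p⟩`. -/
theorem fa_Bs_eq (u : E n → ℝ) (v p : E n) (s : ℝ) :
    faBs u v p s = faD u v p * s - faC v * ⟪v, p⟫ := by
  unfold faBs faBt faD
  rw [inner_add_right, inner_smul_right]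
  ring

/-- `b_v(p, s_v(p,t)) = |p| tan t`. -/
theorem fa_Bs_S (u : E n → ℝ) {v p : E n} (hD : faD u v p ≠ 0) (t : ℝ) :
    faBs u v p (faS u v p t) = ‖p‖ * Real.tan t := by
  rw [fa_Bs_eq, faS]
  field_simp
  ring

/-- `|𝒴_v(p,s)|² = |p|² + b²` when `N(p)` is a unit vector orthogonal to `p`. -/
theorem fa_Ys_norm (u : E n → ℝ) {v p : E n} (hv : ‖v‖ < 1) (hN : ‖gradient u p‖ = 1)
    (hp : ⟪p, gradient u p⟫ = 0) (s : ℝ) :
    ‖faYs u v p s‖ ^ 2 = ‖p‖ ^ 2 + faBs u v p s ^ 2 := by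
  have h := fa_inv' hv (p + s • gradient u p) s
  have h2 : ‖p + s • gradient u p‖ ^ 2 = ‖p‖ ^ 2 + s ^ 2 := by
    rw [← real_inner_self_eq_norm_sq, inner_add_left, inner_add_right, inner_add_right, inner_smul_left,
      inner_smul_right, inner_smul_left, inner_smul_right, real_inner_comm p (gradient u p), hp,
      real_inner_self_eq_norm_sq, real_inner_self_eq_norm_sq, hN]
    simp only [conj_trivial]
    ring
  unfold faYs faBs
  rw [h2] at h
  linarith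

end Claimed.Agent.R323
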