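import Claimed.Agent.R323.Fa.AreaDefs
import Claimed.Agent.R323.Fa.Lor

/-!
# Row 323, block E, package E2 (helper209), file 1: DETERMINANTS OF THE BOOST.   (The rest of the algebra: `Fa/Lor.lean`.)
-/

set_option autoImplicit false
open scoped ContDiff ENNReal NNReal RealInnerProductSpace Topology
open MeasureTheory Metric Set Filter

namespace Claimed.Agent.R323

open Claimed.Agent.Gmt

variable {n : ℕ}

theorem faa_B_det {v : E n} (hv : ‖v‖ < 1) : (faB v).det = faC v := by
  have hC := fa_C_pos hv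
  have hsq := fa_C_sq hv
  have e : faB v = 1 + gmtSimR1 ((faC v ^ 2 / (faC v + 1)) • v) v := by
    ext1 x
    simp only [faB, _root_.add_apply, _root_.smul_apply, gmtSimJ_r1_apply, smul_smul]
    rw [mul_comm]
  rw [e, gmtSimJ_det_r1, inner_smul_right, real_inner_self_eq_norm_sq]
  have h1 : faC v + 1 ≠ 0 := by positivity
  field_simp
  nlinarith

/-- `B ∘ (1 + cH) - C v⊗N = B ∘ (1 - v⊗N) ∘ (1 + cH)`. -/
theorem faa_xiD_det {v : E n} (hv : ‖v‖ < 1) {N : E n} {H : E n →L[ℝ] E n} (hs : ∀ x y, ⟪H x, y⟫ = ⟪x, H y⟫)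
    (hN : H N = 0) (c : ℝ) :
    ((faB v) ∘L (1 + c • H) - faC v • gmtSimR1 v N).det = faC v * (1 - ⟪v, N⟫) * (1 + c • H).det := by
  have e : (faB v) ∘L (1 + c • H) - faC v • gmtSimR1 v N
      = (faB v) ∘L ((1 + gmtSimR1 (-v) N) ∘L (1 + c • H)) := by
    ext1 x
    have h1 : ⟪N, H x⟫ = 0 := by rw [← hs, hN, inner_zero_left]
    simp only [_root_.sub_apply, ContinuousLinearMap.comp_apply, _root_.add_apply, _root_.smul_apply,
      gmtSimJ_r1_apply, one_apply_eq_self, h1, zero_smul, smul_zero, add_zero,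
      smul_neg, map_add, map_neg, map_smul, fa_B_self hv, neg_zero]
    rw [smul_smul, smul_smul, mul_comm]
    abel
  rw [e]
  have e2 : ((faB v) ∘L ((1 + gmtSimR1 (-v) N) ∘L (1 + c • H))).det
      = (faB v).det * ((1 + gmtSimR1 (-v) N).det * (1 + c • H).det) := by
    unfold ContinuousLinearMap.det
    rw [ContinuousLinearMap.toLinearMap_comp, LinearMap.det_comp, ContinuousLinearMap.toLinearMap_comp,
      LinearMap.det_comp]
  rw [e2, faa_B_det hv, gmtSimJ_det_r1, inner_neg_right, real_inner_comm]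
  ring

end Claimed.Agent.R323
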