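import Claimed.Agent.R323.Fa.Defs

/-!
# Row 323, block E, package E2 = AREA INEQUALITY (helper209).   File 0: DEFINITIONS AND PLAN.   Prefix `faa`.   Exits: `Fa/Area.lean` (statements of helper256).

`u` = signed distance to the cone `𝒞 = gmtBd S`, `N = ∇u`, `H = D²u = gmtSimH u`, `π x = x - u x N x = gmtSimPi u x`, `μ = gmtMu S`, `C = faC v`, `B = faB v`, tube `U`.

PROOF OF `faa_main` BY LAYERS (everything stays in `E n`; no chart, no cut locus, no injectivity).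
`Ξ_c(w) = faaXi u v c w = B (w + c N(w)) - C (u w + c) v`, `w ∈ U`:  `DΞ_c = B ∘ (1 + cH) - C v⊗N = B ∘ (1 - v⊗N) ∘ (1 + cH)`, `det = C (1 - ⟪v,N⟫) det (1 + cH)`   (`AreaAlg`, `AreaTube`).
TUBE CONTACT `FaaCt u w c`: `u (w + c N(w)) = u w + c`.   `g(w') = (u w' - u z)² - |w' - z|² ≤ 0` (`u` is 1-Lipschitz), `= 0` at `w`: first order `z - w = (u z - u w) N(w)`, second order `1 + c H(w) ≥ N⊗N ≥ 0`.
1. `AreaSel`: `𝔥` measurable with: for all `y` there is `z` with `faY v z (u z) = y`, `u z = 𝔥 y`.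
2. `faa_fubini`: `∫ Φ = (2ε)⁻¹ ∫_c ∫_{|𝔥 - c| < ε} Φ dy dc`.
3. `faa_loc` (COVERING): `Φ y ≠ 0`, `|𝔥 y - c| < ε ≤ ε₁`: `z = p + s N(p)` (`faa_cover`), `s = u z = 𝔥 y`, `r₁ ≤ |p| ≤ r₂`, `|s| ≤ L`; `w = p + (s - c) N(p)`: `w ∈ Kc ⊆ U`, `u w = s - c`, `N(w) = N(p)` (`faa_line`: normal lines are straight), `π w = p`, `Ξ_c(w) = y`, `FaaCt u w c`.
4. `faa_img` (Mathlib only): `∫_{f '' A} Φ ≤ ∫_A Φ∘f |det f'|`, no injectivity.   `faa_layer`: `∫_{|𝔥 - c| < ε} Φ ≤ ∫_{Kc ∩ {|u| < ε}} Φb(π w, u w + c) D(w) 𝒟(1 + c H(w)) dw`.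
5. `faa_master`: Tonelli, `𝒦(w) = ζ(w) ∫_{|c| ≤ L+1} Φb(π w, u w + c) D(w) 𝒟(1 + c H(w)) dc` is continuous with compact support in `U` (`faa_det_cont`); ONE limit `ε → 0`: `faa_mink`.
-/

set_option autoImplicit false
open scoped ContDiff ENNReal NNReal RealInnerProductSpace Topology
open MeasureTheory Metric Set Filter

namespace Claimed.Agent.R323

open Claimed.Agent.Gmt

variable {n : ℕ}

/-- `Ξ_c(w) = B (w + c N(w)) - C (u w + c) v`. -/
noncomputable def faaXi (u : E n → ℝ) (v : E n) (c : ℝ) (w : E n) : E n :=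
  faY v (w + c • gradient u w) (u w + c)

/-- its derivative in the tube. -/
noncomputable def faaXiD (u : E n → ℝ) (v : E n) (c : ℝ) (w : E n) : E n →L[ℝ] E n :=
  (faB v) ∘L (1 + c • gmtSimH u w) - faC v • gmtSimR1 v (gradient u w)

/-- contact pairs in the tube. -/
def FaaCt (u : E n → ℝ) (w : E n) (c : ℝ) : Prop := u (w + c • gradient u w) = u w + c

/-- the integrand in the tube. -/
noncomputable def faaF (u : E n → ℝ) (v : E n) (Φb : E n → ℝ → ℝ) (w : E n) (c : ℝ) : ℝ :=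
  Φb (gmtSimPi u w) (u w + c) * faD u v w * faDet (1 + c • gmtSimH u w)

/-- what E2 uses. -/
structure FaaTube (S U : Set (E n)) (u : E n → ℝ) (K : ℝ) : Prop where
  tube : GmtSimTube S U u
  sd : FaSd K u
  near : ∀ z, ∃ p ∈ gmtBd S, ‖z - p‖ = |u z|
  zero : ∀ x ∈ gmtBd S, u x = 0
  null0 : volume ({0} : Set (E n)) = 0

end Claimed.Agent.R323
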