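import Claimed.Agent.R323.Fa.AreaDefs

/-!
# Row 323, block E, package E2 (helper209), file 3: MEASURE THEORY (Mathlib only): the image inequality without injectivity, the layer identity.
-/

set_option autoImplicit false
open scoped ContDiff ENNReal NNReal RealInnerProductSpace Topology
open MeasureTheory Metric Set Filter

namespace Claimed.Agent.R323

open Claimed.Agent.Gmt

variable {n : ℕ}

/-- **L-FAA-I1.**  Inequality of measures `volume.restrict (f '' A) ≤ map f̃ ((volume.restrict A).withDensity |det f'|)`: for `T` measurable, `T ∩ f '' A = f '' (A ∩ f ⁻¹' T)`, `A ∩ f ⁻¹' T` is measurable (`f` is continuous on `A`: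
`f̃ = A.piecewise f 0` is measurable by `ContinuousOn.measurable_piecewise`), `MeasureTheory.addHaar_image_le_lintegral_abs_det_fderiv`.   Then `lintegral_mono'`, `lintegral_map`, `lintegral_withDensity_eq_lintegral_mul₀`
(`aemeasurable_ofReal_abs_det_fderivWithin`). -/
theorem faa_img {f : E n → E n} {f' : E n → E n →L[ℝ] E n} {A : Set (E n)} (hA : MeasurableSet A)
    (hf : ∀ x ∈ A, HasFDerivWithinAt f (f' x) A x) {G : E n → ℝ≥0∞} (hG : Measurable G) :
    ∫⁻ y in f '' A, G y ≤ ∫⁻ x in A, G (f x) * ENNReal.ofReal |(f' x).det| := by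
  classical
  set ft : E n → E n := A.piecewise f 0 with hft
  have hfc : ContinuousOn f A := fun x hx => (hf x hx).continuousWithinAt
  have hm : Measurable ft := hfc.measurable_piecewise continuousOn_const hA
  have hpre : ∀ T : Set (E n), A ∩ f ⁻¹' T = A ∩ ft ⁻¹' T := by
    intro T
    ext x
    simp only [mem_inter_iff, mem_preimage]
    constructor
    · rintro ⟨h1, h2⟩
      exact ⟨h1, by rwa [hft, piecewise_eq_of_mem _ _ _ h1]⟩
    · rintro ⟨h1, h2⟩
      exact ⟨h1, by rwa [hft, piecewise_eq_of_mem _ _ _ h1] at h2⟩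
  set dens : E n → ℝ≥0∞ := fun x => ENNReal.ofReal |(f' x).det| with hdens
  have hdm : AEMeasurable dens (volume.restrict A) := aemeasurable_ofReal_abs_det_fderivWithin volume hA hf
  have hle : (volume : Measure (E n)).restrict (f '' A) ≤ Measure.map ft ((volume.restrict A).withDensity dens) := by
    rw [Measure.le_iff]
    intro T hT
    rw [Measure.restrict_apply hT, Measure.map_apply hm hT, withDensity_apply _ (hm hT),
      Measure.restrict_restrict (hm hT), inter_comm T, ← image_inter_preimage, inter_comm (ft ⁻¹' T), ← hpre T]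
    refine addHaar_image_le_lintegral_abs_det_fderiv volume ?_ fun x hx => (hf x hx.1).mono inter_subset_left
    rw [hpre T]
    exact hA.inter (hm hT)
  calc ∫⁻ y in f '' A, G y ≤ ∫⁻ y, G y ∂(Measure.map ft ((volume.restrict A).withDensity dens)) :=
        lintegral_mono' hle le_rfl
    _ = ∫⁻ x, G (ft x) ∂((volume.restrict A).withDensity dens) := lintegral_map hG hm
    _ = ∫⁻ x in A, (dens * fun x => G (ft x)) x :=
        lintegral_withDensity_eq_lintegral_mul₀ hdm (hG.comp hm).aemeasurable
    _ = ∫⁻ x in A, G (f x) * ENNReal.ofReal |(f' x).det| := by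
        refine setLIntegral_congr_fun hA fun x hx => ?_
        simp only [Pi.mul_apply, hft, piecewise_eq_of_mem _ _ _ hx, hdens]
        rw [mul_comm]

/-- **L-FAA-I2.**  Tonelli (`lintegral_lintegral_swap`) for `(c,y) ↦ 1_{|h y - c| < ε} G y`; `volume {c | |h y - c| < ε} = ofReal (2 ε)` (`Real.volume_Ioo` / `Real.volume_ball`). -/
theorem faa_fubini {h : E n → ℝ} (hh : Measurable h) {G : E n → ℝ≥0∞} (hG : Measurable G) {ε : ℝ} (hε : 0 < ε) :
    ∫⁻ y, G y = ENNReal.ofReal (2 * ε)⁻¹ * ∫⁻ c : ℝ, ∫⁻ y in {y | |h y - c| < ε}, G y := by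
  have hms : MeasurableSet {p : ℝ × E n | |h p.2 - p.1| < ε} :=
    measurableSet_lt ((hh.comp measurable_snd).sub measurable_fst).abs measurable_const
  have hmc : ∀ c : ℝ, MeasurableSet {y | |h y - c| < ε} := fun c =>
    measurableSet_lt (hh.sub measurable_const).abs measurable_const
  have h1 : ∀ c : ℝ, ∫⁻ y in {y | |h y - c| < ε}, G y
      = ∫⁻ y, {p : ℝ × E n | |h p.2 - p.1| < ε}.indicator (fun p => G p.2) (c, y) := by
    intro c
    rw [← lintegral_indicator (hmc c)]
    rfl
  simp_rw [h1]
  rw [lintegral_lintegral_swap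
    (f := fun c y => {p : ℝ × E n | |h p.2 - p.1| < ε}.indicator (fun p => G p.2) (c, y))
    ((hG.comp measurable_snd).indicator hms).aemeasurable]
  have h2 : ∀ y : E n, ∫⁻ c : ℝ, {p : ℝ × E n | |h p.2 - p.1| < ε}.indicator (fun p => G p.2) (c, y)
      = G y * ENNReal.ofReal (2 * ε) := by
    intro y
    have e : (fun c : ℝ => {p : ℝ × E n | |h p.2 - p.1| < ε}.indicator (fun p => G p.2) (c, y))
        = (ball (h y) ε).indicator (fun _ => G y) := by
      funext c
      by_cases hc : |h y - c| < ε
      · rw [Set.indicator_of_mem (show (c, y) ∈ {p : ℝ × E n | |h p.2 - p.1| < ε} from hc),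
          Set.indicator_of_mem (show c ∈ ball (h y) ε by rw [mem_ball, dist_comm, Real.dist_eq]; exact hc)]
      · rw [Set.indicator_of_notMem (show (c, y) ∉ {p : ℝ × E n | |h p.2 - p.1| < ε} from hc),
          Set.indicator_of_notMem (show c ∉ ball (h y) ε by rw [mem_ball, dist_comm, Real.dist_eq]; exact hc)]
    rw [e, lintegral_indicator measurableSet_ball, setLIntegral_const, Real.volume_ball]
  simp_rw [h2]
  rw [lintegral_mul_const _ hG, mul_comm, mul_assoc, ← ENNReal.ofReal_mul (by positivity),
    mul_inv_cancel₀ (by positivity), ENNReal.ofReal_one, mul_one]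

end Claimed.Agent.R323
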