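import Claimed.Agent.R323.Fa.AreaDefs

/-!
# Row 323, block E, package E2 (helper209), file 2: THE DETERMINANT MAJORANT.   Leaves `L-FAA-L*`.
-/

set_option autoImplicit false
open scoped ContDiff ENNReal NNReal RealInnerProductSpace Topology
open MeasureTheory Metric Set Filter

namespace Claimed.Agent.R323

open Claimed.Agent.Gmt

variable {k : ℕ}

/-- **L-FAA-L1.**  `φ(x) = x - x²/(2+2|x|) - log(1+x) ≥ 0` on `(-1,∞)`:  for `x ≥ 0`, `φ' = x²/(2(1+x)²) ≥ 0`; for `-1 < x < 0`, `φ' = x (3x² - 5x)/(2(1+x)(1-x)²) ≤ 0`; `φ(0) = 0`.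
(Or without calculus: `x ≥ 0`: `y = x/(2+2x)·...`; any proof.)  At `x = -1` the left side is `0`. -/
theorem faa_one_add_le_exp {x : ℝ} (hx : -1 ≤ x) : 1 + x ≤ Real.exp (x - x ^ 2 / (2 + 2 * |x|)) := by
  rcases le_or_gt 0 x with h0 | h0
  · rw [abs_of_nonneg h0]
    have hd : 0 < 2 + 2 * x := by linarith
    set y : ℝ := x - x ^ 2 / (2 + 2 * x) with hy
    have e1 : y = x * (2 + x) / (2 + 2 * x) := by
      rw [hy]; field_simp; ring
    have hy0 : 0 ≤ y := by rw [e1]; positivity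
    have h1 := Real.quadratic_le_exp_of_nonneg hy0
    refine le_trans ?_ h1
    have e2 : y + y ^ 2 / 2 - x = x ^ 4 / (2 * (2 + 2 * x) ^ 2) := by
      rw [e1]; field_simp; ring
    have h2 : 0 ≤ x ^ 4 / (2 * (2 + 2 * x) ^ 2) := by positivity
    linarith
  · rw [abs_of_neg h0]
    rcases eq_or_lt_of_le hx with h1 | h1
    · rw [← h1]; norm_num; exact (Real.exp_pos _).le
    · set u : ℝ := -x with hu
      have hu0 : 0 < u := by rw [hu]; linarith
      have hu1 : u < 1 := by rw [hu]; linarith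
      have hs := Real.hasSum_pow_div_log_of_abs_lt_one (x := u) (by rw [abs_of_pos hu0]; exact hu1)
      have h2 := sum_le_hasSum (Finset.range 2) (fun i _ => by positivity) hs
      simp only [Finset.sum_range_succ, Finset.sum_range_zero] at h2
      norm_num at h2
      have hpos : 0 < 1 + x := by linarith
      have e1 : 1 - u = 1 + x := by rw [hu]; ring
      rw [e1] at h2
      have h3 : u ^ 2 / (2 + 2 * u) ≤ u ^ 2 / 2 := by
        apply div_le_div_of_nonneg_left (by positivity) (by norm_num) (by linarith)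
      have e2 : x ^ 2 = u ^ 2 := by rw [hu]; ring
      have h4 : Real.log (1 + x) ≤ x - x ^ 2 / (2 + 2 * u) := by
        rw [e2]
        have : x = -u := by rw [hu]; ring
        linarith
      calc 1 + x = Real.exp (Real.log (1 + x)) := (Real.exp_log hpos).symm
        _ ≤ _ := Real.exp_le_exp.2 h4

/-- **L-FAA-L2.**  Copy the proof of `gmtSimD_spectral` (eigenvector basis `b i`, `h (b i) = lam i • b i`) and add: `0 ≤ ⟪(1 + c h) b_i, b_i⟫ = 1 + c lam i`. -/
theorem faa_spectral (h : E k →L[ℝ] E k) (hs : ∀ v w, ⟪h v, w⟫ = ⟪v, h w⟫) :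
    ∃ lam : Fin k → ℝ, gmtSimTr h = ∑ i, lam i ∧ ∑ i, ‖h (eb i)‖ ^ 2 = ∑ i, lam i ^ 2 ∧
      (∀ s : ℝ, (1 + s • h).det = ∏ i, (1 + s * lam i)) ∧
      ∀ s : ℝ, (∀ y, 0 ≤ ⟪(1 + s • h) y, y⟫) → ∀ i, 0 ≤ 1 + s * lam i := by
  have hT : (h : E k →ₗ[ℝ] E k).IsSymmetric := fun v w => hs v w
  have hn : Module.finrank ℝ (E k) = k := finrank_euclideanSpace_fin
  set b := hT.eigenvectorBasis hn with hb
  set lam := hT.eigenvalues hn with hlam
  have hap : ∀ i, h (b i) = lam i • b i := fun i => by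
    exact hT.apply_eigenvectorBasis hn i
  have hnorm : ∀ i, ‖b i‖ = 1 := fun i => b.orthonormal.1 i
  refine ⟨lam, ?_, ?_, fun s => ?_, fun s hp i => ?_⟩
  · rw [gmtSim_tr_eq_trace, LinearMap.trace_eq_sum_inner _ b]
    refine Finset.sum_congr rfl fun i _ => ?_
    have : (h : E k →ₗ[ℝ] E k) (b i) = lam i • b i := hap i
    rw [this, inner_smul_right, real_inner_self_eq_norm_sq, hnorm]
    simp
  · have e1 : ∑ i, ‖h (eb i)‖ ^ 2 = gmtSimTr (h ∘L h) := by
      unfold gmtSimTr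
      refine Finset.sum_congr rfl fun i _ => ?_
      rw [ContinuousLinearMap.comp_apply, hs, real_inner_self_eq_norm_sq]
    rw [e1, gmtSim_tr_eq_trace, LinearMap.trace_eq_sum_inner _ b]
    refine Finset.sum_congr rfl fun i _ => ?_
    have : ((h ∘L h : E k →L[ℝ] E k) : E k →ₗ[ℝ] E k) (b i) = (lam i ^ 2) • b i := by
      show h (h (b i)) = _
      rw [hap, map_smul, hap, smul_smul, sq]
    rw [this, inner_smul_right, real_inner_self_eq_norm_sq, hnorm]
    simp
  · have e1 : (1 + s • h).det = LinearMap.det ((1 + s • h : E k →L[ℝ] E k) : E k →ₗ[ℝ] E k) := rfl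
    rw [e1, ← LinearMap.det_toMatrix b.toBasis]
    have e2 : LinearMap.toMatrix b.toBasis b.toBasis ((1 + s • h : E k →L[ℝ] E k) : E k →ₗ[ℝ] E k)
        = Matrix.diagonal fun i => 1 + s * lam i := by
      ext i j
      rw [LinearMap.toMatrix_apply]
      have e3 : ((1 + s • h : E k →L[ℝ] E k) : E k →ₗ[ℝ] E k) (b.toBasis j)
          = (1 + s * lam j) • b.toBasis j := by
        show (1 + s • h : E k →L[ℝ] E k) (b.toBasis j) = _
        rw [OrthonormalBasis.coe_toBasis]
        simp only [add_apply, one_apply_eq_self, smul_apply, hap]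
        rw [add_smul, one_smul, smul_smul]
      rw [e3, map_smul, Finsupp.smul_apply, Module.Basis.repr_self_apply, Matrix.diagonal_apply]
      by_cases hij : i = j
      · subst hij; simp
      · rw [if_neg (fun h' => hij h'.symm), if_neg hij]; simp
    rw [e2, Matrix.det_diagonal]
  · have h1 := hp (b i)
    have e3 : (1 + s • h : E k →L[ℝ] E k) (b i) = (1 + s * lam i) • b i := by
      simp only [add_apply, one_apply_eq_self, smul_apply, hap]
      rw [add_smul, one_smul, smul_smul]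
    rw [e3, inner_smul_left, real_inner_self_eq_norm_sq, hnorm] at h1
    simpa using h1

/-- **L-FAA-L3.**  `x_i = c lam i ≥ -1`, `|x_i| ≤ |X| := |c| √(Σ lam²)`, so `x_i²/(2+2|x_i|) ≥ x_i²/(2+2|X|)`; `∏ (1+x_i) ≤ exp Σ (x_i - x_i²/(2+2|X|))` (`Finset.prod_le_prod`, `Real.exp_sum`). -/
theorem faa_det_le (h : E k →L[ℝ] E k) (hs : ∀ v w, ⟪h v, w⟫ = ⟪v, h w⟫) (c : ℝ)
    (hp : ∀ y, 0 ≤ ⟪(1 + c • h) y, y⟫) :
    0 ≤ (1 + c • h).det ∧ (1 + c • h).det ≤ Real.exp (c * gmtSimTr h -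
      c ^ 2 * (∑ i, ‖h (eb i)‖ ^ 2) / (2 + 2 * (|c| * Real.sqrt (∑ i, ‖h (eb i)‖ ^ 2)))) := by
  obtain ⟨lam, htr, hQ, hdet, hpos⟩ := faa_spectral h hs
  have hp' := hpos c hp
  rw [hdet c, htr, hQ]
  refine ⟨Finset.prod_nonneg fun i _ => hp' i, ?_⟩
  set Q : ℝ := ∑ i, lam i ^ 2 with hQd
  set X : ℝ := |c| * Real.sqrt Q with hX
  have hX0 : 0 ≤ X := by positivity
  have hle : ∀ i, |c * lam i| ≤ X := fun i => by
    rw [abs_mul, hX]
    refine mul_le_mul_of_nonneg_left ?_ (abs_nonneg _)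
    apply Real.abs_le_sqrt
    exact Finset.single_le_sum (f := fun i => lam i ^ 2) (fun j _ => by positivity) (Finset.mem_univ i)
  have e1 : c * ∑ i, lam i - c ^ 2 * Q / (2 + 2 * X)
      = ∑ i, (c * lam i - (c * lam i) ^ 2 / (2 + 2 * X)) := by
    rw [Finset.sum_sub_distrib, ← Finset.mul_sum, ← Finset.sum_div, hQd]
    congr 2
    rw [Finset.mul_sum]
    refine Finset.sum_congr rfl fun i _ => by ring
  rw [e1, Real.exp_sum]
  refine Finset.prod_le_prod (fun i _ => hp' i) fun i _ => ?_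
  refine (faa_one_add_le_exp (x := c * lam i) (by linarith [hp' i])).trans (Real.exp_le_exp.2 ?_)
  have : (c * lam i) ^ 2 / (2 + 2 * X) ≤ (c * lam i) ^ 2 / (2 + 2 * |c * lam i|) := by
    apply div_le_div_of_nonneg_left (by positivity) (by positivity) (by linarith [hle i])
  linarith

end Claimed.Agent.R323
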