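import Claimed.Agent.R323.Fa.AreaDefs

/-!
# Row 323, block E, package E2 (helper209), file 5: the Minkowski limit in the tube (globalisation of `gmt_reg_mu`).
-/

set_option autoImplicit false
open scoped ContDiff ENNReal NNReal RealInnerProductSpace Topology
open MeasureTheory Metric Set Filter

namespace Claimed.Agent.R323

open Claimed.Agent.Gmt

variable {n : ℕ} {S U : Set (E n)} {u : E n → ℝ}

/-- `gmt_reg_mu` with `φ = u` in a ball of the tube. -/
theorem faa_reg_ball (hS : MeasurableSet S) (hT : GmtSimTube S U u) {x : E n} {r : ℝ} (hr : 0 < r) (hxr : ball x r ⊆ U) :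
    GmtLF S (ball x r) ∧ ∀ g : E n → ℝ, Continuous g → HasCompactSupport g → tsupport g ⊆ ball x r →
      Tendsto (fun ε : ℝ => (2 * ε)⁻¹ * ∫ y in {y | y ∈ ball x r ∧ |u y| < ε}, g y * ‖gradient u y‖) (𝓝[>] 0)
        (𝓝 (∫ y, g y ∂(gmtMu S))) := by
  have hφ : ContDiffOn ℝ ∞ u (ball x r) := hT.smooth.mono hxr
  have hφ' : ∀ y ∈ ball x r, fderiv ℝ u y ≠ 0 := fun y hy h => by
    have h1 := hT.eik y (hxr hy)
    rw [← gmtSim_norm_fderiv_eq, h, norm_zero] at h1
    norm_num at h1
  have hSφ : (S ∩ ball x r : Set (E n)) =ᵐ[volume] ({y | y ∈ ball x r ∧ u y < 0} : Set (E n)) := by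
    have h2 := hT.neg.inter (ae_eq_refl (ball x r))
    have e1 : (S ∩ U) ∩ ball x r = S ∩ ball x r := by
      ext y
      constructor
      · rintro ⟨⟨a, -⟩, b⟩; exact ⟨a, b⟩
      · rintro ⟨a, b⟩; exact ⟨⟨a, hxr b⟩, b⟩
    have e2 : ({y | y ∈ U ∧ u y < 0} : Set (E n)) ∩ ball x r = {y | y ∈ ball x r ∧ u y < 0} := by
      ext y
      constructor
      · rintro ⟨⟨-, a⟩, b⟩; exact ⟨b, a⟩
      · rintro ⟨b, a⟩; exact ⟨⟨hxr b, a⟩, b⟩
    rwa [e1, e2] at h2
  have key := gmt_reg_mu x r hr u hφ hφ' hS hSφ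
  exact ⟨key.1, key.2.2.2⟩

/-- **L-FAA-M1** (one ball).  `gmt_reg_mu x r hr u` (`φ = u`; `fderiv u y ≠ 0` as `‖∇u‖ = 1`, `gmtSim_norm_fderiv_eq`; `S ∩ ball =ᵐ {y ∈ ball | u y < 0}` from `hT.neg` intersected with the ball); `‖∇u‖ = 1` on the ball;
`g = 0` off the ball: `∫_{|u| < ε} g = ∫_{ball ∩ {|u| < ε}} g`. -/
theorem faa_mink_ball (hS : MeasurableSet S) (hT : GmtSimTube S U u) (hu : Continuous u) {x : E n} {r : ℝ} (hr : 0 < r)
    (hxr : ball x r ⊆ U) (g : E n → ℝ) (hg : Continuous g) (hgc : HasCompactSupport g) (hgs : tsupport g ⊆ ball x r) :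
    Tendsto (fun ε : ℝ => (2 * ε)⁻¹ * ∫ y in {y | |u y| < ε}, g y) (𝓝[>] 0) (𝓝 (∫ y, g y ∂(gmtMu S))) := by
  refine ((faa_reg_ball hS hT hr hxr).2 g hg hgc hgs).congr fun ε => ?_
  congr 1
  have hB : MeasurableSet {y : E n | |u y| < ε} := (isOpen_lt hu.abs continuous_const).measurableSet
  have hA : MeasurableSet {y : E n | y ∈ ball x r ∧ |u y| < ε} := measurableSet_ball.inter hB
  rw [← integral_indicator hA, ← integral_indicator hB]
  congr 1
  funext y
  by_cases hy : y ∈ ball x r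
  · by_cases hy2 : |u y| < ε
    · rw [indicator_of_mem (show y ∈ {y : E n | y ∈ ball x r ∧ |u y| < ε} from ⟨hy, hy2⟩),
        indicator_of_mem (show y ∈ {y : E n | |u y| < ε} from hy2), hT.eik y (hxr hy), mul_one]
    · rw [indicator_of_notMem (show y ∉ {y : E n | y ∈ ball x r ∧ |u y| < ε} from fun h => hy2 h.2),
        indicator_of_notMem (show y ∉ {y : E n | |u y| < ε} from hy2)]
  · have h0 : g y = 0 := image_eq_zero_of_notMem_tsupport fun h => hy (hgs h)
    rw [indicator_of_notMem (show y ∉ {y : E n | y ∈ ball x r ∧ |u y| < ε} from fun h => hy h.1)]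
    by_cases hy2 : |u y| < ε
    · rw [indicator_of_mem (show y ∈ {y : E n | |u y| < ε} from hy2), h0]
    · rw [indicator_of_notMem (show y ∉ {y : E n | |u y| < ε} from hy2)]

/-- **L-FAA-M2** (partition of unity).  Cover `tsupport g` by finitely many balls `⊆ U`; continuous (or smooth) partition of unity `ρ_i` subordinate to them (`SmoothPartitionOfUnity.exists_isSubordinate` / `PartitionOfUnity.exists_isSubordinate`, or
induction on the number of balls with `gmtSim_exists_cutoff`); `g = Σ ρ_i g`; `integral_finset_sum` (integrability: continuous with compact support; `gmtMu S` is finite on compacts ONLY inside `U`: use `gmt_reg_mu ... .1 : GmtLF S (ball x r)`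
or avoid integrability by `tendsto_finset_sum` and `integral_finset_sum` with `Continuous.integrable_of_hasCompactSupport` if `IsFiniteMeasureOnCompacts (gmtMu S)` is available). -/
theorem faa_mink (hS : MeasurableSet S) (hT : GmtSimTube S U u) (hu : Continuous u)
    (g : E n → ℝ) (hg : Continuous g) (hgc : HasCompactSupport g) (hgs : tsupport g ⊆ U) :
    Tendsto (fun ε : ℝ => (2 * ε)⁻¹ * ∫ y in {y | |u y| < ε}, g y) (𝓝[>] 0) (𝓝 (∫ y, g y ∂(gmtMu S))) := by
  classical
  have hK : IsCompact (tsupport g) := hgc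
  choose! r hr0 hrU using fun x (hx : x ∈ U) => Metric.isOpen_iff.1 hT.opn x hx
  obtain ⟨t, htK, hcov⟩ := hK.elim_nhds_subcover (fun x => ball x (r x)) (fun x hx => ball_mem_nhds x (hr0 x (hgs hx)))
  obtain ⟨ρ, hρ⟩ := PartitionOfUnity.exists_isSubordinate (s := tsupport g) (isClosed_tsupport g)
    (fun i : t => ball (i : E n) (r i)) (fun i => isOpen_ball) (by
      intro y hy
      obtain ⟨i, hi, hyi⟩ := mem_iUnion₂.1 (hcov hy)
      exact mem_iUnion.2 ⟨⟨i, hi⟩, hyi⟩)
  have hsum : ∀ y, g y = ∑ i : t, ρ i y * g y := by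
    intro y
    by_cases hy : y ∈ tsupport g
    · rw [← Finset.sum_mul, ← finsum_eq_sum_of_fintype, ρ.sum_eq_one hy, one_mul]
    · rw [image_eq_zero_of_notMem_tsupport hy]
      simp
  have hiU : ∀ i : t, (i : E n) ∈ U := fun i => hgs (htK i i.2)
  have hc : ∀ i : t, Continuous fun y => ρ i y * g y := fun i => (ρ i).continuous.mul hg
  have hcs : ∀ i : t, HasCompactSupport fun y => ρ i y * g y := fun i => hgc.mul_left
  have hts : ∀ i : t, tsupport (fun y => ρ i y * g y) ⊆ ball (i : E n) (r i) := fun i => (tsupport_mul_subset_left).trans (hρ i)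
  have hi : ∀ i : t, Tendsto (fun ε : ℝ => (2 * ε)⁻¹ * ∫ y in {y | |u y| < ε}, ρ i y * g y) (𝓝[>] 0)
      (𝓝 (∫ y, ρ i y * g y ∂(gmtMu S))) := fun i =>
    faa_mink_ball hS hT hu (hr0 i (hiU i)) (hrU i (hiU i)) _ (hc i) (hcs i) (hts i)
  have hI : ∀ i : t, Integrable (fun y => ρ i y * g y) (gmtMu S) := fun i =>
    gmtSim_integrable isOpen_ball (faa_reg_ball hS hT (hr0 i (hiU i)) (hrU i (hiU i))).1 (hc i).continuousOn (hcs i) (hts i)
  have key := tendsto_finsetSum Finset.univ (fun i _ => hi i)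
  have e1 : ∫ y, g y ∂(gmtMu S) = ∑ i : t, ∫ y, ρ i y * g y ∂(gmtMu S) := by
    rw [← integral_finsetSum _ fun i _ => hI i]
    exact integral_congr_ae (Eventually.of_forall hsum)
  rw [e1]
  refine key.congr fun ε => ?_
  rw [← Finset.mul_sum, ← integral_finsetSum _ fun i _ => ((hc i).integrable_of_hasCompactSupport (hcs i)).integrableOn]
  congr 1
  exact (integral_congr_ae (Eventually.of_forall hsum)).symm

end Claimed.Agent.R323
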