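import Claimed.Agent.R323.Fa.Defs
import Claimed.Agent.R323.Fa.AreaLin

/-!
# Row 323, block E: DETERMINANT INEQUALITIES (AM-GM with remainder).   Architect: helper256.   Linear algebra, Mathlib (+ `gmtSimTr`, `faDet`, `faHS`).

`X : E n →L[ℝ] E n` symmetric, `gmtSimTr X = ∑ ⟪X e_i, e_i⟫ = 0`.  Spectral theorem: `LinearMap.IsSymmetric.eigenvectorBasis`, `eigenvalues λ_i`,
`det (1+X) = ∏ (1+λ_i)` (`LinearMap.IsSymmetric.det_eq_prod_eigenvalues` for `1 + X`, or diagonalise), `∑ λ_i = 0` (`gmtSim_tr_eq_trace`, `trace_eq_sum_eigenvalues`), `faHS X = ∑ λ_i²` (Parseval twice).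
`1 + X ≥ 0 ⟺ λ_i ≥ -1`.
* `fa_det_exp`: `1+x ≤ e^x`; `1+x ≤ e^{x - x²/2}` for `-1 ≤ x ≤ 0`.  So `∏ ≤ exp(-½ ∑_{λ<0} λ²)`.  With `a = ∑_{λ<0}|λ| = ∑_{λ>0} λ`: `∑_{λ>0} λ² ≤ a² ≤ n ∑_{λ<0} λ²`, so `∑_{λ<0} λ² ≥ faHS X/(n+1)`; `2(n+1) ≤ 8n`.
* `fa_det_taylor`: `|λ_i| ≤ √hs ≤ 1/2`; `1+x ≤ exp(x - x²/2 + x³/3)` (`x > -1`); `∏ ≤ exp(y)`, `y = -hs/2 + ∑λ³/3`, `|∑ λ³| ≤ hs √hs`; `e^y ≤ 1 + y + y²` (`|y| ≤ 1`).
* `fa_det_cont`: at `M₀ = f a₀`: not PSD = open condition; PSD and `det M₀ = 0`: `0 ≤ faDet ≤ |det| → 0`; PSD, symmetric, `det ≠ 0`: `⟪M₀ w,w⟫ ≥ c|w|²` (`⟪M₀ w,w⟫ = 0 ⟹ M₀ w = 0` by Cauchy-Schwarz for the form; compactness of the sphere), so nearby operators are PSD.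
-/

set_option autoImplicit false
open scoped ContDiff ENNReal NNReal RealInnerProductSpace Topology
open MeasureTheory Metric Set Filter

namespace Claimed.Agent.R323

open Claimed.Agent.Gmt

variable {n : ℕ}

theorem fa_HS_eq (u : E n → ℝ) (x : E n) : gmtSimA u x = faHS (gmtSimH u x) := rfl

theorem fa_HS_smul (c : ℝ) (X : E n →L[ℝ] E n) : faHS (c • X) = c ^ 2 * faHS X := by
  unfold faHS
  rw [Finset.mul_sum]
  refine Finset.sum_congr rfl fun i _ => ?_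
  rw [smul_apply, norm_smul, mul_pow, Real.norm_eq_abs, sq_abs]

theorem fa_HS_nonneg (X : E n →L[ℝ] E n) : 0 ≤ faHS X := by
  unfold faHS
  positivity

/-- `‖X w‖² ≤ faHS X ‖w‖²`. -/
theorem fa_HS_norm (X : E n →L[ℝ] E n) (w : E n) : ‖X w‖ ^ 2 ≤ faHS X * ‖w‖ ^ 2 := by
  have hw : w = ∑ i, w i • (eb i : E n) := by
    ext j
    simp [eb, Finset.sum_apply, Pi.single_apply]
  have h1 : X w = ∑ i, w i • X (eb i) := by
    conv_lhs => rw [hw]
    rw [map_sum]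
    refine Finset.sum_congr rfl fun i _ => by rw [map_smul]
  have h2 : ‖X w‖ ≤ ∑ i, |w i| * ‖X (eb i)‖ := by
    rw [h1]
    refine (norm_sum_le _ _).trans (Finset.sum_le_sum fun i _ => ?_)
    rw [norm_smul, Real.norm_eq_abs]
  have h3 : (∑ i, |w i| * ‖X (eb i)‖) ^ 2 ≤ (∑ i, |w i| ^ 2) * ∑ i, ‖X (eb i)‖ ^ 2 :=
    Finset.sum_mul_sq_le_sq_mul_sq _ _ _
  have h4 : ‖w‖ ^ 2 = ∑ i, |w i| ^ 2 := by
    rw [EuclideanSpace.norm_sq_eq]
    refine Finset.sum_congr rfl fun i _ => by rw [Real.norm_eq_abs]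
  unfold faHS
  rw [h4, mul_comm]
  refine le_trans ?_ h3
  exact pow_le_pow_left₀ (norm_nonneg _) h2 2

theorem fa_det_meas : Measurable (faDet : (E n →L[ℝ] E n) → ℝ) := by
  unfold faDet
  refine Measurable.ite ?_ ContinuousLinearMap.continuous_det.measurable measurable_const
  have : {M : E n →L[ℝ] E n | ∀ w, 0 ≤ ⟪M w, w⟫} = ⋂ w, {M : E n →L[ℝ] E n | 0 ≤ ⟪M w, w⟫} := by
    ext M; simp
  rw [this]
  refine (isClosed_iInter fun w => ?_).measurableSet
  have hc : Continuous fun M' : E n →L[ℝ] E n => ⟪M' w, w⟫ :=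
    ((ContinuousLinearMap.apply ℝ (E n) w).continuous).inner continuous_const
  exact isClosed_le continuous_const hc

theorem fa_det_psd {M : E n →L[ℝ] E n} (h : ∀ w, 0 ≤ ⟪M w, w⟫) : faDet M = M.det := by
  unfold faDet
  rw [if_pos h]

theorem fa_det_npsd {M : E n →L[ℝ] E n} (h : ¬ ∀ w, 0 ≤ ⟪M w, w⟫) : faDet M = 0 := by
  unfold faDet
  rw [if_neg h]

theorem fa_det_abs_le (M : E n →L[ℝ] E n) : |faDet M| ≤ |M.det| := by
  by_cases h : ∀ w, 0 ≤ ⟪M w, w⟫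
  · rw [fa_det_psd h]
  · rw [fa_det_npsd h, abs_zero]; exact abs_nonneg _

/-- a symmetric positive semidefinite invertible operator is coercive. -/
theorem fa_coercive {M : E n →L[ℝ] E n} (hs : ∀ x y, ⟪M x, y⟫ = ⟪x, M y⟫) (hp : ∀ w, 0 ≤ ⟪M w, w⟫)
    (hd : M.det ≠ 0) : ∃ c : ℝ, 0 < c ∧ ∀ w, c * ‖w‖ ^ 2 ≤ ⟪M w, w⟫ := by
  have hker : ∀ w, ⟪M w, w⟫ = 0 → w = 0 := by
    intro w hw
    have h1 : M w = 0 := by
      by_contra hne
      set x := M w with hx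
      have hx0 : 0 < ‖x‖ ^ 2 := by positivity
      have hex : ∀ t : ℝ, ⟪M (w + t • x), w + t • x⟫ = 2 * t * ‖x‖ ^ 2 + t ^ 2 * ⟪M x, x⟫ := by
        intro t
        rw [map_add, map_smul, inner_add_left, inner_add_right, inner_add_right, hw,
          inner_smul_left, inner_smul_right, inner_smul_left, inner_smul_right, hs x w, ← hx,
          real_inner_self_eq_norm_sq]
        simp only [conj_trivial]
        ring
      set q := ⟪M x, x⟫ with hq
      have hq0 : 0 ≤ q := hp x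
      have h2 := hp (w + (-(‖x‖ ^ 2 / (q + 1))) • x)
      rw [hex] at h2
      have hq1 : 0 < q + 1 := by linarith
      have e : 2 * (-(‖x‖ ^ 2 / (q + 1))) * ‖x‖ ^ 2 + (-(‖x‖ ^ 2 / (q + 1))) ^ 2 * q
          = -((‖x‖ ^ 2) ^ 2 * (q + 2) / (q + 1) ^ 2) := by
        field_simp; ring
      rw [e] at h2
      have : 0 < (‖x‖ ^ 2) ^ 2 * (q + 2) / (q + 1) ^ 2 := by positivity
      linarith
    have hinj : Function.Injective (M : E n →ₗ[ℝ] E n) :=
      (LinearMap.equivOfDetNeZero (M : E n →ₗ[ℝ] E n) hd).injective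
    exact hinj (by simpa using h1)
  rcases isEmpty_or_nonempty (sphere (0 : E n) 1) with he | hne
  · refine ⟨1, one_pos, fun w => ?_⟩
    by_cases hw : w = 0
    · subst hw; simp
    · exfalso
      exact he.false ⟨(‖w‖⁻¹) • w, by
        rw [mem_sphere_zero_iff_norm, norm_smul, norm_inv, norm_norm]
        exact inv_mul_cancel₀ (norm_ne_zero_iff.2 hw)⟩
  · have hcomp : IsCompact (sphere (0 : E n) 1) := isCompact_sphere _ _
    have hcont : ContinuousOn (fun w : E n => ⟪M w, w⟫) (sphere (0 : E n) 1) :=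
      (M.continuous.inner continuous_id).continuousOn
    obtain ⟨⟨w1, hw1⟩⟩ := hne
    obtain ⟨w0, hw0, hmin⟩ := hcomp.exists_isMinOn ⟨w1, hw1⟩ hcont
    have hw0n : ‖w0‖ = 1 := mem_sphere_zero_iff_norm.1 hw0
    have hc : 0 < ⟪M w0, w0⟫ := by
      refine lt_of_le_of_ne (hp w0) fun h => ?_
      have := hker w0 h.symm
      rw [this, norm_zero] at hw0n
      exact zero_ne_one hw0n
    refine ⟨_, hc, fun w => ?_⟩
    by_cases hw : w = 0
    · subst hw; simp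
    · have hwn : ‖w‖ ≠ 0 := norm_ne_zero_iff.2 hw
      have h1 : (‖w‖⁻¹) • w ∈ sphere (0 : E n) 1 := by
        rw [mem_sphere_zero_iff_norm, norm_smul, norm_inv, norm_norm]
        exact inv_mul_cancel₀ hwn
      have h2 : ⟪M w0, w0⟫ ≤ ⟪M ((‖w‖⁻¹) • w), (‖w‖⁻¹) • w⟫ := hmin h1
      simp only [map_smul, inner_smul_left, inner_smul_right, conj_trivial] at h2
      have h3 : ⟪M w0, w0⟫ * ‖w‖ ^ 2 ≤ (‖w‖⁻¹ * (‖w‖⁻¹ * ⟪M w, w⟫)) * ‖w‖ ^ 2 :=
        mul_le_mul_of_nonneg_right h2 (by positivity)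
      have e : (‖w‖⁻¹ * (‖w‖⁻¹ * ⟪M w, w⟫)) * ‖w‖ ^ 2 = ⟪M w, w⟫ := by
        field_simp
      rwa [e] at h3

theorem fa_det_contAt {M : E n →L[ℝ] E n} (hs : ∀ x y, ⟪M x, y⟫ = ⟪x, M y⟫) :
    ContinuousAt (faDet : (E n →L[ℝ] E n) → ℝ) M := by
  have hdc : Continuous (ContinuousLinearMap.det : (E n →L[ℝ] E n) → ℝ) :=
    ContinuousLinearMap.continuous_det
  by_cases hp : ∀ w, 0 ≤ ⟪M w, w⟫
  · by_cases hd : M.det = 0
    · have h0 : faDet M = 0 := by rw [fa_det_psd hp, hd]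
      unfold ContinuousAt
      rw [h0]
      have h1 : Tendsto (fun M' : E n →L[ℝ] E n => |M'.det|) (𝓝 M) (𝓝 0) := by
        have h2 : Tendsto (fun M' : E n →L[ℝ] E n => |M'.det|) (𝓝 M) (𝓝 |M.det|) :=
          (hdc.continuousAt (x := M)).abs
        rwa [hd, abs_zero] at h2
      exact squeeze_zero_norm (fun M' => by rw [Real.norm_eq_abs]; exact fa_det_abs_le M') h1
    · obtain ⟨c, hc, hco⟩ := fa_coercive hs hp hd
      have hev : ∀ᶠ M' in 𝓝 M, faDet M' = M'.det := by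
        filter_upwards [Metric.ball_mem_nhds M hc] with M' hM'
        apply fa_det_psd
        intro w
        have h1 : ‖M' - M‖ < c := by rwa [mem_ball, dist_eq_norm] at hM'
        have h2 : |⟪(M' - M) w, w⟫| ≤ ‖M' - M‖ * ‖w‖ ^ 2 := by
          refine (abs_real_inner_le_norm _ _).trans ?_
          have := (M' - M).le_opNorm w
          calc ‖(M' - M) w‖ * ‖w‖ ≤ (‖M' - M‖ * ‖w‖) * ‖w‖ :=
                mul_le_mul_of_nonneg_right this (norm_nonneg _)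
            _ = _ := by ring
        have h3 : ⟪M' w, w⟫ = ⟪M w, w⟫ + ⟪(M' - M) w, w⟫ := by
          rw [← inner_add_left]; congr 1; simp
        have h4 : ‖M' - M‖ * ‖w‖ ^ 2 ≤ c * ‖w‖ ^ 2 :=
          mul_le_mul_of_nonneg_right h1.le (by positivity)
        have := (abs_le.1 h2).1
        rw [h3]
        linarith [hco w]
      exact (hdc.continuousAt (x := M)).congr (hev.mono fun _ h => h.symm)
  · have hp' := hp
    push Not at hp'
    obtain ⟨w, hw⟩ := hp'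
    have hev : ∀ᶠ M' in 𝓝 M, faDet M' = 0 := by
      have hc : Continuous fun M' : E n →L[ℝ] E n => ⟪M' w, w⟫ :=
        ((ContinuousLinearMap.apply ℝ (E n) w).continuous).inner continuous_const
      filter_upwards [hc.continuousAt.eventually_lt continuousAt_const hw] with M' hM'
      exact fa_det_npsd fun h => absurd (h w) (not_le.2 hM')
    exact (continuousAt_const (y := (0 : ℝ))).congr (hev.mono fun _ h => h.symm)

/-- L-FA-DET-A -/
theorem fa_det_nonneg {X : E n →L[ℝ] E n} (hs : ∀ a b, ⟪X a, b⟫ = ⟪a, X b⟫) : 0 ≤ faDet (1 + X) := by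
  by_cases hp : ∀ w, 0 ≤ ⟪(1 + X) w, w⟫
  · rw [fa_det_psd hp]
    have e : (1 + (1 : ℝ) • X : E n →L[ℝ] E n) = 1 + X := by rw [one_smul]
    have h1 := faa_det_le X hs 1 (by rw [e]; exact hp)
    rw [e] at h1
    exact h1.1
  · rw [fa_det_npsd hp]

theorem fa_aux_log3n (t : ℝ) (h0 : 0 ≤ t) (h1 : t ≤ 1) : 1 - t ≤ Real.exp (-t - t ^ 2 / 2 - t ^ 3 / 3) := by
  rcases h1.eq_or_lt with rfl | h1
  · simpa using (Real.exp_pos _).le
  have hs := Real.hasSum_pow_div_log_of_abs_lt_one (x := t) (by rw [abs_of_nonneg h0]; exact h1)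
  have h2 := sum_le_hasSum (Finset.range 3) (fun i _ => by positivity) hs
  simp only [Finset.sum_range_succ, Finset.sum_range_zero] at h2
  norm_num at h2
  have h3 : Real.log (1 - t) ≤ -t - t ^ 2 / 2 - t ^ 3 / 3 := by linarith
  calc 1 - t = Real.exp (Real.log (1 - t)) := (Real.exp_log (by linarith)).symm
    _ ≤ _ := Real.exp_le_exp.2 h3

theorem fa_aux_log2n (t : ℝ) (h0 : 0 ≤ t) (h1 : t ≤ 1) : 1 - t ≤ Real.exp (-t - t ^ 2 / 2) :=
  (fa_aux_log3n t h0 h1).trans (Real.exp_le_exp.2 (by have : 0 ≤ t ^ 3 := by positivity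
                                                      linarith))

theorem fa_aux_log3p (x : ℝ) (h0 : 0 ≤ x) : 1 + x ≤ Real.exp (x - x ^ 2 / 2 + x ^ 3 / 3) := by
  have hd : ∀ y : ℝ, 0 ≤ y → HasDerivAt (fun y : ℝ => y - y ^ 2 / 2 + y ^ 3 / 3 - Real.log (1 + y)) (y ^ 3 / (1 + y)) y := by
    intro y hy
    have hy1 : (1 + y) ≠ 0 := by linarith
    have h1 := (((hasDerivAt_id y).sub ((hasDerivAt_pow 2 y).div_const 2)).add ((hasDerivAt_pow 3 y).div_const 3)).sub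
      (((hasDerivAt_id y).const_add 1).log hy1)
    have e : y ^ 3 / (1 + y)
        = 1 - ((2 : ℕ) : ℝ) * y ^ (2 - 1) / 2 + ((3 : ℕ) : ℝ) * y ^ (3 - 1) / 3 - 1 / (1 + id y) := by
      simp only [id]
      norm_num
      field_simp
      ring
    rw [e]
    exact h1
  have hmono : MonotoneOn (fun y : ℝ => y - y ^ 2 / 2 + y ^ 3 / 3 - Real.log (1 + y)) (Set.Ici 0) := by
    refine monotoneOn_of_deriv_nonneg (convex_Ici 0) (fun y hy => (hd y hy).continuousAt.continuousWithinAt) ?_ ?_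
    · intro y hy
      rw [interior_Ici] at hy
      exact (hd y (le_of_lt hy)).differentiableAt.differentiableWithinAt
    · intro y hy
      rw [interior_Ici] at hy
      have hy' : (0 : ℝ) < y := hy
      rw [(hd y hy'.le).deriv]
      positivity
  have h2 := hmono (Set.mem_Ici.2 le_rfl) (Set.mem_Ici.2 h0) h0
  simp only at h2
  norm_num at h2
  calc 1 + x = Real.exp (Real.log (1 + x)) := (Real.exp_log (by linarith)).symm
    _ ≤ _ := Real.exp_le_exp.2 h2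

theorem fa_aux_log3 (x : ℝ) (h0 : -1 ≤ x) : 1 + x ≤ Real.exp (x - x ^ 2 / 2 + x ^ 3 / 3) := by
  rcases le_or_gt 0 x with h | h
  · exact fa_aux_log3p x h
  · have := fa_aux_log3n (-x) (by linarith) (by linarith)
    have e : -(-x) - (-x) ^ 2 / 2 - (-x) ^ 3 / 3 = x - x ^ 2 / 2 + x ^ 3 / 3 := by ring
    rw [e] at this
    linarith

/-- AM-GM with Gaussian remainder, eigenvalue form. -/
theorem fa_aux_V1 {n : ℕ} (lam : Fin n → ℝ) (hl : ∀ i, 0 ≤ 1 + lam i) (h0 : ∑ i, lam i = 0) :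
    ∏ i, (1 + lam i) ≤ Real.exp (-((∑ i, lam i ^ 2) / (8 * n))) := by
  rcases Nat.eq_zero_or_pos n with rfl | hn
  · simp
  have hn1 : (1 : ℝ) ≤ n := by exact_mod_cast hn
  set m : Fin n → ℝ := fun i => min (lam i) 0 with hm
  set p : Fin n → ℝ := fun i => max (lam i) 0 with hp
  have hpm : ∀ i, lam i = p i + m i := fun i => by
    simp only [hp, hm]; rw [max_add_min]; ring
  have hsq : ∀ i, lam i ^ 2 = p i ^ 2 + m i ^ 2 := fun i => by
    simp only [hp, hm]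
    rcases le_total (lam i) 0 with h | h
    · rw [max_eq_right h, min_eq_left h]; ring
    · rw [max_eq_left h, min_eq_right h]; ring
  have hp0 : ∀ i, 0 ≤ p i := fun i => le_max_right _ _
  have h1 : ∀ i, 1 + lam i ≤ Real.exp (lam i - m i ^ 2 / 2) := fun i => by
    simp only [hm]
    rcases le_total (lam i) 0 with h | h
    · rw [min_eq_left h]
      have := fa_aux_log2n (-lam i) (by linarith) (by linarith [hl i])
      have e : -(-lam i) - (-lam i) ^ 2 / 2 = lam i - lam i ^ 2 / 2 := by ring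
      rw [e] at this
      linarith
    · rw [min_eq_right h]
      have := Real.add_one_le_exp (lam i)
      norm_num
      linarith
  have h2 : ∏ i, (1 + lam i) ≤ Real.exp (∑ i, (lam i - m i ^ 2 / 2)) := by
    rw [Real.exp_sum]
    exact Finset.prod_le_prod (fun i _ => hl i) fun i _ => h1 i
  refine h2.trans (Real.exp_le_exp.2 ?_)
  rw [Finset.sum_sub_distrib, h0, ← Finset.sum_div]
  set Qm : ℝ := ∑ i, m i ^ 2 with hQm
  set Qp : ℝ := ∑ i, p i ^ 2 with hQp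
  have hQ : ∑ i, lam i ^ 2 = Qp + Qm := by
    rw [hQp, hQm, ← Finset.sum_add_distrib]
    exact Finset.sum_congr rfl fun i _ => hsq i
  have hsum : ∑ i, p i = -∑ i, m i := by
    have : ∑ i, lam i = ∑ i, p i + ∑ i, m i := by
      rw [← Finset.sum_add_distrib]; exact Finset.sum_congr rfl fun i _ => hpm i
    linarith
  have h3 : Qp ≤ (∑ i, p i) ^ 2 := Finset.sum_sq_le_sq_sum_of_nonneg fun i _ => hp0 i
  have h4 : (∑ i, m i) ^ 2 ≤ n * Qm := by
    have := sq_sum_le_card_mul_sum_sq (s := (Finset.univ : Finset (Fin n))) (f := m)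
    simpa using this
  have h5 : Qp ≤ n * Qm := by
    rw [hsum] at h3
    have e : (-∑ i, m i) ^ 2 = (∑ i, m i) ^ 2 := by ring
    rw [e] at h3
    exact h3.trans h4
  have hQm0 : 0 ≤ Qm := by rw [hQm]; positivity
  rw [hQ]
  have h6 : (Qp + Qm) / (8 * n) ≤ Qm / 2 := by
    rw [div_le_div_iff₀ (by positivity) (by norm_num)]
    nlinarith
  linarith

theorem fa_aux_V2 {n : ℕ} (lam : Fin n → ℝ) (h0 : ∑ i, lam i = 0) (hQ : ∑ i, lam i ^ 2 ≤ 1 / 4) :
    ∏ i, (1 + lam i) ≤ 1 - (∑ i, lam i ^ 2) / 2 + (∑ i, lam i ^ 2) * Real.sqrt (∑ i, lam i ^ 2) := by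
  set Q : ℝ := ∑ i, lam i ^ 2 with hQd
  set r : ℝ := Real.sqrt Q with hr
  have hQ0 : 0 ≤ Q := by rw [hQd]; positivity
  have hr0 : 0 ≤ r := Real.sqrt_nonneg _
  have hrr : r ^ 2 = Q := Real.sq_sqrt hQ0
  have hr2 : r ≤ 1 / 2 := by
    rw [hr]
    have : Real.sqrt Q ≤ Real.sqrt ((1 / 2) ^ 2) := Real.sqrt_le_sqrt (by norm_num; linarith)
    rwa [Real.sqrt_sq (by norm_num)] at this
  have hle : ∀ i, |lam i| ≤ r := fun i => by
    apply Real.abs_le_sqrt
    exact Finset.single_le_sum (f := fun i => lam i ^ 2) (fun j _ => by positivity) (Finset.mem_univ i)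
  have hl : ∀ i, -1 ≤ lam i := fun i => by
    have := (abs_le.1 (hle i)).1
    linarith
  have h2 : ∏ i, (1 + lam i) ≤ Real.exp (∑ i, (lam i - lam i ^ 2 / 2 + lam i ^ 3 / 3)) := by
    rw [Real.exp_sum]
    exact Finset.prod_le_prod (fun i _ => by linarith [hl i]) fun i _ => fa_aux_log3 _ (hl i)
  rw [Finset.sum_add_distrib, Finset.sum_sub_distrib, h0, ← Finset.sum_div, ← Finset.sum_div, ← hQd] at h2
  set S : ℝ := ∑ i, lam i ^ 3 with hS
  have hS1 : |S| ≤ r * Q := by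
    rw [hS, hQd, Finset.mul_sum]
    refine (Finset.abs_sum_le_sum_abs _ _).trans (Finset.sum_le_sum fun i _ => ?_)
    have e : |lam i ^ 3| = |lam i| * lam i ^ 2 := by
      rw [abs_pow, ← sq_abs (lam i)]; ring
    rw [e]
    exact mul_le_mul_of_nonneg_right (hle i) (by positivity)
  obtain ⟨hSl, hSu⟩ := abs_le.1 hS1
  set y : ℝ := 0 - Q / 2 + S / 3 with hy
  have hrQ : r * Q ≤ 1 / 8 := by nlinarith
  have hrQ0 : 0 ≤ r * Q := by positivity
  have hy1 : |y| ≤ Q / 2 + r * Q / 3 := by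
    rw [abs_le]; constructor <;> rw [hy] <;> linarith
  have hy2 : |y| ≤ 1 := by linarith
  have h3 := Real.abs_exp_sub_one_sub_id_le hy2
  have h4 := (abs_le.1 h3).2
  have h5 : y ^ 2 ≤ (Q / 2 + r * Q / 3) ^ 2 := by
    rw [← sq_abs y]
    exact pow_le_pow_left₀ (abs_nonneg _) hy1 2
  have h6 : (Q / 2 + r * Q / 3) ^ 2 ≤ 2 / 9 * (r * Q) := by
    have e : (Q / 2 + r * Q / 3) ^ 2 = (r * Q) * (r * (1 / 2 + r / 3) ^ 2) := by
      rw [← hrr]; ring
    rw [e, mul_comm (2 / 9 : ℝ)]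
    refine mul_le_mul_of_nonneg_left ?_ hrQ0
    have h7 : (1 / 2 + r / 3) ^ 2 ≤ 4 / 9 := by nlinarith
    nlinarith
  refine h2.trans ?_
  have e2 : Q * r = r * Q := mul_comm _ _
  rw [e2]
  have : y ≤ -Q / 2 + r * Q / 3 := by rw [hy]; linarith
  linarith

/-- L-FA-DET-A : AM-GM with a Gaussian remainder. -/
theorem fa_det_exp {X : E n →L[ℝ] E n} (hs : ∀ a b, ⟪X a, b⟫ = ⟪a, X b⟫) (ht : gmtSimTr X = 0) :
    faDet (1 + X) ≤ Real.exp (-(faHS X / (8 * n))) := by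
  by_cases hp : ∀ w, 0 ≤ ⟪(1 + X) w, w⟫
  · rw [fa_det_psd hp]
    obtain ⟨lam, htr, hQ, hdet, hpos⟩ := faa_spectral X hs
    have e : (1 + (1 : ℝ) • X : E n →L[ℝ] E n) = 1 + X := by rw [one_smul]
    have h1 := hdet 1
    have h2 := hpos 1 (by rw [e]; exact hp)
    rw [e] at h1
    simp only [one_mul] at h1 h2
    unfold faHS
    rw [h1, hQ]
    exact fa_aux_V1 lam h2 (by rw [← htr, ht])
  · rw [fa_det_npsd hp]
    exact (Real.exp_pos _).le

theorem fa_det_le_one {X : E n →L[ℝ] E n} (hs : ∀ a b, ⟪X a, b⟫ = ⟪a, X b⟫) (ht : gmtSimTr X = 0) :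
    faDet (1 + X) ≤ 1 := by
  refine (fa_det_exp hs ht).trans ?_
  rw [Real.exp_le_one_iff, neg_nonpos]
  have := fa_HS_nonneg X
  positivity

/-- L-FA-DET-B : second order expansion. -/
theorem fa_det_taylor {X : E n →L[ℝ] E n} (hs : ∀ a b, ⟪X a, b⟫ = ⟪a, X b⟫) (ht : gmtSimTr X = 0)
    (hX : faHS X ≤ 1 / 4) : faDet (1 + X) ≤ 1 - faHS X / 2 + faHS X * Real.sqrt (faHS X) := by
  by_cases hp : ∀ w, 0 ≤ ⟪(1 + X) w, w⟫
  · rw [fa_det_psd hp]
    obtain ⟨lam, htr, hQ, hdet, -⟩ := faa_spectral X hs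
    have e : (1 + (1 : ℝ) • X : E n →L[ℝ] E n) = 1 + X := by rw [one_smul]
    have h1 := hdet 1
    rw [e] at h1
    simp only [one_mul] at h1
    unfold faHS at hX ⊢
    rw [hQ] at hX
    rw [h1, hQ]
    exact fa_aux_V2 lam (by rw [← htr, ht]) hX
  · rw [fa_det_npsd hp]
    have h0 := fa_HS_nonneg X
    have h1 : 0 ≤ faHS X * Real.sqrt (faHS X) := by positivity
    linarith

/-- L-FA-DET-C : the truncated determinant is continuous along symmetric operators. -/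
theorem fa_det_cont {α : Type*} [TopologicalSpace α] {f : α → E n →L[ℝ] E n} {s : Set α} (hf : ContinuousOn f s)
    (hs : ∀ a ∈ s, ∀ x y, ⟪f a x, y⟫ = ⟪x, f a y⟫) : ContinuousOn (fun a => faDet (f a)) s :=
  fun a ha => (fa_det_contAt (hs a ha)).comp_continuousWithinAt (hf a ha)

end Claimed.Agent.R323
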