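import Claimed.Agent.R323.Fa.Lor

/-!
# Row 323, block E1b: the functions `ψ_v` and `θ_v`.   Architect: helper256.   Paper: Lemma 5.3 (`lem:family-graph`).   Mathlib + `Fa/Lor` only: NO GMT.

`u` satisfies `FaSd K u` (`1`-Lipschitz, `1`-homogeneous, `|u z| ≤ K|z|`, `K < 1`).   For `|v| < 1` put `F(b) = faH v y b - u (faZ v y b) = C (b + ⟨v,y⟩) - u (B y + C b v)`.
* `F(b₂) - F(b₁) ≥ C (1 - |v|) (b₂ - b₁)` for `b₁ ≤ b₂` (`u` is `1`-Lipschitz): `F` is continuous, strictly increasing, onto: EXACTLY ONE ZERO `= faPsi u v y`.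
* `1`-Lipschitz: for two graph points `|h₁ - h₂| ≤ |z₁ - z₂|`, and `|z₁-z₂|² - (h₁-h₂)² = |y₁-y₂|² - (b₁-b₂)²` (`fa_Z_sub`, `fa_H_sub`, `fa_inv`).
* `(1-K²)|z|² ≤ |z|² - h² = |y|² - b²`;  `|y| = |B z - C h v| ≤ 2 C |z|`;  `b + ⟨v,y⟩ = h/C`.
* continuity in `(v,y)`: `C(1-|v|) |ψ_v(y) - b₀| ≤ |F_{v,y}(b₀)|`, `b₀ = ψ_{v₀}(y₀)`, and `(v,y) ↦ F_{v,y}(b₀)` is continuous on `ball 0 1 × E n`; at `|v₀| = 1` use `fa_psi_near`.
-/

set_option autoImplicit false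
open scoped ContDiff ENNReal NNReal RealInnerProductSpace Topology
open MeasureTheory Metric Set Filter

namespace Claimed.Agent.R323

open Claimed.Agent.Gmt

variable {n : ℕ}

/-! ### L-FA-PSI-A : existence, uniqueness, algebraic properties -/

/-- helper: `F(b₂) - F(b₁) ≥ C (1 - |v|) (b₂ - b₁)`. -/
theorem fa_psi_aux_mono {K : ℝ} {u : E n → ℝ} (hK : FaSd K u) {v : E n} (hv : ‖v‖ < 1) (y : E n) {b₁ b₂ : ℝ} (hb : b₁ ≤ b₂) :
    faC v * (1 - ‖v‖) * (b₂ - b₁) ≤ (faH v y b₂ - u (faZ v y b₂)) - (faH v y b₁ - u (faZ v y b₁)) := by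
  have hC := fa_C_pos hv
  have h1 : u (faZ v y b₂) - u (faZ v y b₁) ≤ ‖faZ v y b₂ - faZ v y b₁‖ := by
    have := hK.lip.dist_le_mul (faZ v y b₂) (faZ v y b₁)
    rw [Real.dist_eq, dist_eq_norm] at this
    simp only [NNReal.coe_one, one_mul] at this
    exact (le_abs_self _).trans this
  have h2 : faZ v y b₂ - faZ v y b₁ = (faC v * (b₂ - b₁)) • v := by
    unfold faZ
    rw [add_sub_add_left_eq_sub, ← sub_smul, mul_sub]
  have h3 : ‖faZ v y b₂ - faZ v y b₁‖ = faC v * (b₂ - b₁) * ‖v‖ := by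
    rw [h2, norm_smul, Real.norm_eq_abs, abs_of_nonneg (mul_nonneg hC.le (sub_nonneg.2 hb))]
  have h4 : faH v y b₂ - faH v y b₁ = faC v * (b₂ - b₁) := by
    unfold faH
    ring
  have h5 : faC v * (1 - ‖v‖) * (b₂ - b₁) = faC v * (b₂ - b₁) - faC v * (b₂ - b₁) * ‖v‖ := by ring
  linarith

/-- helper: `F` is continuous. -/
theorem fa_psi_aux_cont {K : ℝ} {u : E n → ℝ} (hK : FaSd K u) (v y : E n) :
    Continuous fun b : ℝ => faH v y b - u (faZ v y b) := by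
  have h1 : Continuous fun b : ℝ => faZ v y b := by
    unfold faZ
    fun_prop
  have h2 : Continuous fun b : ℝ => faH v y b := by
    unfold faH
    fun_prop
  exact h2.sub (hK.lip.continuous.comp h1)

/-- helper: existence of the zero. -/
theorem fa_psi_aux_ex {K : ℝ} {u : E n → ℝ} (hK : FaSd K u) {v : E n} (hv : ‖v‖ < 1) (y : E n) :
    ∃ b, faH v y b = u (faZ v y b) := by
  obtain ⟨F, hF⟩ : ∃ F : ℝ → ℝ, F = fun b => faH v y b - u (faZ v y b) := ⟨_, rfl⟩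
  have hcont : Continuous F := by
    rw [hF]
    exact fa_psi_aux_cont hK v y
  have hmono : ∀ b₁ b₂ : ℝ, b₁ ≤ b₂ → faC v * (1 - ‖v‖) * (b₂ - b₁) ≤ F b₂ - F b₁ := by
    intro b₁ b₂ hb
    rw [hF]
    exact fa_psi_aux_mono hK hv y hb
  have hc : 0 < faC v * (1 - ‖v‖) := mul_pos (fa_C_pos hv) (by linarith)
  obtain ⟨c, hcd⟩ : ∃ c : ℝ, c = faC v * (1 - ‖v‖) := ⟨_, rfl⟩
  rw [← hcd] at hc hmono
  have hq : 0 ≤ |F 0| / c := by positivity
  have e : c * (|F 0| / c) = |F 0| := by field_simp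
  have hup : 0 ≤ F (|F 0| / c) := by
    have h1 := hmono 0 (|F 0| / c) hq
    rw [sub_zero, e] at h1
    have h3 := neg_abs_le (F 0)
    linarith
  have hlo : F (-(|F 0| / c)) ≤ 0 := by
    have h1 := hmono (-(|F 0| / c)) 0 (by linarith)
    rw [zero_sub, neg_neg, e] at h1
    have h3 := le_abs_self (F 0)
    linarith
  obtain ⟨b, -, hb⟩ := intermediate_value_Icc (a := -(|F 0| / c)) (b := |F 0| / c) (by linarith) hcont.continuousOn ⟨hlo, hup⟩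
  rw [hF] at hb
  exact ⟨b, sub_eq_zero.1 hb⟩

/-- helper: uniqueness of the zero. -/
theorem fa_psi_aux_uniq {K : ℝ} {u : E n → ℝ} (hK : FaSd K u) {v : E n} (hv : ‖v‖ < 1) {y : E n} {b b' : ℝ}
    (h : faH v y b = u (faZ v y b)) (h' : faH v y b' = u (faZ v y b')) : b = b' := by
  have hc : 0 < faC v * (1 - ‖v‖) := mul_pos (fa_C_pos hv) (by linarith)
  rcases le_total b b' with hb | hb
  · have h1 := fa_psi_aux_mono hK hv y hb
    rw [h, h', sub_self, sub_self, sub_self] at h1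
    have h2 : b' - b ≤ 0 := by
      by_contra hcon
      push Not at hcon
      have := mul_pos hc hcon
      linarith
    linarith
  · have h1 := fa_psi_aux_mono hK hv y hb
    rw [h, h', sub_self, sub_self, sub_self] at h1
    have h2 : b - b' ≤ 0 := by
      by_contra hcon
      push Not at hcon
      have := mul_pos hc hcon
      linarith
    linarith

theorem fa_psi_spec {K : ℝ} {u : E n → ℝ} (hK : FaSd K u) {v : E n} (hv : ‖v‖ < 1) (y : E n) :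
    faH v y (faPsi u v y) = u (faZ v y (faPsi u v y)) := by
  have hex := fa_psi_aux_ex hK hv y
  have e : faPsi u v y = hex.choose := by
    unfold faPsi
    rw [if_pos hv, dif_pos hex]
  rw [e]
  exact hex.choose_spec

theorem fa_psi_unique {K : ℝ} {u : E n → ℝ} (hK : FaSd K u) {v : E n} (hv : ‖v‖ < 1) {y : E n} {b : ℝ}
    (h : faH v y b = u (faZ v y b)) : faPsi u v y = b :=
  fa_psi_aux_uniq hK hv (fa_psi_spec hK hv y) h

theorem fa_psi_bdry (u : E n → ℝ) {v : E n} (hv : 1 ≤ ‖v‖) (y : E n) : faPsi u v y = -⟪v, y⟫ := by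
  unfold faPsi
  rw [if_neg (not_lt.2 hv)]

theorem fa_psi_zero {K : ℝ} {u : E n → ℝ} (hK : FaSd K u) (y : E n) : faPsi u 0 y = u y := by
  have hv : ‖(0 : E n)‖ < 1 := by
    rw [norm_zero]
    exact one_pos
  refine fa_psi_unique hK hv ?_
  have e1 : faH (0 : E n) y (u y) = u y := by
    unfold faH
    rw [fa_C_zero, inner_zero_left, add_zero, one_mul]
  have e2 : faZ (0 : E n) y (u y) = y := by
    unfold faZ
    rw [fa_B_apply, smul_zero, smul_zero, add_zero, add_zero]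
  rw [e1, e2]

theorem fa_psi_lip {K : ℝ} {u : E n → ℝ} (hK : FaSd K u) {v : E n} (hv : ‖v‖ ≤ 1) :
    LipschitzWith 1 (faPsi u v) := by
  refine LipschitzWith.mk_one fun y₁ y₂ => ?_
  rw [Real.dist_eq, dist_eq_norm]
  rcases lt_or_eq_of_le hv with hv1 | hv1
  · have s1 := fa_psi_spec hK hv1 y₁
    have s2 := fa_psi_spec hK hv1 y₂
    have h1 : |faH v y₁ (faPsi u v y₁) - faH v y₂ (faPsi u v y₂)| ≤ ‖faZ v y₁ (faPsi u v y₁) - faZ v y₂ (faPsi u v y₂)‖ := by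
      rw [s1, s2]
      have := hK.lip.dist_le_mul (faZ v y₁ (faPsi u v y₁)) (faZ v y₂ (faPsi u v y₂))
      rw [Real.dist_eq, dist_eq_norm] at this
      simpa only [NNReal.coe_one, one_mul] using this
    rw [fa_Z_sub, fa_H_sub] at h1
    have h2 := fa_inv hv1 (y₁ - y₂) (faPsi u v y₁ - faPsi u v y₂)
    have h3 : faH v (y₁ - y₂) (faPsi u v y₁ - faPsi u v y₂) ^ 2 ≤ ‖faZ v (y₁ - y₂) (faPsi u v y₁ - faPsi u v y₂)‖ ^ 2 := by
      rw [← sq_abs]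
      exact pow_le_pow_left₀ (abs_nonneg _) h1 2
    have h4 : (faPsi u v y₁ - faPsi u v y₂) ^ 2 ≤ ‖y₁ - y₂‖ ^ 2 := by linarith
    exact abs_le_of_sq_le_sq h4 (norm_nonneg _)
  · rw [fa_psi_bdry u hv1.ge, fa_psi_bdry u hv1.ge]
    have e : -⟪v, y₁⟫ - -⟪v, y₂⟫ = -⟪v, y₁ - y₂⟫ := by
      rw [inner_sub_right]
      ring
    rw [e, abs_neg]
    calc |⟪v, y₁ - y₂⟫| ≤ ‖v‖ * ‖y₁ - y₂‖ := abs_real_inner_le_norm _ _
      _ = ‖y₁ - y₂‖ := by rw [hv1, one_mul]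

theorem fa_psi_hom {K : ℝ} {u : E n → ℝ} (hK : FaSd K u) (v : E n) {t : ℝ} (ht : 0 < t) (y : E n) :
    faPsi u v (t • y) = t * faPsi u v y := by
  rcases lt_or_ge ‖v‖ 1 with hv | hv
  · refine fa_psi_unique hK hv ?_
    rw [fa_H_smul, fa_Z_smul, hK.hom t ht, fa_psi_spec hK hv y]
  · rw [fa_psi_bdry u hv, fa_psi_bdry u hv, inner_smul_right]
    ring

theorem fa_Zy_hom {K : ℝ} {u : E n → ℝ} (hK : FaSd K u) (v : E n) {t : ℝ} (ht : 0 < t) (y : E n) :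
    faZy u v (t • y) = t • faZy u v y := by
  unfold faZy
  rw [fa_psi_hom hK v ht y, fa_Z_smul]

/-- helper: `(1-K²)|z|² ≤ |y|² - ψ²`. -/
theorem fa_psi_aux_z {K : ℝ} {u : E n → ℝ} (hK : FaSd K u) {v : E n} (hv : ‖v‖ < 1) (y : E n) :
    (1 - K ^ 2) * ‖faZy u v y‖ ^ 2 ≤ ‖y‖ ^ 2 - faPsi u v y ^ 2 := by
  have h1 := fa_inv hv y (faPsi u v y)
  have h2 := hK.bd (faZ v y (faPsi u v y))
  rw [← fa_psi_spec hK hv y] at h2
  have h3 : faH v y (faPsi u v y) ^ 2 ≤ (K * ‖faZ v y (faPsi u v y)‖) ^ 2 := by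
    rw [← sq_abs]
    exact pow_le_pow_left₀ (abs_nonneg _) h2 2
  unfold faZy
  nlinarith

/-- helper: `|y| ≤ 2 C |z|`. -/
theorem fa_psi_aux_y {K : ℝ} {u : E n → ℝ} (hK : FaSd K u) {v : E n} (hv : ‖v‖ < 1) (y : E n) :
    ‖y‖ ≤ 2 * faC v * ‖faZy u v y‖ := by
  have hC := fa_C_pos hv
  have h1 := fa_Y_Z hv y (faPsi u v y)
  have h2 := hK.bd (faZ v y (faPsi u v y))
  rw [← fa_psi_spec hK hv y] at h2
  have h3 : ‖faY v (faZ v y (faPsi u v y)) (faH v y (faPsi u v y))‖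
      ≤ faC v * ‖faZ v y (faPsi u v y)‖ + faC v * |faH v y (faPsi u v y)| * ‖v‖ := by
    unfold faY
    refine (norm_sub_le _ _).trans (add_le_add (fa_B_norm_le hv _) (le_of_eq ?_))
    rw [norm_smul, Real.norm_eq_abs, abs_mul, abs_of_pos hC]
  rw [h1] at h3
  unfold faZy
  have hz := norm_nonneg (faZ v y (faPsi u v y))
  have h4 : |faH v y (faPsi u v y)| * ‖v‖ ≤ ‖faZ v y (faPsi u v y)‖ := by
    calc |faH v y (faPsi u v y)| * ‖v‖ ≤ (K * ‖faZ v y (faPsi u v y)‖) * 1 :=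
          mul_le_mul h2 hv.le (norm_nonneg _) (mul_nonneg hK.K0 hz)
      _ ≤ 1 * ‖faZ v y (faPsi u v y)‖ * 1 := by
          have := mul_le_mul_of_nonneg_right hK.K1.le hz
          linarith
      _ = _ := by ring
  have h5 : faC v * |faH v y (faPsi u v y)| * ‖v‖ ≤ faC v * ‖faZ v y (faPsi u v y)‖ := by
    rw [mul_assoc]
    exact mul_le_mul_of_nonneg_left h4 hC.le
  linarith

/-- `|ψ_v| ≤ κ |y|` with `κ < 1` (`κ² = 1 - (1-K²)/(4C²)`). -/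
theorem fa_psi_lt {K : ℝ} {u : E n → ℝ} (hK : FaSd K u) {v : E n} (hv : ‖v‖ < 1) :
    ∃ κ : ℝ, 0 ≤ κ ∧ κ < 1 ∧ ∀ y, |faPsi u v y| ≤ κ * ‖y‖ := by
  have hC := fa_C_pos hv
  have hK2 : 0 < 1 - K ^ 2 := by
    have := hK.K0
    have := hK.K1
    nlinarith
  obtain ⟨q, hq⟩ : ∃ q : ℝ, q = (1 - K ^ 2) / (4 * faC v ^ 2) := ⟨_, rfl⟩
  have hq0 : 0 < q := by
    rw [hq]
    positivity
  refine ⟨Real.sqrt (1 - q), Real.sqrt_nonneg _, ?_, fun y => ?_⟩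
  · rw [Real.sqrt_lt' one_pos]
    linarith
  · have h1 := fa_psi_aux_z hK hv y
    have h2 := fa_psi_aux_y hK hv y
    have h3 : ‖y‖ ^ 2 ≤ (2 * faC v * ‖faZy u v y‖) ^ 2 := pow_le_pow_left₀ (norm_nonneg _) h2 2
    have h4 : q * ‖y‖ ^ 2 ≤ (1 - K ^ 2) * ‖faZy u v y‖ ^ 2 := by
      have e : (1 - K ^ 2) * ‖faZy u v y‖ ^ 2 = q * (2 * faC v * ‖faZy u v y‖) ^ 2 := by
        rw [hq]
        field_simp
        ring
      rw [e]
      exact mul_le_mul_of_nonneg_left h3 hq0.le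
    have h5 : faPsi u v y ^ 2 ≤ (1 - q) * ‖y‖ ^ 2 := by linarith
    have h6 : |faPsi u v y| ≤ Real.sqrt ((1 - q) * ‖y‖ ^ 2) := Real.abs_le_sqrt h5
    by_cases hq1 : 0 ≤ 1 - q
    · rwa [Real.sqrt_mul hq1, Real.sqrt_sq (norm_nonneg _)] at h6
    · push Not at hq1
      have h7 : (1 - q) * ‖y‖ ^ 2 ≤ 0 := mul_nonpos_of_nonpos_of_nonneg hq1.le (by positivity)
      rw [Real.sqrt_eq_zero_of_nonpos h7] at h6
      rw [Real.sqrt_eq_zero_of_nonpos hq1.le, zero_mul]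
      exact h6

/-- uniform compactification (paper (5.7)). -/
theorem fa_psi_near {K : ℝ} {u : E n → ℝ} (hK : FaSd K u) {v : E n} (hv : ‖v‖ < 1) (y : E n) :
    |faPsi u v y + ⟪v, y⟫| ≤ K / Real.sqrt (1 - K ^ 2) * Real.sqrt (1 - ‖v‖ ^ 2) * ‖y‖ := by
  have hC := fa_C_pos hv
  have hK2 : 0 < 1 - K ^ 2 := by
    have := hK.K0
    have := hK.K1
    nlinarith
  have hs : 0 < Real.sqrt (1 - K ^ 2) := Real.sqrt_pos.2 hK2
  have h1 := fa_psi_aux_z hK hv y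
  have h2 := hK.bd (faZ v y (faPsi u v y))
  rw [← fa_psi_spec hK hv y] at h2
  -- `|z| ≤ |y| / √(1-K²)`
  have h3 : Real.sqrt (1 - K ^ 2) * ‖faZy u v y‖ ≤ ‖y‖ := by
    have h4 : (Real.sqrt (1 - K ^ 2) * ‖faZy u v y‖) ^ 2 ≤ ‖y‖ ^ 2 := by
      rw [mul_pow, Real.sq_sqrt hK2.le]
      have := sq_nonneg (faPsi u v y)
      linarith
    exact (abs_le_of_sq_le_sq' h4 (norm_nonneg _)).2
  have h5 : ‖faZy u v y‖ ≤ ‖y‖ / Real.sqrt (1 - K ^ 2) := by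
    rw [le_div_iff₀ hs, mul_comm]
    exact h3
  -- `ψ + ⟨v,y⟩ = h √(1-|v|²)`
  have e : faPsi u v y + ⟪v, y⟫ = faH v y (faPsi u v y) * Real.sqrt (1 - ‖v‖ ^ 2) := by
    have hne : Real.sqrt (1 - ‖v‖ ^ 2) ≠ 0 := by
      intro h0
      unfold faC at hC
      rw [h0, inv_zero] at hC
      exact lt_irrefl _ hC
    unfold faH faC
    field_simp
  rw [e, abs_mul, abs_of_nonneg (Real.sqrt_nonneg _)]
  have h6 : |faH v y (faPsi u v y)| ≤ K * (‖y‖ / Real.sqrt (1 - K ^ 2)) :=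
    h2.trans (mul_le_mul_of_nonneg_left h5 hK.K0)
  calc |faH v y (faPsi u v y)| * Real.sqrt (1 - ‖v‖ ^ 2) ≤ K * (‖y‖ / Real.sqrt (1 - K ^ 2)) * Real.sqrt (1 - ‖v‖ ^ 2) :=
        mul_le_mul_of_nonneg_right h6 (Real.sqrt_nonneg _)
    _ = _ := by ring

/-- the value of `ψ_v` at a contact. -/
theorem fa_psi_ct {K : ℝ} {u : E n → ℝ} (hK : FaSd K u) {v : E n} (hv : ‖v‖ < 1) {p : E n} {s : ℝ}
    (hc : FaCt u p s) : faPsi u v (faYs u v p s) = faBs u v p s := by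
  refine fa_psi_unique hK hv ?_
  unfold faYs faBs
  rw [fa_H_Y hv, fa_Z_Y hv]
  exact hc.symm

theorem fa_Zy_ct {K : ℝ} {u : E n → ℝ} (hK : FaSd K u) {v : E n} (hv : ‖v‖ < 1) {p : E n} {s : ℝ}
    (hc : FaCt u p s) : faZy u v (faYs u v p s) = p + s • gradient u p := by
  unfold faZy
  rw [fa_psi_ct hK hv hc]
  unfold faYs faBs
  exact fa_Z_Y hv _ _

/-- `u (z_v(y)) = C (ψ_v(y) + ⟨v,y⟩)` and `|z_v(y)|² = |y|² - ψ² + h²`. -/
theorem fa_Zy_norm {K : ℝ} {u : E n → ℝ} (hK : FaSd K u) {v : E n} (hv : ‖v‖ < 1) (y : E n) :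
    u (faZy u v y) = faC v * (faPsi u v y + ⟪v, y⟫) ∧
      ‖faZy u v y‖ ^ 2 = ‖y‖ ^ 2 - faPsi u v y ^ 2 + (faC v * (faPsi u v y + ⟪v, y⟫)) ^ 2 := by
  have h1 := fa_psi_spec hK hv y
  have h2 := fa_inv hv y (faPsi u v y)
  have e : faH v y (faPsi u v y) = faC v * (faPsi u v y + ⟪v, y⟫) := rfl
  unfold faZy
  rw [← h1, ← e]
  exact ⟨rfl, by linarith⟩

/-! ### L-FA-PSI-B : joint continuity -/

/-- helper: `fa_psi_near` for all `v`. -/
theorem fa_psi_aux_near {K : ℝ} {u : E n → ℝ} (hK : FaSd K u) (v y : E n) :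
    |faPsi u v y + ⟪v, y⟫| ≤ K / Real.sqrt (1 - K ^ 2) * Real.sqrt (1 - ‖v‖ ^ 2) * ‖y‖ := by
  rcases lt_or_ge ‖v‖ 1 with hv | hv
  · exact fa_psi_near hK hv y
  · rw [fa_psi_bdry u hv, neg_add_cancel, abs_zero]
    have := hK.K0
    positivity

/-- helper: continuity at `|v₀| = 1`. -/
theorem fa_psi_aux_cont1 {K : ℝ} {u : E n → ℝ} (hK : FaSd K u) {v₀ : E n} (hv₀ : ‖v₀‖ = 1) (y₀ : E n) :
    ContinuousAt (fun q : E n × E n => faPsi u q.1 q.2) (v₀, y₀) := by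
  have hR : Continuous (fun q : E n × E n => K / Real.sqrt (1 - K ^ 2) * Real.sqrt (1 - ‖q.1‖ ^ 2) * ‖q.2‖) := by fun_prop
  have hI : Continuous (fun q : E n × E n => -⟪q.1, q.2⟫) := by fun_prop
  have hd : Tendsto (fun q : E n × E n => faPsi u q.1 q.2 + ⟪q.1, q.2⟫) (𝓝 (v₀, y₀)) (𝓝 0) := by
    refine squeeze_zero_norm (a := fun q : E n × E n => K / Real.sqrt (1 - K ^ 2) * Real.sqrt (1 - ‖q.1‖ ^ 2) * ‖q.2‖) (fun q => ?_) ?_
    · rw [Real.norm_eq_abs]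
      exact fa_psi_aux_near hK q.1 q.2
    · have h1 := hR.tendsto (v₀, y₀)
      simp only [hv₀] at h1
      simpa using h1
  have h2 := hd.add (hI.tendsto (v₀, y₀))
  unfold ContinuousAt
  simp only
  rw [fa_psi_bdry u hv₀.ge]
  simpa using h2

/-- helper: `(1 - |v|) |ψ_v(y) - b₀| ≤ |F_{v,y}(b₀)|`. -/
theorem fa_psi_aux_cmp {K : ℝ} {u : E n → ℝ} (hK : FaSd K u) {v : E n} (hv : ‖v‖ < 1) (y : E n) (b₀ : ℝ) :
    (1 - ‖v‖) * |faPsi u v y - b₀| ≤ |faH v y b₀ - u (faZ v y b₀)| := by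
  have hC1 := fa_C_ge_one hv
  have hs := fa_psi_spec hK hv y
  have h1 : 0 ≤ 1 - ‖v‖ := by linarith
  rcases le_total b₀ (faPsi u v y) with hb | hb
  · have h2 := fa_psi_aux_mono hK hv y hb
    rw [hs, sub_self, zero_sub] at h2
    rw [abs_of_nonneg (sub_nonneg.2 hb)]
    have h3 : (1 - ‖v‖) * (faPsi u v y - b₀) ≤ faC v * (1 - ‖v‖) * (faPsi u v y - b₀) := by
      have : 0 ≤ (1 - ‖v‖) * (faPsi u v y - b₀) := mul_nonneg h1 (sub_nonneg.2 hb)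
      nlinarith
    exact h3.trans (h2.trans (neg_le_abs _))
  · have h2 := fa_psi_aux_mono hK hv y hb
    rw [hs, sub_self, sub_zero] at h2
    rw [abs_sub_comm, abs_of_nonneg (sub_nonneg.2 hb)]
    have h3 : (1 - ‖v‖) * (b₀ - faPsi u v y) ≤ faC v * (1 - ‖v‖) * (b₀ - faPsi u v y) := by
      have : 0 ≤ (1 - ‖v‖) * (b₀ - faPsi u v y) := mul_nonneg h1 (sub_nonneg.2 hb)
      nlinarith
    exact h3.trans (h2.trans (le_abs_self _))

/-- helper: `C` along the first coordinate. -/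
theorem fa_psi_aux_C {v₀ : E n} (hv₀ : ‖v₀‖ < 1) (y₀ : E n) : ContinuousAt (fun q : E n × E n => faC q.1) (v₀, y₀) := by
  have h1 : ContinuousAt (fun v : E n => faC v) v₀ :=
    fa_C_cont.continuousAt (isOpen_ball.mem_nhds (by simpa using hv₀))
  exact ContinuousAt.comp (f := Prod.fst) (g := fun v : E n => faC v) (x := (v₀, y₀)) h1 continuousAt_fst

/-- helper: joint continuity of the boost. -/
theorem fa_psi_aux_Z {v₀ : E n} (hv₀ : ‖v₀‖ < 1) (y₀ : E n) {β : E n × E n → ℝ} (hβ : ContinuousAt β (v₀, y₀)) :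
    ContinuousAt (fun q : E n × E n => faZ q.1 q.2 (β q)) (v₀, y₀) := by
  have hC := fa_psi_aux_C hv₀ y₀
  have hpos := fa_C_pos hv₀
  have e : (fun q : E n × E n => faZ q.1 q.2 (β q))
      = fun q : E n × E n => q.2 + (faC q.1 ^ 2 / (faC q.1 + 1) * ⟪q.1, q.2⟫) • q.1 + (faC q.1 * β q) • q.1 := by
    funext q
    unfold faZ
    rw [fa_B_apply]
  rw [e]
  have h1 : ContinuousAt (fun q : E n × E n => faC q.1 ^ 2 / (faC q.1 + 1)) (v₀, y₀) :=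
    (hC.pow 2).div (hC.add continuousAt_const) (by simp only; positivity)
  have h2 : ContinuousAt (fun q : E n × E n => ⟪q.1, q.2⟫) (v₀, y₀) := by fun_prop
  exact (continuousAt_snd.add ((h1.mul h2).smul continuousAt_fst)).add ((hC.mul hβ).smul continuousAt_fst)

/-- helper: joint continuity of the height of the boost. -/
theorem fa_psi_aux_H {v₀ : E n} (hv₀ : ‖v₀‖ < 1) (y₀ : E n) {β : E n × E n → ℝ} (hβ : ContinuousAt β (v₀, y₀)) :
    ContinuousAt (fun q : E n × E n => faH q.1 q.2 (β q)) (v₀, y₀) := by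
  have hC := fa_psi_aux_C hv₀ y₀
  have h2 : ContinuousAt (fun q : E n × E n => ⟪q.1, q.2⟫) (v₀, y₀) := by fun_prop
  unfold faH
  exact hC.mul (hβ.add h2)

/-- helper: continuity at `|v₀| < 1`. -/
theorem fa_psi_aux_cont0 {K : ℝ} {u : E n → ℝ} (hK : FaSd K u) {v₀ : E n} (hv₀ : ‖v₀‖ < 1) (y₀ : E n) :
    ContinuousAt (fun q : E n × E n => faPsi u q.1 q.2) (v₀, y₀) := by
  obtain ⟨b₀, hb₀⟩ : ∃ b₀ : ℝ, b₀ = faPsi u v₀ y₀ := ⟨_, rfl⟩
  have hG : ContinuousAt (fun q : E n × E n => faH q.1 q.2 b₀ - u (faZ q.1 q.2 b₀)) (v₀, y₀) := by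
    refine (fa_psi_aux_H hv₀ y₀ continuousAt_const).sub ?_
    exact ContinuousAt.comp (g := u) (f := fun q : E n × E n => faZ q.1 q.2 b₀) hK.lip.continuous.continuousAt
      (fa_psi_aux_Z hv₀ y₀ continuousAt_const)
  have hG0 : faH v₀ y₀ b₀ - u (faZ v₀ y₀ b₀) = 0 := by
    rw [hb₀]
    exact sub_eq_zero.2 (fa_psi_spec hK hv₀ y₀)
  have hden : ContinuousAt (fun q : E n × E n => (1 - ‖q.1‖)⁻¹) (v₀, y₀) := by
    refine ContinuousAt.inv₀ (by fun_prop) ?_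
    simp only
    linarith
  have hev : ∀ᶠ q : E n × E n in 𝓝 (v₀, y₀), ‖q.1‖ < 1 := by
    have h1 : ContinuousAt (fun q : E n × E n => ‖q.1‖) (v₀, y₀) := by fun_prop
    exact h1.eventually (gt_mem_nhds hv₀)
  have hbound : ∀ᶠ q : E n × E n in 𝓝 (v₀, y₀),
      ‖faPsi u q.1 q.2 - faPsi u v₀ y₀‖ ≤ |faH q.1 q.2 b₀ - u (faZ q.1 q.2 b₀)| * (1 - ‖q.1‖)⁻¹ := by
    filter_upwards [hev] with q hq
    have h1 := fa_psi_aux_cmp hK hq q.2 b₀
    have h2 : 0 < 1 - ‖q.1‖ := by linarith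
    rw [Real.norm_eq_abs, ← hb₀, ← div_eq_mul_inv, le_div_iff₀ h2, mul_comm]
    exact h1
  unfold ContinuousAt
  rw [tendsto_iff_norm_sub_tendsto_zero]
  refine squeeze_zero' (Eventually.of_forall fun _ => norm_nonneg _) hbound ?_
  have h3 : Tendsto (fun q : E n × E n => |faH q.1 q.2 b₀ - u (faZ q.1 q.2 b₀)| * (1 - ‖q.1‖)⁻¹) (𝓝 (v₀, y₀))
      (𝓝 (|faH v₀ y₀ b₀ - u (faZ v₀ y₀ b₀)| * (1 - ‖v₀‖)⁻¹)) := (hG.abs.mul hden).tendsto
  rw [hG0, abs_zero, zero_mul] at h3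
  exact h3

theorem fa_psi_cont {K : ℝ} {u : E n → ℝ} (hK : FaSd K u) :
    ContinuousOn (fun q : E n × E n => faPsi u q.1 q.2) (closedBall (0 : E n) 1 ×ˢ univ) := by
  rintro ⟨v₀, y₀⟩ ⟨hv, -⟩
  have hv' : ‖v₀‖ ≤ 1 := by simpa using hv
  rcases lt_or_eq_of_le hv' with h | h
  · exact (fa_psi_aux_cont0 hK h y₀).continuousWithinAt
  · exact (fa_psi_aux_cont1 hK h y₀).continuousWithinAt

theorem fa_Zy_cont {K : ℝ} {u : E n → ℝ} (hK : FaSd K u) :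
    ContinuousOn (fun q : E n × E n => faZy u q.1 q.2) (ball (0 : E n) 1 ×ˢ univ) := by
  rintro ⟨v₀, y₀⟩ ⟨hv, -⟩
  have hv' : ‖v₀‖ < 1 := by simpa using hv
  unfold faZy
  exact (fa_psi_aux_Z hv' y₀ (fa_psi_aux_cont0 hK hv' y₀)).continuousWithinAt

/-! ### L-FA-TH-A : `θ_v`, elementary -/

theorem fa_th_hom {K : ℝ} {u : E n → ℝ} (hK : FaSd K u) (v : E n) {t : ℝ} (ht : 0 < t) (y : E n) :
    faTh u v (t • y) = faTh u v y := by
  unfold faTh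
  rw [fa_psi_hom hK v ht y, norm_smul, Real.norm_eq_abs, abs_of_pos ht, mul_div_mul_left _ _ ht.ne']

theorem fa_th_abs_le (u : E n → ℝ) (v y : E n) : |faTh u v y| ≤ Real.pi / 2 :=
  abs_le.2 ⟨Real.neg_pi_div_two_le_arcsin _, Real.arcsin_le_pi_div_two _⟩

theorem fa_th_lt {K : ℝ} {u : E n → ℝ} (hK : FaSd K u) {v : E n} (hv : ‖v‖ < 1) (y : E n) :
    |faTh u v y| < Real.pi / 2 := by
  obtain ⟨κ, hκ0, hκ1, hκ⟩ := fa_psi_lt hK hv
  have h1 : |faPsi u v y / ‖y‖| < 1 := by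
    rcases eq_or_ne y 0 with rfl | hy
    · rw [norm_zero, div_zero, abs_zero]
      exact one_pos
    · have hy' : 0 < ‖y‖ := norm_pos_iff.2 hy
      rw [abs_div, abs_of_pos hy', div_lt_one hy']
      calc |faPsi u v y| ≤ κ * ‖y‖ := hκ y
        _ < 1 * ‖y‖ := mul_lt_mul_of_pos_right hκ1 hy'
        _ = ‖y‖ := one_mul _
  obtain ⟨h2, h3⟩ := abs_lt.1 h1
  unfold faTh
  exact abs_lt.2 ⟨Real.neg_pi_div_two_lt_arcsin.2 h2, Real.arcsin_lt_pi_div_two.2 h3⟩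

theorem fa_th_neg (u : E n → ℝ) {v : E n} (hv : ‖v‖ = 1) (y : E n) : faTh u (-v) y = -faTh u v y := by
  unfold faTh
  rw [fa_psi_bdry u (v := -v) (by rw [norm_neg]; exact hv.ge), fa_psi_bdry u hv.ge, ← Real.arcsin_neg, inner_neg_left, neg_div, neg_div, neg_neg]

theorem fa_th_cont {K : ℝ} {u : E n → ℝ} (hK : FaSd K u) :
    ContinuousOn (fun q : E n × E n => faTh u q.1 q.2) (closedBall (0 : E n) 1 ×ˢ {0}ᶜ) := by
  unfold faTh
  refine Real.continuous_arcsin.comp_continuousOn (ContinuousOn.div ?_ (by fun_prop) ?_)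
  · exact (fa_psi_cont hK).mono (prod_mono_right (subset_univ _))
  · rintro ⟨v, y⟩ ⟨-, hy⟩
    exact norm_ne_zero_iff.2 hy

/-- `|𝒴| = |p| / cos t` at that contact. -/
theorem fa_Ys_norm_ct (u : E n → ℝ) {v : E n} (hv : ‖v‖ < 1) {p : E n}
    (hN : ‖gradient u p‖ = 1) (hp : ⟪p, gradient u p⟫ = 0) {t : ℝ} (ht : t ∈ Ioo (-(Real.pi / 2)) (Real.pi / 2)) :
    ‖faYs u v p (faS u v p t)‖ = ‖p‖ / Real.cos t := by
  have hcos : 0 < Real.cos t := Real.cos_pos_of_mem_Ioo ht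
  have hD : faD u v p ≠ 0 := (fa_D_pos' hv hN).ne'
  have h1 := fa_Ys_norm u hv hN hp (faS u v p t)
  rw [fa_Bs_S u hD t] at h1
  have h2 : ‖p‖ ^ 2 + (‖p‖ * Real.tan t) ^ 2 = (‖p‖ / Real.cos t) ^ 2 := by
    rw [Real.tan_eq_sin_div_cos]
    have h3 := Real.sin_sq_add_cos_sq t
    field_simp
    nlinarith
  rw [h2] at h1
  exact (pow_left_inj₀ (norm_nonneg _) (div_nonneg (norm_nonneg _) hcos.le) two_ne_zero).1 h1

/-- `θ_v = t` at the contact with parameter `s_v(p,t)`. (`ψ/|y| = b/√(|p|²+b²) = sin t`, `b = |p| tan t`.) -/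
theorem fa_th_ct {K : ℝ} {u : E n → ℝ} (hK : FaSd K u) {v : E n} (hv : ‖v‖ < 1) {p : E n} (hp0 : p ≠ 0)
    (hN : ‖gradient u p‖ = 1) (hp : ⟪p, gradient u p⟫ = 0) {t : ℝ} (ht : t ∈ Ioo (-(Real.pi / 2)) (Real.pi / 2))
    (hc : FaCt u p (faS u v p t)) : faTh u v (faYs u v p (faS u v p t)) = t := by
  have hcos : 0 < Real.cos t := Real.cos_pos_of_mem_Ioo ht
  have hD : faD u v p ≠ 0 := (fa_D_pos' hv hN).ne'
  have hp' : 0 < ‖p‖ := norm_pos_iff.2 hp0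
  unfold faTh
  rw [fa_psi_ct hK hv hc, fa_Bs_S u hD t, fa_Ys_norm_ct u hv hN hp ht]
  have e : ‖p‖ * Real.tan t / (‖p‖ / Real.cos t) = Real.sin t := by
    rw [Real.tan_eq_sin_div_cos]
    field_simp
  rw [e]
  exact Real.arcsin_sin ht.1.le ht.2.le

/-! ### L-FA-TH-B : Lipschitz on the sphere.
`|v| < 1`: `ψ_v` is `1`-Lipschitz, `|ψ_v| ≤ κ < 1` on the sphere, `arcsin` is Lipschitz on `[-κ,κ]` (derivative `≤ 1/√(1-κ²)`).
`|v| = 1`: `arcsin ⟨v,y⟩ = π/2 - angle v y`, `InnerProductGeometry.angle_le_angle_add_angle`, `angle y y' ≤ (π/2) |y - y'|` for unit vectors (`|y-y'| = 2 sin (angle/2)`, `Real.mul_le_sin`). -/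

/-- `arcsin` is Lipschitz on `[-κ, κ]`, `κ < 1`. -/
theorem fa_arcsin_lip {κ : ℝ} (h1 : κ < 1) :
    LipschitzOnWith (Real.toNNReal (1 / Real.sqrt (1 - κ ^ 2))) Real.arcsin (Icc (-κ) κ) := by
  refine (convex_Icc (-κ) κ).lipschitzOnWith_of_nnnorm_deriv_le (fun x hx => ?_) fun x hx => ?_
  · exact Real.differentiableAt_arcsin.2 ⟨by linarith [hx.1], by linarith [hx.2]⟩
  · have hκ : 0 ≤ κ := by linarith [hx.1, hx.2]
    have h2 : x ^ 2 ≤ κ ^ 2 := sq_le_sq' hx.1 hx.2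
    have h3 : 0 < 1 - κ ^ 2 := by nlinarith
    rw [Real.deriv_arcsin, ← NNReal.coe_le_coe, coe_nnnorm, Real.coe_toNNReal _ (by positivity),
      Real.norm_of_nonneg (by positivity)]
    exact one_div_le_one_div_of_le (Real.sqrt_pos.2 h3) (Real.sqrt_le_sqrt (by linarith))

/-- Jordan: the angle of two unit vectors is at most `π/2` times the distance. -/
theorem fa_angle_le {V : Type*} [NormedAddCommGroup V] [InnerProductSpace ℝ V] {y y' : V} (hy : ‖y‖ = 1)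
    (hy' : ‖y'‖ = 1) : InnerProductGeometry.angle y y' ≤ Real.pi / 2 * ‖y - y'‖ := by
  set α := InnerProductGeometry.angle y y' with hα
  have h0 : 0 ≤ α := InnerProductGeometry.angle_nonneg _ _
  have hπ : α ≤ Real.pi := InnerProductGeometry.angle_le_pi _ _
  have hc : Real.cos α = ⟪y, y'⟫ := by
    rw [hα, InnerProductGeometry.cos_angle, hy, hy']
    simp
  have h1 : ‖y - y'‖ ^ 2 = (2 * Real.sin (α / 2)) ^ 2 := by
    rw [norm_sub_sq_real, hy, hy', ← hc]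
    have := Real.cos_sq_add_sin_sq (α / 2)
    have h2 : Real.cos α = 2 * Real.cos (α / 2) ^ 2 - 1 := by
      rw [← Real.cos_two_mul]
      congr 1
      ring
    rw [h2]
    nlinarith
  have hs : 0 ≤ Real.sin (α / 2) := Real.sin_nonneg_of_nonneg_of_le_pi (by linarith) (by linarith)
  have h2 : ‖y - y'‖ = 2 * Real.sin (α / 2) := (sq_eq_sq₀ (norm_nonneg _) (by positivity)).1 h1
  have h3 := Real.mul_le_sin (x := α / 2) (by linarith) (by linarith)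
  rw [h2]
  have hp := Real.pi_pos
  have h4 : Real.pi / 2 * (2 * (2 / Real.pi * (α / 2))) = α := by
    field_simp
  calc α = Real.pi / 2 * (2 * (2 / Real.pi * (α / 2))) := h4.symm
    _ ≤ Real.pi / 2 * (2 * Real.sin (α / 2)) := by gcongr

theorem fa_th_lip {K : ℝ} {u : E n → ℝ} (hK : FaSd K u) {v : E n} (hv : ‖v‖ ≤ 1) :
    ∃ L : ℝ≥0, LipschitzOnWith L (faTh u v) (sphere (0 : E n) 1) := by
  rcases lt_or_eq_of_le hv with hv1 | hv1
  · obtain ⟨κ, -, hκ1, hκ⟩ := fa_psi_lt hK hv1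
    refine ⟨Real.toNNReal (1 / Real.sqrt (1 - κ ^ 2)) * 1, ?_⟩
    have h1 : LipschitzOnWith 1 (faPsi u v) (sphere (0 : E n) 1) := (fa_psi_lip hK hv).lipschitzOnWith
    have h2 : MapsTo (faPsi u v) (sphere (0 : E n) 1) (Icc (-κ) κ) := fun y hy => by
      have := hκ y
      rw [mem_sphere_zero_iff_norm.1 hy, mul_one] at this
      exact abs_le.1 this
    have h3 := (fa_arcsin_lip hκ1).comp h1 h2
    intro x hx y hy
    have := h3 hx hy
    simpa [faTh, mem_sphere_zero_iff_norm.1 hx, mem_sphere_zero_iff_norm.1 hy] using this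
  · refine ⟨Real.toNNReal (Real.pi / 2), LipschitzOnWith.of_dist_le_mul fun x hx y hy => ?_⟩
    have hx1 := mem_sphere_zero_iff_norm.1 hx
    have hy1 := mem_sphere_zero_iff_norm.1 hy
    have e : ∀ z : E n, ‖z‖ = 1 → faTh u v z = InnerProductGeometry.angle v z - Real.pi / 2 := by
      intro z hz
      unfold faTh InnerProductGeometry.angle
      rw [fa_psi_bdry u hv1.ge, hz, hv1, Real.arccos, div_one, mul_one, div_one, Real.arcsin_neg]
      ring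
    rw [e x hx1, e y hy1, Real.coe_toNNReal _ (by positivity), Real.dist_eq, dist_eq_norm, sub_sub_sub_cancel_right]
    refine le_trans ?_ (fa_angle_le hx1 hy1)
    have a1 := InnerProductGeometry.angle_le_angle_add_angle v y x
    have a2 := InnerProductGeometry.angle_le_angle_add_angle v x y
    rw [InnerProductGeometry.angle_comm y x] at a1
    rw [abs_le]
    constructor <;> linarith

/-! ### L-FA-TH-C : the gradient bound.
`ψ = ψ_v` is differentiable a.e. (`LipschitzWith.ae_differentiableAt`).  At such a `y ≠ 0` with `|ψ y| < |y|` (fails only on `{0}`, resp. on the line `ℝ v` if `|v| = 1`: null, `2 ≤ n`):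
`ξ = ∇ψ(y)`, `|ξ| ≤ 1`, `⟨ξ,y⟩ = ψ y` (Euler), `∇(ψ/|y|) = ξ/|y| - ψ y/|y|³`, `|y|² |∇(ψ/|y|)|² = |ξ|² - ψ²/|y|² ≤ 1 - (ψ/|y|)²`, `arcsin' = 1/√(1-x²)`. -/

/-- Euler's identity for a positively homogeneous function. -/
theorem fa_euler {V : Type*} [NormedAddCommGroup V] [NormedSpace ℝ V] {ψ : V → ℝ}
    (hom : ∀ t : ℝ, 0 < t → ∀ y, ψ (t • y) = t * ψ y) {y : V} (hd : DifferentiableAt ℝ ψ y) :
    fderiv ℝ ψ y y = ψ y := by
  have h1 : HasDerivAt (fun t : ℝ => t • y) y 1 := by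
    simpa using (hasDerivAt_id (1 : ℝ)).smul_const y
  have hd' : HasFDerivAt ψ (fderiv ℝ ψ y) ((1 : ℝ) • y) := by
    rw [one_smul]
    exact hd.hasFDerivAt
  have h2 : HasDerivAt (fun t : ℝ => ψ (t • y)) (fderiv ℝ ψ y y) 1 := hd'.comp_hasDerivAt 1 h1
  have h3 : HasDerivAt (fun t : ℝ => t * ψ y) (ψ y) 1 := by
    simpa using (hasDerivAt_id (1 : ℝ)).mul_const (ψ y)
  have h4 : (fun t : ℝ => ψ (t • y)) =ᶠ[𝓝 1] fun t => t * ψ y := by
    filter_upwards [lt_mem_nhds (zero_lt_one' ℝ)] with t ht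
    exact hom t ht y
  exact h2.unique (h3.congr_of_eventuallyEq h4)

/-- the gradient bound for `arcsin (ψ/|y|)`. -/
theorem fa_th_core {V : Type*} [NormedAddCommGroup V] [InnerProductSpace ℝ V] [CompleteSpace V] {ψ : V → ℝ} {y : V}
    (hd : DifferentiableAt ℝ ψ y) (hn : ‖fderiv ℝ ψ y‖ ≤ 1) (he : fderiv ℝ ψ y y = ψ y) (hy : y ≠ 0)
    (hlt : |ψ y| < ‖y‖) :
    DifferentiableAt ℝ (fun x => Real.arcsin (ψ x / ‖x‖)) y ∧
      ‖y‖ * ‖fderiv ℝ (fun x => Real.arcsin (ψ x / ‖x‖)) y‖ ≤ 1 := by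
  have hy0 : 0 < ‖y‖ := norm_pos_iff.2 hy
  set g : ℝ := ψ y / ‖y‖ with hg
  have hg1 : |g| < 1 := by
    rw [hg, abs_div, abs_of_pos hy0, div_lt_one hy0]
    exact hlt
  have hg2 : 0 < 1 - g ^ 2 := by
    have := abs_lt.1 hg1
    nlinarith
  have hN : HasFDerivAt (fun x : V => ‖x‖) ((‖y‖⁻¹) • innerSL ℝ y) y := by
    have h1 : HasFDerivAt (fun x : V => ‖x‖ ^ 2) (2 • innerSL ℝ y) y := (hasStrictFDerivAt_norm_sq y).hasFDerivAt
    have h2 := h1.sqrt (by positivity : ‖y‖ ^ 2 ≠ 0)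
    have e : (fun x : V => Real.sqrt (‖x‖ ^ 2)) = fun x => ‖x‖ := funext fun x => Real.sqrt_sq (norm_nonneg x)
    rw [e, Real.sqrt_sq hy0.le] at h2
    convert h2 using 1
    ext w
    simp
    field_simp
  set ξ : V := (InnerProductSpace.toDual ℝ V).symm (fderiv ℝ ψ y) with hξ
  have hξi : ∀ w, ⟪ξ, w⟫ = fderiv ℝ ψ y w := fun w => InnerProductSpace.toDual_symm_apply
  have hξn : ‖ξ‖ ≤ 1 := by rw [hξ, LinearIsometryEquiv.norm_map]; exact hn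
  set η : V := ‖y‖⁻¹ • ξ - (ψ y / ‖y‖ ^ 3) • y with hη
  have hI : HasFDerivAt (fun x : V => ‖x‖⁻¹) ((-(‖y‖ ^ 2)⁻¹) • ((‖y‖⁻¹) • innerSL ℝ y)) y :=
    (hasDerivAt_inv hy0.ne').comp_hasFDerivAt y hN
  have hQ : HasFDerivAt (fun x : V => ψ x / ‖x‖) (innerSL ℝ η) y := by
    have h1 := hd.hasFDerivAt.fun_mul hI
    simp only [← div_eq_mul_inv] at h1
    have e : innerSL ℝ η = ψ y • -(‖y‖ ^ 2)⁻¹ • ‖y‖⁻¹ • (innerSL ℝ) y + ‖y‖⁻¹ • fderiv ℝ ψ y := ?_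
    · rw [e]
      exact h1
    ext w
    rw [innerSL_apply_apply, hη, inner_sub_left, inner_smul_left, inner_smul_left, hξi]
    simp only [_root_.add_apply, _root_.smul_apply, innerSL_apply_apply, smul_eq_mul,
      conj_trivial]
    field_simp
    ring
  have hA := (Real.hasDerivAt_arcsin (x := g) (by linarith [(abs_lt.1 hg1).1])
    (by linarith [(abs_lt.1 hg1).2])).comp_hasFDerivAt y hQ
  refine ⟨hA.differentiableAt, ?_⟩
  have hF : fderiv ℝ (fun x => Real.arcsin (ψ x / ‖x‖)) y = (1 / Real.sqrt (1 - g ^ 2)) • innerSL ℝ η := hA.fderiv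
  rw [hF, norm_smul, innerSL_apply_norm, Real.norm_of_nonneg (by positivity)]
  have hηn : (‖y‖ * ‖η‖) ^ 2 ≤ 1 - g ^ 2 := by
    have e1 : ‖η‖ ^ 2 = ‖y‖⁻¹ ^ 2 * ‖ξ‖ ^ 2 - 2 * (‖y‖⁻¹ * (ψ y / ‖y‖ ^ 3) * ψ y) + (ψ y / ‖y‖ ^ 3) ^ 2 * ‖y‖ ^ 2 := by
      rw [hη, norm_sub_sq_real, norm_smul, norm_smul, inner_smul_left, inner_smul_right, hξi, he, mul_pow, mul_pow,
        Real.norm_eq_abs, Real.norm_eq_abs, sq_abs, sq_abs]
      simp only [conj_trivial]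
      ring
    have e2 : (‖y‖ * ‖η‖) ^ 2 = ‖ξ‖ ^ 2 - g ^ 2 := by
      rw [mul_pow, e1, hg]
      field_simp
      ring
    rw [e2]
    have : ‖ξ‖ ^ 2 ≤ 1 := by nlinarith [norm_nonneg ξ]
    linarith
  have hηn' : ‖y‖ * ‖η‖ ≤ Real.sqrt (1 - g ^ 2) := Real.le_sqrt_of_sq_le hηn
  have hs : 0 < Real.sqrt (1 - g ^ 2) := Real.sqrt_pos.2 hg2
  calc ‖y‖ * (1 / Real.sqrt (1 - g ^ 2) * ‖η‖) = (‖y‖ * ‖η‖) / Real.sqrt (1 - g ^ 2) := by ring
    _ ≤ 1 := (div_le_one hs).2 hηn'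

theorem fa_th_grad (hn : 2 ≤ n) {K : ℝ} {u : E n → ℝ} (hK : FaSd K u) {v : E n} (hv : ‖v‖ ≤ 1) :
    ∀ᵐ y : E n, DifferentiableAt ℝ (faTh u v) y ∧ ‖y‖ * ‖fderiv ℝ (faTh u v) y‖ ≤ 1 := by
  have hL := fa_psi_lip hK hv
  have hspan : (volume : Measure (E n)) (Submodule.span ℝ {v} : Set (E n)) = 0 := by
    refine Measure.addHaar_submodule _ _ fun htop => ?_
    have h1 : Module.finrank ℝ (Submodule.span ℝ ({v} : Set (E n))) ≤ 1 := by
      simpa using finrank_span_le_card ({v} : Set (E n)) (R := ℝ)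
    rw [htop, finrank_top, finrank_euclideanSpace, Fintype.card_fin] at h1
    omega
  filter_upwards [hL.ae_differentiableAt, compl_mem_ae_iff.2 hspan] with y hd hy
  have hy0 : y ≠ 0 := fun h => hy (by rw [h]; exact zero_mem _)
  have hyp : 0 < ‖y‖ := norm_pos_iff.2 hy0
  have hlt : |faPsi u v y| < ‖y‖ := by
    rcases lt_or_eq_of_le hv with hv1 | hv1
    · obtain ⟨κ, -, hκ1, hκ⟩ := fa_psi_lt hK hv1
      exact (hκ y).trans_lt (by nlinarith)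
    · rw [fa_psi_bdry u hv1.ge, abs_neg]
      by_contra hc
      rw [not_lt] at hc
      have h2 : ‖y‖ ^ 2 ≤ ⟪v, y⟫ ^ 2 := by
        rw [← sq_abs ⟪v, y⟫]
        exact pow_le_pow_left₀ hyp.le hc 2
      have h3 : ‖y - ⟪v, y⟫ • v‖ ^ 2 = ‖y‖ ^ 2 - ⟪v, y⟫ ^ 2 := by
        rw [norm_sub_sq_real, norm_smul, inner_smul_right, real_inner_comm v y, hv1, Real.norm_eq_abs, mul_one, sq_abs]
        ring
      have h4 : ‖y - ⟪v, y⟫ • v‖ = 0 := by
        have : ‖y - ⟪v, y⟫ • v‖ ^ 2 ≤ 0 := by rw [h3]; linarith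
        exact pow_eq_zero_iff two_ne_zero |>.1 (le_antisymm this (sq_nonneg _))
      refine hy ?_
      rw [sub_eq_zero.1 (norm_eq_zero.1 h4)]
      exact Submodule.smul_mem _ _ (Submodule.mem_span_singleton_self v)
  have hn1 : ‖fderiv ℝ (faPsi u v) y‖ ≤ 1 := by
    simpa using norm_fderiv_le_of_lipschitz ℝ hL (x₀ := y)
  exact fa_th_core hd hn1 (fa_euler (fun t ht z => fa_psi_hom hK v ht z) hd) hy0 hlt

end Claimed.Agent.R323
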