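import Claimed.Agent.R323.Fa.AreaAlg
import Claimed.Agent.R323.Fa.Psi
import Claimed.Agent.R323.Fa.Det

/-!
# Row 323, block E, package E2 (helper209), file 4: the boosted graph is a graph (measurable selection), continuity of the truncated determinant.
-/

set_option autoImplicit false
open scoped ContDiff ENNReal NNReal RealInnerProductSpace Topology
open MeasureTheory Metric Set Filter

namespace Claimed.Agent.R323

open Claimed.Agent.Gmt

variable {n : ℕ} {u : E n → ℝ} {K : ℝ}

/-- the boosted graph is the graph of `ψ_v` (`Fa/Psi.lean`). -/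
theorem faa_sel (hK : FaSd K u) {v : E n} (hv : ‖v‖ < 1) :
    ∃ h : E n → ℝ, Measurable h ∧ ∀ y, ∃ z, faY v z (u z) = y ∧ u z = h y ∧ (y ≠ 0 → z ≠ 0) := by
  refine ⟨fun y => faH v y (faPsi u v y), ?_, fun y => ⟨faZ v y (faPsi u v y), ?_, ?_, ?_⟩⟩
  · have h1 : Continuous (faPsi u v) := (fa_psi_lip hK hv.le).continuous
    unfold faH
    exact (continuous_const.mul (h1.add (continuous_const.inner continuous_id))).measurable
  · rw [← fa_psi_spec hK hv y]
    exact fa_Y_Z hv y _
  · exact (fa_psi_spec hK hv y).symm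
  · intro hy hz
    apply hy
    have h0 : u 0 = 0 := by
      have := hK.bd 0
      rw [norm_zero, mul_zero] at this
      exact abs_eq_zero.1 (le_antisymm this (abs_nonneg _))
    have h1 := fa_Y_Z hv y (faPsi u v y)
    rw [fa_psi_spec hK hv y, hz, h0] at h1
    rw [← h1]
    simp [faY]

/-- from `Fa/Det.lean`. -/
theorem faa_det_cont : ContinuousOn (faDet : (E n →L[ℝ] E n) → ℝ) {M | ∀ x y, ⟪M x, y⟫ = ⟪x, M y⟫} :=
  fa_det_cont continuousOn_id fun _ ha => ha

/-- from `Fa/Det.lean`. -/
theorem faa_det_nonneg (M : E n →L[ℝ] E n) (hs : ∀ x y, ⟪M x, y⟫ = ⟪x, M y⟫) : 0 ≤ faDet M := by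
  have h := fa_det_nonneg (X := M - 1) (fun a b => by
    simp only [_root_.sub_apply, one_apply_eq_self, inner_sub_left, inner_sub_right, hs a b])
  rwa [add_sub_cancel] at h

end Claimed.Agent.R323
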