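import Claimed.Agent.R323.Fa.AreaTube
import Claimed.Agent.R323.Fa.AreaImg
import Claimed.Agent.R323.Fa.AreaSel
import Claimed.Agent.R323.Fa.AreaMink

/-!
# Row 323, block E, package E2 (helper209), file 6: ASSEMBLY of the area inequality.
-/

set_option autoImplicit false
open scoped ContDiff ENNReal NNReal RealInnerProductSpace Topology
open MeasureTheory Metric Set Filter

namespace Claimed.Agent.R323

open Claimed.Agent.Gmt

variable {n : ℕ} {S U : Set (E n)} {u : E n → ℝ} {K : ℝ}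

/-- **L-FAA-X1.**  `gmtSimPi u`, `u`, `∇u`, `gmtSimH u` are continuous on `U` (`gmtSim_contDiffOn_gradient`, `ContDiffOn.continuousOn_fderiv_of_isOpen`), `gmtSimPi u` maps `U` to `U` (`hT.tube.proj`); `faa_det_cont` composed with
`(w,c) ↦ 1 + c • gmtSimH u w` (symmetric by `gmtSim_H_symm`). -/
theorem faa_F_cont (hT : FaaTube S U u K) (v : E n) {Φb : E n → ℝ → ℝ}
    (hc : ContinuousOn (fun q : E n × ℝ => Φb q.1 q.2) (U ×ˢ univ)) :
    ContinuousOn (fun q : E n × ℝ => faaF u v Φb q.1 q.2) (U ×ˢ univ) := by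
  have hU := hT.tube.opn
  have hfst : ContinuousOn (fun q : E n × ℝ => q.1) (U ×ˢ (univ : Set ℝ)) := continuous_fst.continuousOn
  have hsnd : ContinuousOn (fun q : E n × ℝ => q.2) (U ×ˢ (univ : Set ℝ)) := continuous_snd.continuousOn
  have hmaps : MapsTo (fun q : E n × ℝ => q.1) (U ×ˢ (univ : Set ℝ)) U := fun q hq => hq.1
  have hu : ContinuousOn u U := hT.tube.smooth.continuousOn
  have hg : ContDiffOn ℝ ∞ (gradient u) U := gmtSim_contDiffOn_gradient hU hT.tube.smooth
  have hgc : ContinuousOn (gradient u) U := hg.continuousOn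
  have hH : ContinuousOn (gmtSimH u) U := hg.continuousOn_fderiv_of_isOpen hU (by simp)
  have hpi : ContinuousOn (gmtSimPi u) U := continuousOn_id.sub (hu.smul hgc)
  have hu' : ContinuousOn (fun q : E n × ℝ => u q.1) (U ×ˢ (univ : Set ℝ)) := hu.comp hfst hmaps
  have hg' : ContinuousOn (fun q : E n × ℝ => gradient u q.1) (U ×ˢ (univ : Set ℝ)) := hgc.comp hfst hmaps
  have hH' : ContinuousOn (fun q : E n × ℝ => gmtSimH u q.1) (U ×ˢ (univ : Set ℝ)) := hH.comp hfst hmaps
  have hpi' : ContinuousOn (fun q : E n × ℝ => gmtSimPi u q.1) (U ×ˢ (univ : Set ℝ)) := hpi.comp hfst hmaps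
  have h1 : ContinuousOn (fun q : E n × ℝ => Φb (gmtSimPi u q.1) (u q.1 + q.2)) (U ×ˢ (univ : Set ℝ)) := by
    have h2 : ContinuousOn (fun q : E n × ℝ => ((gmtSimPi u q.1, u q.1 + q.2) : E n × ℝ)) (U ×ˢ (univ : Set ℝ)) :=
      hpi'.prodMk (hu'.add hsnd)
    exact hc.comp h2 fun q hq => ⟨(hT.tube.proj q.1 hq.1).1, mem_univ _⟩
  have h3 : ContinuousOn (fun q : E n × ℝ => faD u v q.1) (U ×ˢ (univ : Set ℝ)) := by
    unfold faD
    exact continuousOn_const.mul (continuousOn_const.sub (continuousOn_const.inner hg'))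
  have h4 : ContinuousOn (fun q : E n × ℝ => faDet (1 + q.2 • gmtSimH u q.1)) (U ×ˢ (univ : Set ℝ)) := by
    have h5 : ContinuousOn (fun q : E n × ℝ => (1 + q.2 • gmtSimH u q.1 : E n →L[ℝ] E n)) (U ×ˢ (univ : Set ℝ)) :=
      continuousOn_const.add (hsnd.smul hH')
    refine faa_det_cont.comp h5 fun q hq x y => ?_
    simp only [_root_.add_apply, _root_.smul_apply, one_apply_eq_self, inner_add_left, inner_add_right,
      inner_smul_left, inner_smul_right, gmtSim_H_symm hU hT.tube.smooth hq.1 x y]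
    simp
  unfold faaF
  exact (h1.mul h3).mul h4

/-- **L-FAA-X2** (one layer).  `A = Kc ∩ {|u| < ε} ∩ {w | FaaCt u w c}` is measurable (`ContinuousOn.preimage_isClosed_of_isClosed` on the compact `Kc`), `T ⊆ faaXi u v c '' A`; `lintegral_mono_set`, `faa_img` with `faa_xi_hasFDerivAt`, `faa_xi_det`;
for `w ∈ A`: `p = gmtSimPi u w ∈ gmtBd S \ 0` (`hT.tube.proj`, `zero_iff`, `zero`), `∇u p = ∇u w` (`grad_proj`), `s = u w + c`, `p + s ∇u p = w + c ∇u w`: `FaCt u p s`, `faYs u v p s = faaXi u v c w`, `hdom`. -/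
theorem faa_layer (hT : FaaTube S U u K) {v : E n} (hv : ‖v‖ < 1) {Φ : E n → ℝ≥0∞} (hΦ : Measurable Φ)
    {Φb : E n → ℝ → ℝ} (hnn : ∀ p s, 0 ≤ Φb p s)
    (hdom : ∀ p ∈ gmtBd S, p ≠ 0 → ∀ s, FaCt u p s → Φ (faYs u v p s) ≤ ENNReal.ofReal (Φb p s))
    {Kc : Set (E n)} (hKc : IsCompact Kc) (hKU : Kc ⊆ U) {T : Set (E n)} {ε c : ℝ}
    (hcov : ∀ y ∈ T, ∃ w ∈ Kc, |u w| < ε ∧ FaaCt u w c ∧ faaXi u v c w = y) :
    ∫⁻ y in T, Φ y ≤ ∫⁻ w in Kc ∩ {w | |u w| < ε}, ENNReal.ofReal (faaF u v Φb w c) := by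
  have hU := hT.tube.opn
  have hu := hT.tube.smooth
  have hucont : Continuous u := hT.sd.lip.continuous
  have hgc : ContinuousOn (gradient u) Kc := ((gmtSim_contDiffOn_gradient hU hu).continuousOn).mono hKU
  have hfc : ContinuousOn (fun w => u (w + c • gradient u w) - (u w + c)) Kc :=
    (hucont.comp_continuousOn (continuousOn_id.add (hgc.const_smul c))).sub
      (hucont.continuousOn.add continuousOn_const)
  have hA1 : IsClosed (Kc ∩ (fun w => u (w + c • gradient u w) - (u w + c)) ⁻¹' {0}) :=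
    hfc.preimage_isClosed_of_isClosed hKc.isClosed isClosed_singleton
  have hA2 : MeasurableSet {w : E n | |u w| < ε} :=
    (isOpen_lt (continuous_abs.comp hucont) continuous_const).measurableSet
  set A : Set (E n) := (Kc ∩ (fun w => u (w + c • gradient u w) - (u w + c)) ⁻¹' {0}) ∩ {w | |u w| < ε}
    with hA
  have hAm : MeasurableSet A := hA1.measurableSet.inter hA2
  have hsub : T ⊆ faaXi u v c '' A := by
    intro y hy
    obtain ⟨w, hw1, hw2, hw3, hw4⟩ := hcov y hy
    refine ⟨w, ⟨⟨hw1, ?_⟩, hw2⟩, hw4⟩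
    show u (w + c • gradient u w) - (u w + c) = 0
    rw [hw3, sub_self]
  calc ∫⁻ y in T, Φ y ≤ ∫⁻ y in faaXi u v c '' A, Φ y := lintegral_mono_set hsub
    _ ≤ ∫⁻ w in A, Φ (faaXi u v c w) * ENNReal.ofReal |(faaXiD u v c w).det| :=
        faa_img hAm (fun x hx => (faa_xi_hasFDerivAt hU hu v c (hKU hx.1.1)).hasFDerivWithinAt) hΦ
    _ ≤ ∫⁻ w in A, ENNReal.ofReal (faaF u v Φb w c) := by
        refine setLIntegral_mono' hAm fun w hw => ?_
        have hwU : w ∈ U := hKU hw.1.1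
        have hct : FaaCt u w c := sub_eq_zero.1 hw.1.2
        obtain ⟨hpU, hp0⟩ := hT.tube.proj w hwU
        have hpb : gmtSimPi u w ∈ gmtBd S := (hT.tube.zero_iff _ hpU).1 hp0
        have hpne : gmtSimPi u w ≠ 0 := fun h => hT.tube.zero (h ▸ hpU)
        have hgp := hT.tube.grad_proj w hwU
        have hz : gmtSimPi u w + (u w + c) • gradient u (gmtSimPi u w) = w + c • gradient u w := by
          rw [hgp]
          unfold gmtSimPi
          rw [add_smul]
          abel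
        have h1 : Φ (faaXi u v c w) ≤ ENNReal.ofReal (Φb (gmtSimPi u w) (u w + c)) := by
          have := hdom _ hpb hpne (u w + c) (by unfold FaCt; rw [hz]; exact hct)
          unfold faYs at this
          rw [hz] at this
          exact this
        rw [faa_xi_det hU hu hT.tube.eik hT.sd.lip hv hwU hct]
        unfold faaF
        rw [mul_assoc, ENNReal.ofReal_mul (hnn _ _)]
        exact mul_le_mul_left h1 _
    _ ≤ ∫⁻ w in Kc ∩ {w | |u w| < ε}, ENNReal.ofReal (faaF u v Φb w c) :=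
        lintegral_mono_set fun w hw => ⟨hw.1.1, hw.2⟩

/-- **L-FAA-X3** (Tonelli; Mathlib only).  `lintegral_lintegral_swap`; `ofReal_integral_eq_lintegral_ofReal` twice (integrability: continuous on a compact set / continuous with compact support, `continuous_parametric_integral_of_continuous`). -/
theorem faa_swap {F : E n → ℝ → ℝ} (hF : Continuous (Function.uncurry F)) (hF0 : ∀ w c, 0 ≤ F w c)
    {Kz : Set (E n)} (hKz : IsCompact Kz) (hFs : ∀ w, w ∉ Kz → ∀ c, F w c = 0) {A : Set (E n)} (hA : MeasurableSet A)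
    (a b : ℝ) :
    ∫⁻ c in Icc a b, ∫⁻ w in A, ENNReal.ofReal (F w c) = ENNReal.ofReal (∫ w in A, ∫ c in Icc a b, F w c) := by
  have hm : Measurable (fun p : ℝ × E n => ENNReal.ofReal (F p.2 p.1)) :=
    (hF.comp continuous_swap).measurable.ennreal_ofReal
  rw [lintegral_lintegral_swap (f := fun c w => ENNReal.ofReal (F w c)) hm.aemeasurable]
  have h1 : ∀ w, ∫⁻ c in Icc a b, ENNReal.ofReal (F w c) = ENNReal.ofReal (∫ c in Icc a b, F w c) := by
    intro w
    have hc : Continuous (F w) := hF.comp (Continuous.prodMk_right w)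
    rw [ofReal_integral_eq_lintegral_ofReal hc.continuousOn.integrableOn_Icc (Eventually.of_forall (hF0 w))]
  simp_rw [h1]
  have hg : Continuous (fun w => ∫ c in Icc a b, F w c) :=
    continuous_parametric_integral_of_continuous hF isCompact_Icc
  have hs : HasCompactSupport (fun w => ∫ c in Icc a b, F w c) :=
    HasCompactSupport.intro hKz fun w hw => by simp [hFs w hw]
  rw [ofReal_integral_eq_lintegral_ofReal (hg.integrable_of_hasCompactSupport hs).integrableOn
    (Eventually.of_forall fun w => integral_nonneg (hF0 w))]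

/-- `ofReal ∫ f ≤ ∫⁻ ofReal f` (no integrability needed). -/
theorem faa_ofReal_integral_le {α : Type*} [MeasurableSpace α] (μ : Measure α) {f : α → ℝ} (hf : ∀ x, 0 ≤ f x) :
    ENNReal.ofReal (∫ x, f x ∂μ) ≤ ∫⁻ x, ENNReal.ofReal (f x) ∂μ := by
  by_cases hi : Integrable f μ
  · exact (ofReal_integral_eq_lintegral_ofReal hi (Eventually.of_forall hf)).le
  · rw [integral_undef hi]
    simp

/-- the covering of one layer. -/
theorem faa_loc (hT : FaaTube S U u K) {v : E n} {Φ : E n → ℝ≥0∞} {Φb : E n → ℝ → ℝ}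
    {r₁ r₂ L : ℝ} (hsupp : ∀ p s, Φb p s ≠ 0 → r₁ ≤ ‖p‖ ∧ ‖p‖ ≤ r₂ ∧ |s| ≤ L)
    (hdom : ∀ p ∈ gmtBd S, p ≠ 0 → ∀ s, FaCt u p s → Φ (faYs u v p s) ≤ ENNReal.ofReal (Φb p s))
    {ε₁ : ℝ} {Kc : Set (E n)}
    (hun : ∀ p ∈ gmtBd S, r₁ ≤ ‖p‖ → ‖p‖ ≤ r₂ → ∀ τ : ℝ, |τ| < ε₁ →
        p + τ • gradient u p ∈ Kc ∧ u (p + τ • gradient u p) = τ ∧
          gradient u (p + τ • gradient u p) = gradient u p)
    {ε c : ℝ} (hε : ε ≤ ε₁) {y z : E n} (hz : z ≠ 0) (hzy : faY v z (u z) = y) (hy : Φ y ≠ 0)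
    (hc : |u z - c| < ε) :
    (∃ w ∈ Kc, |u w| < ε ∧ FaaCt u w c ∧ faaXi u v c w = y) ∧ |c| ≤ L + ε := by
  obtain ⟨p, hp, hp0, hzp⟩ := faa_cover' hT z hz
  have hct : FaCt u p (u z) := by
    unfold FaCt
    rw [← hzp]
  have hY : faYs u v p (u z) = y := by
    unfold faYs
    rw [← hzp, hzy]
  have hb : Φb p (u z) ≠ 0 := by
    intro h0
    have := hdom p hp hp0 (u z) hct
    rw [hY, h0, ENNReal.ofReal_zero] at this
    exact hy (le_antisymm this (zero_le))
  obtain ⟨h1, h2, h3⟩ := hsupp p (u z) hb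
  obtain ⟨hw1, hw2, hw3⟩ := hun p hp h1 h2 (u z - c) (hc.trans_le hε)
  have hwz : p + (u z - c) • gradient u p + c • gradient u (p + (u z - c) • gradient u p) = z := by
    rw [hw3, add_assoc, ← add_smul, sub_add_cancel, ← hzp]
  refine ⟨⟨p + (u z - c) • gradient u p, hw1, by rw [hw2]; exact hc, ?_, ?_⟩, ?_⟩
  · unfold FaaCt
    rw [hwz, hw2, sub_add_cancel]
  · unfold faaXi
    rw [hwz, hw2, sub_add_cancel, hzy]
  · have : |c| ≤ |u z| + |u z - c| := by
      have := abs_sub_abs_le_abs_sub c (u z)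
      rw [abs_sub_comm c (u z)] at this
      linarith
    linarith

/-- **the area inequality** for `FaaTube`. -/
theorem faa_master (hS : MeasurableSet S) (hT : FaaTube S U u K) {v : E n} (hv : ‖v‖ < 1)
    (Φ : E n → ℝ≥0∞) (hΦ : Measurable Φ) (Φb : E n → ℝ → ℝ)
    (hc : ContinuousOn (fun q : E n × ℝ => Φb q.1 q.2) (U ×ˢ univ)) (hnn : ∀ p s, 0 ≤ Φb p s)
    {r₁ r₂ L : ℝ} (hr₁ : 0 < r₁) (hsupp : ∀ p s, Φb p s ≠ 0 → r₁ ≤ ‖p‖ ∧ ‖p‖ ≤ r₂ ∧ |s| ≤ L)
    (hdom : ∀ p ∈ gmtBd S, p ≠ 0 → ∀ s, FaCt u p s → Φ (faYs u v p s) ≤ ENNReal.ofReal (Φb p s)) :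
    ∫⁻ y, Φ y ≤ ∫⁻ p, (∫⁻ s : ℝ, ENNReal.ofReal
      (Φb p s * faD u v p * faDet (1 + s • gmtSimH u p))) ∂(gmtMu S) := by
  classical
  obtain ⟨h, hhm, hsel⟩ := faa_sel hT.sd hv
  obtain ⟨ε₁, hε₁, Kc, hKc, hKU, hun⟩ := faa_unif hT hr₁ (r₂ := r₂)
  obtain ⟨ζ, hζ, hζ1, hζ01⟩ := gmtSim_exists_cutoff hKc hT.tube.opn hKU
  have hζK : ∀ w ∈ Kc, ζ w = 1 := hζ1.self_of_nhdsSet
  have hucont : Continuous u := hT.sd.lip.continuous
  have hζ0 : ∀ w, w ∉ tsupport ζ → ζ w = 0 := fun w hw => image_eq_zero_of_notMem_tsupport hw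
  set Ft : E n → ℝ → ℝ := fun w c => ζ w * faaF u v Φb w c with hFt
  have hFtc : Continuous (Function.uncurry Ft) := by
    have h1 : ContinuousOn (Function.uncurry Ft) (U ×ˢ univ) :=
      (hζ.smooth.continuous.comp continuous_fst).continuousOn.mul (faa_F_cont hT v hc)
    refine h1.continuous_of_tsupport_subset (hT.tube.opn.prod isOpen_univ) ?_
    have h2 : tsupport (Function.uncurry Ft) ⊆ tsupport ζ ×ˢ univ := by
      refine closure_minimal ?_ ((isClosed_tsupport ζ).prod isClosed_univ)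
      rintro ⟨w, c⟩ hw
      refine ⟨?_, mem_univ _⟩
      by_contra hw'
      apply hw
      show ζ w * _ = 0
      rw [hζ0 w hw', zero_mul]
    exact h2.trans (prod_mono hζ.sub subset_rfl)
  have hF0' : ∀ w ∈ U, ∀ c, 0 ≤ faaF u v Φb w c := by
    intro w hw c
    unfold faaF
    refine mul_nonneg (mul_nonneg (hnn _ _) (fa_D_pos' hv (hT.tube.eik w hw)).le) (faa_det_nonneg _ ?_)
    intro x y
    simp only [_root_.add_apply, _root_.smul_apply, one_apply_eq_self, inner_add_left, inner_add_right,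
      inner_smul_left, inner_smul_right, gmtSim_H_symm hT.tube.opn hT.tube.smooth hw x y]
    simp
  have hF0 : ∀ w c, 0 ≤ Ft w c := by
    intro w c
    by_cases hw : w ∈ U
    · exact mul_nonneg (hζ01 w).1 (hF0' w hw c)
    · show 0 ≤ ζ w * _
      rw [hζ0 w (fun h' => hw (hζ.sub h')), zero_mul]
  set I : Set ℝ := Icc (-(L + 1)) (L + 1) with hI
  set KK : E n → ℝ := fun w => ∫ c in I, Ft w c with hKK
  have hKcont : Continuous KK := continuous_parametric_integral_of_continuous hFtc isCompact_Icc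
  have hKsub : Function.support KK ⊆ tsupport ζ := by
    intro w hw
    by_contra hw'
    apply hw
    show ∫ c in I, ζ w * _ = 0
    simp [hζ0 w hw']
  have hKcpt : HasCompactSupport KK := hζ.cpt.mono' hKsub
  have hKts : tsupport KK ⊆ U := (closure_minimal hKsub (isClosed_tsupport ζ)).trans hζ.sub
  have hK0 : ∀ w, 0 ≤ KK w := fun w => integral_nonneg fun c => hF0 w c
  have hlim := faa_mink hS hT.tube hucont KK hKcont hKcpt hKts
  have key : ∀ ε : ℝ, 0 < ε → ε < ε₁ → ε ≤ 1 →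
      ∫⁻ y, Φ y ≤ ENNReal.ofReal ((2 * ε)⁻¹ * ∫ y in {y | |u y| < ε}, KK y) := by
    intro ε hε0 hε1 hε2
    have hA : MeasurableSet {y : E n | |u y| < ε} :=
      (isOpen_lt (continuous_abs.comp hucont) continuous_const).measurableSet
    have hlay : ∀ c : ℝ, ∫⁻ y in {y | |h y - c| < ε}, Φ y
        ≤ I.indicator (fun c => ∫⁻ w in {w | |u w| < ε}, ENNReal.ofReal (Ft w c)) c := by
      intro c
      set A : Set (E n) := {y | |h y - c| < ε} with hAdef
      set T : Set (E n) := {y | |h y - c| < ε ∧ Φ y ≠ 0 ∧ y ≠ 0} with hTdef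
      have hAm : MeasurableSet A :=
        measurableSet_lt ((hhm.sub measurable_const).abs) measurable_const
      have hTm : MeasurableSet T := by
        refine hAm.inter (MeasurableSet.inter ?_ ?_)
        · exact (hΦ (measurableSet_singleton 0)).compl
        · exact (measurableSet_singleton 0).compl
      have hne : ∀ᵐ y : E n, y ≠ 0 := by
        have := hT.null0
        rw [measure_eq_zero_iff_ae_notMem] at this
        filter_upwards [this] with y hy hy0
        exact hy (by rw [hy0]; rfl)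
      have s1 : ∫⁻ y in A, Φ y ≤ ∫⁻ y in T, Φ y := by
        rw [← lintegral_indicator hAm, ← lintegral_indicator hTm]
        refine lintegral_mono_ae ?_
        filter_upwards [hne] with y hy
        by_cases hyA : y ∈ A
        · by_cases hy0 : Φ y = 0
          · rw [indicator_of_mem hyA, hy0]; exact zero_le
          · rw [indicator_of_mem hyA, indicator_of_mem (show y ∈ T from ⟨hyA, hy0, hy⟩)]
        · rw [indicator_of_notMem hyA]; exact zero_le
      have hcov : ∀ y ∈ T, (∃ w ∈ Kc, |u w| < ε ∧ FaaCt u w c ∧ faaXi u v c w = y) ∧ |c| ≤ L + ε := by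
        rintro y ⟨hy1, hy2, hy3⟩
        obtain ⟨z, hz1, hz2, hz3⟩ := hsel y
        exact faa_loc hT hsupp hdom hun hε1.le (hz3 hy3) hz1 hy2 (by rw [hz2]; exact hy1)
      refine s1.trans ?_
      by_cases hTne : T.Nonempty
      · obtain ⟨y₀, hy₀⟩ := hTne
        have hcI : c ∈ I := by
          have := (hcov y₀ hy₀).2
          rw [hI, mem_Icc]
          have h' := abs_le.1 (this.trans (by linarith : L + ε ≤ L + 1))
          exact ⟨h'.1, h'.2⟩
        rw [indicator_of_mem hcI]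
        refine (faa_layer hT hv hΦ hnn hdom hKc hKU (fun y hy => (hcov y hy).1)).trans ?_
        have e1 : ∫⁻ w in Kc ∩ {w | |u w| < ε}, ENNReal.ofReal (faaF u v Φb w c)
            = ∫⁻ w in Kc ∩ {w | |u w| < ε}, ENNReal.ofReal (Ft w c) := by
          refine setLIntegral_congr_fun (hKc.measurableSet.inter hA) ?_
          intro w hw
          show _ = ENNReal.ofReal (ζ w * _)
          rw [hζK w hw.1, one_mul]
        rw [e1]
        exact lintegral_mono_set inter_subset_right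
      · rw [not_nonempty_iff_eq_empty.1 hTne]
        simp
    rw [faa_fubini hhm hΦ hε0]
    calc ENNReal.ofReal (2 * ε)⁻¹ * ∫⁻ c : ℝ, ∫⁻ y in {y | |h y - c| < ε}, Φ y
        ≤ ENNReal.ofReal (2 * ε)⁻¹ *
          ∫⁻ c : ℝ, I.indicator (fun c => ∫⁻ w in {w | |u w| < ε}, ENNReal.ofReal (Ft w c)) c :=
          mul_le_mul_right (lintegral_mono hlay) _
      _ = ENNReal.ofReal (2 * ε)⁻¹ * ∫⁻ c in I, ∫⁻ w in {w | |u w| < ε}, ENNReal.ofReal (Ft w c) := by
          rw [lintegral_indicator measurableSet_Icc]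
      _ = ENNReal.ofReal (2 * ε)⁻¹ * ENNReal.ofReal (∫ w in {w | |u w| < ε}, ∫ c in I, Ft w c) := by
          rw [faa_swap hFtc hF0 hζ.cpt.isCompact
            (fun w hw c => by show ζ w * _ = 0; rw [hζ0 w hw, zero_mul]) hA]
      _ = ENNReal.ofReal ((2 * ε)⁻¹ * ∫ y in {y | |u y| < ε}, KK y) :=
          (ENNReal.ofReal_mul (by positivity)).symm
  have h1 : ∫⁻ y, Φ y ≤ ENNReal.ofReal (∫ y, KK y ∂(gmtMu S)) := by
    refine ge_of_tendsto ((ENNReal.continuous_ofReal.tendsto _).comp hlim) ?_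
    have : ∀ᶠ ε in 𝓝[>] (0 : ℝ), ε ∈ Ioo 0 (min ε₁ 1) := Ioo_mem_nhdsGT (lt_min hε₁ one_pos)
    filter_upwards [this] with ε hε
    exact key ε hε.1 (hε.2.trans_le (min_le_left _ _)) (hε.2.le.trans (min_le_right _ _))
  refine h1.trans ((faa_ofReal_integral_le _ hK0).trans ?_)
  refine lintegral_mono_ae ?_
  have hbd : ∀ᵐ p ∂(gmtMu S), p ∈ gmtBd S := by
    have := gmtMu_compl_gmtBd hS
    rw [measure_eq_zero_iff_ae_notMem] at this
    filter_upwards [this] with p hp
    by_contra hp'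
    exact hp hp'
  filter_upwards [hbd] with p hp
  have hu0 : u p = 0 := hT.zero p hp
  have hpi : gmtSimPi u p = p := by
    unfold gmtSimPi
    rw [hu0, zero_smul, sub_zero]
  calc ENNReal.ofReal (KK p) ≤ ∫⁻ c in I, ENNReal.ofReal (Ft p c) :=
        faa_ofReal_integral_le _ (fun c => hF0 p c)
    _ ≤ ∫⁻ c in I, ENNReal.ofReal (Φb p c * faD u v p * faDet (1 + c • gmtSimH u p)) := by
        refine lintegral_mono fun c => ?_
        have e : faaF u v Φb p c = Φb p c * faD u v p * faDet (1 + c • gmtSimH u p) := by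
          unfold faaF
          rw [hpi, hu0, zero_add]
        show ENNReal.ofReal (ζ p * faaF u v Φb p c) ≤ _
        rw [e]
        set X := Φb p c * faD u v p * faDet (1 + c • gmtSimH u p)
        rcases le_total 0 X with hX | hX
        · exact ENNReal.ofReal_le_ofReal (mul_le_of_le_one_left hX (hζ01 p).2)
        · rw [ENNReal.ofReal_of_nonpos (mul_nonpos_of_nonneg_of_nonpos (hζ01 p).1 hX)]
          exact zero_le
    _ ≤ ∫⁻ c : ℝ, ENNReal.ofReal (Φb p c * faD u v p * faDet (1 + c • gmtSimH u p)) :=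
        setLIntegral_le_lintegral _ _

end Claimed.Agent.R323
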