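import Claimed.Agent.R323.Fa.AreaAlg
import Claimed.Agent.Lib.Ell.MaxP

/-!
# Row 323, block E, package E2 (helper209), file 2: THE TUBE.   First and second order conditions at a contact, straight normal lines, the derivative of `Ξ_c`.
-/

set_option autoImplicit false
open scoped ContDiff ENNReal NNReal RealInnerProductSpace Topology
open MeasureTheory Metric Set Filter

namespace Claimed.Agent.R323

open Claimed.Agent.Gmt

variable {n : ℕ} {S U : Set (E n)} {u : E n → ℝ} {K : ℝ}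

/-- **L-FAA-T1** (first order condition).  `g(w') = (u w' - u z)² - ‖w' - z‖² ≤ 0` everywhere (`hl.dist_le_mul`), `g w = 0`: `IsLocalMax g w`, `IsLocalMax.hasFDerivAt_eq_zero` / `fderiv_eq_zero`;
`Dg(w) ξ = 2 (u w - u z) ⟪∇u w, ξ⟫ - 2 ⟪w - z, ξ⟫` (`gmtSim_inner_gradient`); conclude with `ext_inner_right`. -/
theorem faa_first (hl : LipschitzWith 1 u) {w z : E n} (hd : DifferentiableAt ℝ u w)
    (h : |u z - u w| = ‖z - w‖) : z - w = (u z - u w) • gradient u w := by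
  set g : E n → ℝ := fun w' => (u w' - u z) ^ 2 - ‖w' - z‖ ^ 2 with hg
  have hle : ∀ w', g w' ≤ 0 := by
    intro w'
    have h1 := hl.dist_le_mul w' z
    rw [Real.dist_eq, dist_eq_norm, NNReal.coe_one, one_mul] at h1
    have h2 : (u w' - u z) ^ 2 ≤ ‖w' - z‖ ^ 2 := by
      rw [← sq_abs]
      exact pow_le_pow_left₀ (abs_nonneg _) h1 2
    simp only [hg]
    linarith
  have hgw : g w = 0 := by
    simp only [hg]
    rw [← sq_abs, abs_sub_comm, h, norm_sub_rev, sub_self]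
  have hmax : IsLocalMax g w := Eventually.of_forall fun w' => by rw [hgw]; exact hle w'
  have hd1 : HasFDerivAt (fun w' => (u w' - u z) ^ 2)
      ((2 • (u w - u z) ^ (2 - 1)) • fderiv ℝ u w) w := (hd.hasFDerivAt.sub_const (u z)).pow 2
  have hd2 : HasFDerivAt (fun w' : E n => ‖w' - z‖ ^ 2)
      (2 • (innerSL ℝ (w - z)).comp (ContinuousLinearMap.id ℝ (E n))) w :=
    ((hasFDerivAt_id w).sub_const z).norm_sq
  have h0 := hmax.hasFDerivAt_eq_zero (hd1.sub hd2)
  refine ext_inner_right ℝ fun ξ => ?_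
  have h3 := congrArg (fun L : E n →L[ℝ] ℝ => L ξ) h0
  simp only [_root_.sub_apply, _root_.smul_apply, ContinuousLinearMap.comp_apply,
    ContinuousLinearMap.coe_id', id_eq, innerSL_apply_apply, zero_apply, Nat.add_one_sub_one, pow_one,
    smul_eq_mul, nsmul_eq_mul, Nat.cast_ofNat] at h3
  rw [inner_smul_left, gmtSim_inner_gradient, RCLike.conj_to_real]
  have h4 : ⟪z - w, ξ⟫ = -⟪w - z, ξ⟫ := by rw [← inner_neg_left, neg_sub]
  rw [h4]
  linarith

/-- second derivative test in one variable. -/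
theorem faa_d2_test {φ φ' : ℝ → ℝ} {a : ℝ} (hmax : IsLocalMax φ 0)
    (h1 : ∀ᶠ t in 𝓝 (0 : ℝ), HasDerivAt φ (φ' t) t) (h2 : HasDerivAt φ' a 0) : a ≤ 0 := by
  have hd1 : deriv φ =ᶠ[𝓝 0] φ' := by
    filter_upwards [h1] with t ht
    exact ht.deriv
  have hd2 : deriv (deriv φ) 0 = a := by rw [hd1.deriv_eq]; exact h2.deriv
  by_contra hcon
  rw [not_le] at hcon
  have hmin : IsLocalMin φ 0 :=
    isLocalMin_of_deriv_deriv_pos (by rw [hd2]; exact hcon) hmax.deriv_eq_zero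
      h1.self_of_nhds.continuousAt
  have hconst : φ =ᶠ[𝓝 0] fun _ => φ 0 := by
    filter_upwards [hmax, hmin] with t h3 h4
    exact le_antisymm h3 h4
  have h0 : deriv (deriv φ) 0 = 0 := by
    rw [hconst.deriv.deriv_eq]
    simp
  rw [hd2] at h0
  linarith

/-- **L-FAA-T2** (second order condition).  `z = w + c N(w)`, `g(w') = (u w' - u z)² - ‖w' - z‖² ≤ 0`, `g w = c² - c² ‖N‖² = 0`.   One variable: `φ(t) = g(w + t y)` has a local max at `0`;
`φ'(t) = 2 (u(w+ty) - u z) ⟪N(w+ty), y⟫ - 2 ⟪w + t y - z, y⟫` near `0`, `φ''(0) = 2 ⟪N,y⟫² - 2 c ⟪H y, y⟫ - 2 |y|² ≤ 0`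
(`Lib.Ell.ell_d2_nonpos_of_isLocalMax` for `g`, or `Kit/Peano`, or `isLocalMin_of_deriv_deriv_pos` by contradiction). -/
theorem faa_second (hU : IsOpen U) (hu : ContDiffOn ℝ ∞ u U) (heik : ∀ x ∈ U, ‖gradient u x‖ = 1)
    (hl : LipschitzWith 1 u) {w : E n} (hw : w ∈ U) {c : ℝ} (hc : FaaCt u w c) (y : E n) :
    0 ≤ ⟪(1 + c • gmtSimH u w) y, y⟫ := by
  set N := gradient u w with hN
  set z := w + c • N with hz
  have hN1 : ‖N‖ = 1 := heik w hw
  have huz : u z = u w + c := hc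
  set γ : ℝ → E n := fun t => w + t • y with hγ
  have hγ0 : γ 0 = w := by simp [hγ]
  have hγc : Continuous γ := by fun_prop
  have hγd : ∀ t, HasDerivAt γ y t := by
    intro t
    have := ((hasDerivAt_id t).smul_const y).const_add w
    rw [one_smul] at this
    exact this
  have hγU : ∀ᶠ t in 𝓝 (0 : ℝ), γ t ∈ U := by
    have : Tendsto γ (𝓝 0) (𝓝 w) := by
      have := hγc.tendsto 0
      rwa [hγ0] at this
    exact this.eventually (hU.mem_nhds hw)
  have hud : ∀ x ∈ U, DifferentiableAt ℝ u x := fun x hx =>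
    (hu.contDiffAt (hU.mem_nhds hx)).differentiableAt (by simp)
  have hgd : DifferentiableAt ℝ (gradient u) w :=
    ((gmtSim_contDiffOn_gradient hU hu).contDiffAt (hU.mem_nhds hw)).differentiableAt (by simp)
  set φ : ℝ → ℝ := fun t => (u (γ t) - u z) ^ 2 - ‖γ t - z‖ ^ 2 with hφ
  set φ' : ℝ → ℝ := fun t => 2 * (u (γ t) - u z) * ⟪gradient u (γ t), y⟫ - 2 * ⟪γ t - z, y⟫ with hφ'
  have hle : ∀ t, φ t ≤ 0 := by
    intro t
    have h1 := hl.dist_le_mul (γ t) z
    rw [Real.dist_eq, dist_eq_norm, NNReal.coe_one, one_mul] at h1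
    have h2 : (u (γ t) - u z) ^ 2 ≤ ‖γ t - z‖ ^ 2 := by
      rw [← sq_abs]
      exact pow_le_pow_left₀ (abs_nonneg _) h1 2
    simp only [hφ]
    linarith
  have hφ0 : φ 0 = 0 := by
    simp only [hφ]
    rw [hγ0, huz, hz, sub_add_cancel_left, sub_add_cancel_left, norm_neg, norm_smul, hN1, mul_one,
      Real.norm_eq_abs, sq_abs]
    ring
  have hmax : IsLocalMax φ 0 := Eventually.of_forall fun t => by rw [hφ0]; exact hle t
  have hu1 : ∀ t, γ t ∈ U → HasDerivAt (fun s => u (γ s)) ⟪gradient u (γ t), y⟫ t := by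
    intro t ht
    rw [gmtSim_inner_gradient]
    exact (hud _ ht).hasFDerivAt.comp_hasDerivAt t (hγd t)
  have h1 : ∀ᶠ t in 𝓝 (0 : ℝ), HasDerivAt φ (φ' t) t := by
    filter_upwards [hγU] with t ht
    have a1 := ((hu1 t ht).sub_const (u z)).pow 2
    have a2 := ((hγd t).sub_const z).norm_sq
    have a3 : HasDerivAt φ _ t := a1.sub a2
    refine a3.congr_deriv ?_
    simp only [hφ']
    norm_num
  have h2 : HasDerivAt φ' (2 * ⟪N, y⟫ * ⟪N, y⟫ + 2 * (u w - u z) * ⟪gmtSimH u w y, y⟫ - 2 * ⟪y, y⟫) 0 := by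
    have b1 : HasDerivAt (fun s => u (γ s)) ⟪N, y⟫ 0 := by
      have := hu1 0 (by rw [hγ0]; exact hw)
      rwa [hγ0] at this
    have b2 : HasDerivAt (fun s => gradient u (γ s)) (gmtSimH u w y) 0 := by
      have hgd' : HasFDerivAt (gradient u) (gmtSimH u w) (γ 0) := by
        rw [hγ0]
        exact hgd.hasFDerivAt
      exact hgd'.comp_hasDerivAt 0 (hγd 0)
    have b3 : HasDerivAt (fun s => ⟪gradient u (γ s), y⟫) ⟪gmtSimH u w y, y⟫ 0 := by
      have := b2.inner ℝ (hasDerivAt_const (0 : ℝ) y)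
      simpa using this
    have b4 : HasDerivAt (fun s => ⟪γ s - z, y⟫) ⟪y, y⟫ 0 := by
      have := ((hγd 0).sub_const z).inner ℝ (hasDerivAt_const (0 : ℝ) y)
      simpa using this
    have b5 : HasDerivAt φ' _ 0 := (((b1.sub_const (u z)).const_mul 2).mul b3).sub (b4.const_mul 2)
    refine b5.congr_deriv ?_
    rw [hγ0]
  have h3 := faa_d2_test hmax h1 h2
  have h4 : u w - u z = -c := by rw [huz]; ring
  rw [h4] at h3
  have h5 : ⟪(1 + c • gmtSimH u w) y, y⟫ = ⟪y, y⟫ + c * ⟪gmtSimH u w y, y⟫ := by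
    simp only [_root_.add_apply, _root_.smul_apply, one_apply_eq_self, inner_add_left, inner_smul_left,
      RCLike.conj_to_real]
  rw [h5]
  nlinarith [mul_self_nonneg ⟪N, y⟫]

theorem faa_line_mem {s θ : ℝ} (hθ : θ ∈ Icc (0 : ℝ) 1) : θ * s ∈ uIcc 0 s := by
  rw [mem_uIcc]
  rcases le_total 0 s with h | h
  · left
    exact ⟨mul_nonneg hθ.1 h, by nlinarith [hθ.2]⟩
  · right
    exact ⟨by nlinarith [hθ.2], mul_nonpos_of_nonneg_of_nonpos hθ.1 h⟩

/-- **L-FAA-T3** (normal lines are straight).  `N₀ = ∇u w`, `x_t = w + t N₀`, `G(t) = ∇u(x_t) - N₀`: `G' = H(x_t) N₀ = - H(x_t) G(t)` (`gmtSim_H_gradient`), `G 0 = 0`, `‖H(x_t)‖` bounded on the compact segment: `G ≡ 0`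
(Gronwall: `norm_le_gronwallBound_of_norm_deriv_right_le` with `δ = ε = 0`, for `s ≥ 0`; for `s < 0` reverse time, or `ODE_solution_unique`).   Then `d/dt u(x_t) = ⟪∇u(x_t), N₀⟫ = 1`. -/
theorem faa_line (hU : IsOpen U) (hu : ContDiffOn ℝ ∞ u U) (heik : ∀ x ∈ U, ‖gradient u x‖ = 1)
    {w : E n} {s : ℝ} (h : ∀ t ∈ uIcc 0 s, w + t • gradient u w ∈ U) :
    u (w + s • gradient u w) = u w + s ∧ gradient u (w + s • gradient u w) = gradient u w := by
  set N₀ : E n := gradient u w with hN₀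
  set γ : ℝ → E n := fun θ => w + (θ * s) • N₀ with hγ
  have hγU : ∀ θ ∈ Icc (0 : ℝ) 1, γ θ ∈ U := fun θ hθ => h _ (faa_line_mem hθ)
  have hγd : ∀ θ : ℝ, HasDerivAt γ (s • N₀) θ := by
    intro θ
    have h1 : HasDerivAt (fun θ : ℝ => θ * s) s θ := by simpa using (hasDerivAt_id θ).mul_const s
    exact (h1.smul_const N₀).const_add w
  have hγc : Continuous γ := continuous_iff_continuousAt.2 fun θ => (hγd θ).continuousAt
  have hwU : w ∈ U := by
    have := hγU 0 ⟨le_rfl, zero_le_one⟩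
    simpa [hγ] using this
  have hN1 : ‖N₀‖ = 1 := heik w hwU
  have hgd : ∀ x ∈ U, HasFDerivAt (gradient u) (gmtSimH u x) x := fun x hx =>
    (((gmtSim_contDiffOn_gradient hU hu).contDiffAt (hU.mem_nhds hx)).differentiableAt (by simp)).hasFDerivAt
  -- the bound of `H`
  obtain ⟨C, hC⟩ := isCompact_Icc.exists_bound_of_continuousOn (s := Icc (0 : ℝ) 1) (f := fun θ => gmtSimH u (γ θ))
    ((gmtSim_contDiffOn_H hU hu).continuousOn.comp hγc.continuousOn hγU)
  set F : ℝ → E n := fun θ => gradient u (γ θ) - N₀ with hF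
  have hFd : ∀ θ ∈ Icc (0 : ℝ) 1, HasDerivAt F (gmtSimH u (γ θ) (s • N₀)) θ := fun θ hθ =>
    ((hgd _ (hγU θ hθ)).comp_hasDerivAt θ (hγd θ)).sub_const N₀
  have hFe : ∀ θ ∈ Icc (0 : ℝ) 1, gmtSimH u (γ θ) (s • N₀) = -(s • gmtSimH u (γ θ) (F θ)) := by
    intro θ hθ
    have h0 := gmtSim_H_gradient hU hu heik (hγU θ hθ)
    simp only [hF, map_sub, map_smul, h0]
    simp
  have hF0 : ∀ θ ∈ Icc (0 : ℝ) 1, ‖F θ‖ ≤ gronwallBound 0 (|s| * C) 0 (θ - 0) := by
    refine norm_le_gronwallBound_of_norm_deriv_right_le (f' := fun θ => gmtSimH u (γ θ) (s • N₀))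
      (fun θ hθ => (hFd θ hθ).continuousAt.continuousWithinAt)
      (fun θ hθ => (hFd θ (Ico_subset_Icc_self hθ)).hasDerivWithinAt) ?_ ?_
    · simp [hF, hγ, hN₀]
    · intro θ hθ
      have hθ' := Ico_subset_Icc_self hθ
      rw [hFe θ hθ', norm_neg, norm_smul, add_zero, Real.norm_eq_abs, mul_assoc]
      exact mul_le_mul_of_nonneg_left (((gmtSimH u (γ θ)).le_opNorm _).trans
        (mul_le_mul_of_nonneg_right (hC θ hθ') (norm_nonneg _))) (abs_nonneg _)
  have hFz : ∀ θ ∈ Icc (0 : ℝ) 1, gradient u (γ θ) = N₀ := by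
    intro θ hθ
    have h1 := hF0 θ hθ
    rw [gronwallBound_ε0_δ0] at h1
    have h2 : F θ = 0 := norm_le_zero_iff.1 h1
    exact sub_eq_zero.1 h2
  have hud : ∀ θ ∈ Icc (0 : ℝ) 1, HasDerivAt (fun θ => u (γ θ) - θ * s) 0 θ := by
    intro θ hθ
    have hx := hγU θ hθ
    have h1 : HasFDerivAt u (fderiv ℝ u (γ θ)) (γ θ) :=
      ((hu.contDiffAt (hU.mem_nhds hx)).differentiableAt (by simp)).hasFDerivAt
    have h2 := (h1.comp_hasDerivAt θ (hγd θ)).sub ((hasDerivAt_id θ).mul_const s)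
    have h3 : fderiv ℝ u (γ θ) (s • N₀) - 1 * s = 0 := by
      rw [← gmtSim_inner_gradient, hFz θ hθ, inner_smul_right, real_inner_self_eq_norm_sq, hN1]
      ring
    rw [h3] at h2
    exact h2
  have hconst := constant_of_has_deriv_right_zero (f := fun θ => u (γ θ) - θ * s) (a := 0) (b := 1)
    (fun θ hθ => (hud θ hθ).continuousAt.continuousWithinAt)
    (fun θ hθ => (hud θ (Ico_subset_Icc_self hθ)).hasDerivWithinAt) 1 ⟨zero_le_one, le_rfl⟩
  have hγ1 : γ 1 = w + s • N₀ := by simp [hγ]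
  have hγ0 : γ 0 = w := by simp [hγ]
  constructor
  · simp only [hγ1, hγ0, one_mul, zero_mul, sub_zero] at hconst
    linarith
  · rw [← hγ1]
    exact hFz 1 ⟨zero_le_one, le_rfl⟩

/-- **L-FAA-T4.**  `faaXi u v c w' = faB v (w' + c • ∇u w') - (faC v * (u w' + c)) • v`; `HasFDerivAt (gradient u) (gmtSimH u w) w`, `HasFDerivAt u (innerSL ℝ (∇u w)) w`. -/
theorem faa_xi_hasFDerivAt (hU : IsOpen U) (hu : ContDiffOn ℝ ∞ u U) (v : E n) (c : ℝ) {w : E n} (hw : w ∈ U) :
    HasFDerivAt (faaXi u v c) (faaXiD u v c w) w := by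
  have hud : HasFDerivAt u (innerSL ℝ (gradient u w)) w := by
    have h1 : DifferentiableAt ℝ u w := (hu.contDiffAt (hU.mem_nhds hw)).differentiableAt (by simp)
    have h2 : fderiv ℝ u w = innerSL ℝ (gradient u w) := by
      ext ξ
      rw [innerSL_apply_apply, gmtSim_inner_gradient]
    rw [← h2]
    exact h1.hasFDerivAt
  have hgd : HasFDerivAt (gradient u) (gmtSimH u w) w :=
    (((gmtSim_contDiffOn_gradient hU hu).contDiffAt (hU.mem_nhds hw)).differentiableAt (by simp)).hasFDerivAt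
  have h1 : HasFDerivAt (fun w' => faB v (w' + c • gradient u w'))
      ((faB v).comp (ContinuousLinearMap.id ℝ (E n) + c • gmtSimH u w)) w :=
    (faB v).hasFDerivAt.comp w ((hasFDerivAt_id w).add (hgd.const_smul c))
  have h2 : HasFDerivAt (fun w' => (faC v * (u w' + c)) • v)
      ((faC v • innerSL ℝ (gradient u w)).smulRight v) w :=
    ((hud.add_const c).const_mul (faC v)).smul_const v
  have h3 := h1.sub h2
  have e : (faB v).comp (ContinuousLinearMap.id ℝ (E n) + c • gmtSimH u w) -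
      (faC v • innerSL ℝ (gradient u w)).smulRight v = faaXiD u v c w := by
    ext1 ξ
    simp only [faaXiD, _root_.sub_apply, ContinuousLinearMap.comp_apply, _root_.add_apply,
      _root_.smul_apply, ContinuousLinearMap.smulRight_apply, gmtSimJ_r1_apply, innerSL_apply_apply,
      ContinuousLinearMap.coe_id', id_eq, one_apply_eq_self, smul_eq_mul, smul_smul]
  rw [← e]
  exact h3

theorem faa_psd_det_nonneg (M : E n →L[ℝ] E n) (hs : ∀ x y, ⟪M x, y⟫ = ⟪x, M y⟫)
    (hp : ∀ w, 0 ≤ ⟪M w, w⟫) : 0 ≤ M.det := by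
  have hT : (M : E n →ₗ[ℝ] E n).IsPositive := ⟨fun x y => hs x y, fun x => by simpa using hp x⟩
  have hn : Module.finrank ℝ (E n) = n := finrank_euclideanSpace_fin
  have h1 := hT.isSymmetric.det_eq_prod_eigenvalues hn
  show 0 ≤ LinearMap.det (M : E n →ₗ[ℝ] E n)
  rw [h1]
  exact Finset.prod_nonneg fun i _ => by simpa using hT.nonneg_eigenvalues hn i

/-- **L-FAA-T5.**  `faa_xiD_det`, `gmtSim_H_symm`, `gmtSim_H_gradient`, `faa_second` (so `faDet = det`), `det ≥ 0` of a symmetric positive semidefinite operator (`gmtSimD_spectral`-type argument or `LinearMap.IsPositive`/eigenvalues), `⟪v,N⟫ ≤ |v| < 1`. -/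
theorem faa_xi_det (hU : IsOpen U) (hu : ContDiffOn ℝ ∞ u U) (heik : ∀ x ∈ U, ‖gradient u x‖ = 1)
    (hl : LipschitzWith 1 u) {v : E n} (hv : ‖v‖ < 1) {w : E n} (hw : w ∈ U) {c : ℝ} (hc : FaaCt u w c) :
    |(faaXiD u v c w).det| = faD u v w * faDet (1 + c • gmtSimH u w) := by
  have hs := gmtSim_H_symm hU hu hw
  have hp : ∀ y, 0 ≤ ⟪(1 + c • gmtSimH u w) y, y⟫ := faa_second hU hu heik hl hw hc
  have hs' : ∀ x y, ⟪(1 + c • gmtSimH u w) x, y⟫ = ⟪x, (1 + c • gmtSimH u w) y⟫ := by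
    intro x y
    simp only [_root_.add_apply, _root_.smul_apply, one_apply_eq_self, inner_add_left, inner_add_right,
      inner_smul_left, inner_smul_right, RCLike.conj_to_real, hs x y]
  have hdet := faa_psd_det_nonneg _ hs' hp
  unfold faaXiD
  rw [faa_xiD_det hv hs (gmtSim_H_gradient hU hu heik hw) c]
  have hC := fa_C_pos hv
  have h1 : ⟪v, gradient u w⟫ < 1 := by
    have h2 := real_inner_le_norm v (gradient u w)
    rw [heik w hw, mul_one] at h2
    linarith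
  have h3 : faDet (1 + c • gmtSimH u w) = (1 + c • gmtSimH u w).det := by
    unfold faDet
    rw [if_pos hp]
  rw [h3, abs_of_nonneg (mul_nonneg (mul_nonneg hC.le (by linarith)) hdet)]
  rfl

/-- **L-FAA-T6** (uniform tube over a compact part of the cone).  `Γ = gmtBd S ∩ {r₁ ≤ ‖p‖ ≤ r₂}` is compact (`isClosed_gmtBd`), `Γ ⊆ U` (`hT.tube.bd`): `IsCompact.exists_cthickening_subset_open` gives `ε₁`, `Kc = cthickening ε₁ Γ` (compact: `IsCompact.cthickening`);
`p + t N(p) ∈ Kc` for `|t| ≤ ε₁` (`‖N p‖ = 1`); `faa_line`; `u p = 0`. -/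
theorem faa_unif (hT : FaaTube S U u K) {r₁ r₂ : ℝ} (hr₁ : 0 < r₁) :
    ∃ ε₁ > 0, ∃ Kc : Set (E n), IsCompact Kc ∧ Kc ⊆ U ∧
      ∀ p ∈ gmtBd S, r₁ ≤ ‖p‖ → ‖p‖ ≤ r₂ → ∀ τ : ℝ, |τ| < ε₁ →
        p + τ • gradient u p ∈ Kc ∧ u (p + τ • gradient u p) = τ ∧
          gradient u (p + τ • gradient u p) = gradient u p := by
  set Γ : Set (E n) := gmtBd S ∩ (closedBall 0 r₂ ∩ {p | r₁ ≤ ‖p‖}) with hΓ
  have hΓc : IsCompact Γ :=
    ((isCompact_closedBall (0 : E n) r₂).inter_right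
      (isClosed_le continuous_const continuous_norm)).inter_left (isClosed_gmtBd S)
  have hΓU : Γ ⊆ U := fun p hp => hT.tube.bd p hp.1 (by
    intro h0
    have h1 : r₁ ≤ ‖p‖ := hp.2.2
    rw [h0, norm_zero] at h1
    linarith)
  obtain ⟨ε₁, hε₁, hsub⟩ := hΓc.exists_cthickening_subset_open hT.tube.opn hΓU
  refine ⟨ε₁, hε₁, cthickening ε₁ Γ, hΓc.cthickening, hsub, fun p hp h1 h2 τ hτ => ?_⟩
  have hpΓ : p ∈ Γ := ⟨hp, by simpa using h2, h1⟩
  have hN : ‖gradient u p‖ = 1 := hT.tube.eik p (hΓU hpΓ)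
  have hin : ∀ t : ℝ, |t| ≤ ε₁ → p + t • gradient u p ∈ cthickening ε₁ Γ := by
    intro t ht
    refine mem_cthickening_of_dist_le _ p ε₁ Γ hpΓ ?_
    rw [dist_eq_norm, add_sub_cancel_left, norm_smul, hN, mul_one]
    exact ht
  have hl := faa_line hT.tube.opn hT.tube.smooth hT.tube.eik (w := p) (s := τ) (fun t ht => hsub (hin t (by
    have := abs_sub_left_of_mem_uIcc ht
    simp only [sub_zero] at this
    exact this.trans hτ.le)))
  refine ⟨hin τ hτ.le, ?_, hl.2⟩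
  rw [hl.1, hT.zero p hp, zero_add]

/-- **L-FAA-T8** (C1).  `hT.near z`: `‖z - p‖ = |u z| ≤ K ‖z‖ < ‖z‖`, so `p ≠ 0`, `p ∈ U`, `u` differentiable at `p`, `u p = 0`; `faa_first`. -/
theorem faa_cover' (hT : FaaTube S U u K) (z : E n) (hz : z ≠ 0) :
    ∃ p ∈ gmtBd S, p ≠ 0 ∧ z = p + u z • gradient u p := by
  obtain ⟨p, hp, hzp⟩ := hT.near z
  have hup : u p = 0 := hT.zero p hp
  have hp0 : p ≠ 0 := by
    rintro rfl
    rw [sub_zero] at hzp
    have h1 := hT.sd.bd z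
    rw [← hzp] at h1
    have h2 : 0 < ‖z‖ := norm_pos_iff.2 hz
    nlinarith [hT.sd.K1]
  have hpU : p ∈ U := hT.tube.bd p hp hp0
  have hd : DifferentiableAt ℝ u p :=
    (hT.tube.smooth.contDiffAt (hT.tube.opn.mem_nhds hpU)).differentiableAt (by simp)
  have h1 := faa_first hT.sd.lip hd (z := z) (by rw [hup, sub_zero, hzp])
  rw [hup, sub_zero] at h1
  exact ⟨p, hp, hp0, by rw [← h1]; abel⟩

/-- **L-FAA-T8** (C3).  `z = p + s N(p) ∈ U`, `u z = s`, `u p = 0`, `‖p - z‖ = |s|`: `faa_first` AT `z` (with the other point `p`): `p - z = - s ∇u z`, so `s N(p) = s ∇u z`; `s = 0` is trivial. -/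
theorem faa_proj' (hT : GmtSimTube S U u) (hK : FaSd K u) {p : E n} (hp : p ∈ gmtBd S) (hp0 : p ≠ 0) {s : ℝ} (hc : FaCt u p s)
    (hz : p + s • gradient u p ∈ U) : gradient u (p + s • gradient u p) = gradient u p := by
  have hpU : p ∈ U := hT.bd p hp hp0
  have hup : u p = 0 := (hT.zero_iff p hpU).2 hp
  have hN1 : ‖gradient u p‖ = 1 := hT.eik p hpU
  set z := p + s • gradient u p with hzdef
  have huz : u z = s := hc
  have hd : DifferentiableAt ℝ u z :=
    (hT.smooth.contDiffAt (hT.opn.mem_nhds hz)).differentiableAt (by simp)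
  have h1 := faa_first hK.lip hd (z := p) (by
    rw [hup, huz, zero_sub, abs_neg, hzdef, sub_add_cancel_left, norm_neg, norm_smul, hN1, mul_one,
      Real.norm_eq_abs])
  rw [hup, huz, zero_sub, hzdef, sub_add_cancel_left] at h1
  by_cases hs : s = 0
  · rw [hzdef, hs, zero_smul, add_zero]
  · have h2 : s • gradient u p = s • gradient u (p + s • gradient u p) := by
      have := congrArg (fun a => -a) h1
      simpa using this
    exact (smul_right_injective _ hs h2).symm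

/-- **L-FAA-T7.**  `near`: `gmtSim_abs_sd`, `(isClosed_gmtBd S).exists_infDist_eq_dist ⟨0, h0⟩ z`; `zero`: `gmtSim_abs_sd`, `infDist_zero_of_mem`; `null0`: `n ≠ 0` (for `n = 0` the space is a subsingleton, so one of
`S ∩ ball 0 1`, `ball 0 1 \ S` is empty, against `h0`), then `Nontrivial (E n)` and `measure_singleton`. -/
theorem faa_tube_mk (h0 : (0 : E n) ∈ gmtBd S) (hT : GmtSimTube S U (gmtSimSd S))
    (hK : FaSd K (gmtSimSd S)) : FaaTube S U (gmtSimSd S) K := by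
  refine ⟨hT, hK, fun z => ?_, fun x hx => ?_, ?_⟩
  · obtain ⟨p, hp, hd⟩ := (isClosed_gmtBd S).exists_infDist_eq_dist ⟨0, h0⟩ z
    exact ⟨p, hp, by rw [gmtSim_abs_sd, hd, dist_eq_norm]⟩
  · have := gmtSim_abs_sd S x
    rw [infDist_zero_of_mem hx] at this
    exact abs_eq_zero.1 this
  · rcases Nat.eq_zero_or_pos n with hn | hn
    · subst hn
      exfalso
      obtain ⟨h1, h2⟩ := h0 1 one_pos
      by_cases h : (0 : E 0) ∈ S
      · have : ball (0 : E 0) 1 \ S = ∅ := by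
          ext x
          rw [Subsingleton.elim x 0]
          simp [h]
        rw [this] at h2
        simp at h2
      · have : S ∩ ball (0 : E 0) 1 = ∅ := by
          ext x
          rw [Subsingleton.elim x 0]
          simp [h]
        rw [this] at h1
        simp at h1
    · haveI : Nonempty (Fin n) := ⟨⟨0, hn⟩⟩
      haveI : Nontrivial (E n) := inferInstance
      exact measure_singleton 0

end Claimed.Agent.R323
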