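import Claimed.Agent.R323.Fa.Loss
import Claimed.Agent.R323.Ix.GeoC
import Claimed.Agent.R323.Ix.GeoD
import Claimed.Agent.R323.Ix.CalcC
import Claimed.Agent.R323.Ix.CalcD

/-!
# Row 323, block E4 (centre), step 6: THE QUADRATIC FORM `faQ` IS POSITIVE DEFINITE.   helper209.   Prefix `fcq_`.

`faQ S η v β σ = ∫_Σ (m (β+ση)² + P (β+ση+X_v)² - σ² |∇η|²) = m β² |Σ| + ∫_Σ P (β + X_v)² + σ² B(η,η)`   (`B(η,1) = 0`, `B(η,X_v) = ∫ η P X_v = 0` by `ixB_eq`, `ixLap_X`)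
`≥ c (|v|² + β² + σ²)`   (`(β+X)² ≥ X²/2 - β²`; `∫ P X_v² ≥ q₀ |v|²`: `fal_patch`, compactness of the unit sphere).
First in the abstract language `IxGeom U u σ` of block F, then transferred by `ix_geo`, `ix_geo_integral`, `ix_geo_jacB`.
-/

set_option autoImplicit false
open scoped ContDiff ENNReal NNReal RealInnerProductSpace Topology
open MeasureTheory Metric Set Filter

namespace Claimed.Agent.R323

open Claimed.Agent.Gmt

variable {m : ℕ} {U : Set (E (m + 2))} {u : E (m + 2) → ℝ} {σ : Measure (E (m + 2))}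

/-- the integrand of `faQ`. -/
noncomputable def fcqG (m : ℕ) (u η : E (m + 2) → ℝ) (v : E (m + 2)) (β s : ℝ) (x : E (m + 2)) : ℝ :=
  (m : ℝ) * (β + s * η x) ^ 2 + ixP u x * (β + s * η x + ixX v x) ^ 2 - s ^ 2 * ixTg u η η x

theorem fcq_G_fun (hT : IxTube U u) {η : E (m + 2) → ℝ} (hη : IxFun U η) (v : E (m + 2)) (β s : ℝ) :
    IxFun U (fcqG m u η v β s) := by
  unfold fcqG
  exact (((((IxFun.const β).add (hη.smul s)).pow 2).smul (m : ℝ)).add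
    ((ixFun_P hT).mul ((((IxFun.const β).add (hη.smul s)).add (ixFun_X hT v)).pow 2))).sub
      ((ixFun_tg hT hη hη).smul (s ^ 2))

/-- `B(η, X_v) = ∫ η P X_v`. -/
theorem fcq_B_X (hG : IxGeom U u σ) {η : E (m + 2) → ℝ} (hη : IxFun U η) (v : E (m + 2)) :
    ixB m u σ η (ixX v) = ∫ x, ixP u x * (η x * ixX v x) ∂σ := by
  rw [ixB_eq m hG hη (ixFun_X hG.toIxTube v)]
  refine ix_integral_congr hG fun x hx => ?_
  rw [ixLap_X hG.toIxTube v hx]
  ring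

/-- `B(η, 1) = ∫ (m + P) η`. -/
theorem fcq_B_one (η : E (m + 2) → ℝ) :
    ixB m u σ η (fun _ => 1) = ∫ x, ((m : ℝ) + ixP u x) * η x ∂σ := by
  unfold ixB
  refine integral_congr_ae (Eventually.of_forall fun x => ?_)
  simp only
  rw [ixTg_comm, ixTg_const_left]
  ring

/-- the expansion of the quadratic form. -/
theorem fcq_expand (hG : IxGeom U u σ) {η : E (m + 2) → ℝ} (hη : IxFun U η)
    (h1 : ixB m u σ η (fun _ => 1) = 0) (h2 : ∀ a, ixB m u σ η (ixX a) = 0) (v : E (m + 2)) (β s : ℝ) :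
    ∫ x, fcqG m u η v β s x ∂σ
      = (m : ℝ) * β ^ 2 * σ.real univ + ∫ x, ixP u x * (β + ixX v x) ^ 2 ∂σ + s ^ 2 * ixB m u σ η η := by
  have hT := hG.toIxTube
  have := hG.fin
  have hP := ixFun_P hT
  have hX := ixFun_X hT v
  have i1 : Integrable (fun x => ixP u x * (β + ixX v x) ^ 2) σ :=
    (hP.mul (((IxFun.const β).add hX).pow 2)).integrable hG
  have i2 : Integrable (fun x => -(ixTg u η η x) + ((m : ℝ) + ixP u x) * (η x * η x)) σ :=
    ((ixFun_tg hT hη hη).neg.add (((IxFun.const (m : ℝ)).add hP).mul (hη.mul hη))).integrable hG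
  have i3 : Integrable (fun x => ((m : ℝ) + ixP u x) * η x) σ :=
    (((IxFun.const (m : ℝ)).add hP).mul hη).integrable hG
  have i4 : Integrable (fun x => ixP u x * (η x * ixX v x)) σ := (hP.mul (hη.mul hX)).integrable hG
  have e : ∀ x, fcqG m u η v β s x = (m : ℝ) * β ^ 2 + ixP u x * (β + ixX v x) ^ 2
      + s ^ 2 * (-(ixTg u η η x) + ((m : ℝ) + ixP u x) * (η x * η x))
      + 2 * s * β * (((m : ℝ) + ixP u x) * η x) + 2 * s * (ixP u x * (η x * ixX v x)) := by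
    intro x
    unfold fcqG
    ring
  simp_rw [e]
  have a1 : Integrable (fun x => (m : ℝ) * β ^ 2 + ixP u x * (β + ixX v x) ^ 2) σ := (integrable_const _).add i1
  have a2 : Integrable (fun x => (m : ℝ) * β ^ 2 + ixP u x * (β + ixX v x) ^ 2
      + s ^ 2 * (-(ixTg u η η x) + ((m : ℝ) + ixP u x) * (η x * η x))) σ := a1.add (i2.const_mul _)
  have a3 : Integrable (fun x => (m : ℝ) * β ^ 2 + ixP u x * (β + ixX v x) ^ 2
      + s ^ 2 * (-(ixTg u η η x) + ((m : ℝ) + ixP u x) * (η x * η x))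
      + 2 * s * β * (((m : ℝ) + ixP u x) * η x)) σ := a2.add (i3.const_mul _)
  rw [integral_add a3 (i4.const_mul _), integral_add a2 (i3.const_mul _), integral_add a1 (i2.const_mul _),
    integral_add (integrable_const _) i1, integral_const_mul (2 * s), integral_const_mul (2 * s * β),
    integral_const_mul (s ^ 2), integral_const, ← fcq_B_one, ← fcq_B_X hG hη, h1, h2 v]
  unfold ixB
  simp only [smul_eq_mul]
  ring

theorem fcq_X_smul (t : ℝ) (v x : E (m + 2)) : ixX (t • v) x = t * ixX v x := by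
  unfold ixX
  rw [inner_smul_left]
  simp only [conj_trivial]
  ring

theorem fcq_X_le {v x : E (m + 2)} (hx : ‖x‖ = 1) : |ixX v x| ≤ ‖v‖ := by
  unfold ixX
  rw [hx, div_one]
  have := abs_real_inner_le_norm v x
  rwa [hx, mul_one] at this

theorem fcq_P_nonneg (u : E (m + 2) → ℝ) (x : E (m + 2)) : 0 ≤ ixP u x := by
  unfold ixP gmtSimA
  positivity

/-- positivity of `v ↦ ∫_Σ |A|² ⟨v,x⟩²`. -/
theorem fcq_QA (hG : IxGeom U u σ) (hpatch : ∀ v : E (m + 2), v ≠ 0 → ∃ x ∈ ixLink U u, ixP u x ≠ 0 ∧ ixX v x ≠ 0) :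
    ∃ q₀ > 0, ∀ v : E (m + 2), q₀ * ‖v‖ ^ 2 ≤ ∫ x, ixP u x * ixX v x ^ 2 ∂σ := by
  have hT := hG.toIxTube
  have := hG.fin
  have hP := ixFun_P hT
  have hF : ∀ v, IxFun U (fun x => ixP u x * ixX v x ^ 2) := fun v => hP.mul ((ixFun_X hT v).pow 2)
  obtain ⟨C, hC⟩ := hG.cpt.exists_bound_of_continuousOn (hP.continuousOn_link (u := u))
  have hcont : ContinuousOn (fun v : E (m + 2) => ∫ x, ixP u x * ixX v x ^ 2 ∂σ) (sphere 0 1) := by
    refine continuousOn_of_dominated (bound := fun _ => C) (fun v _ => ((hF v).integrable hG).aestronglyMeasurable)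
      (fun v hv => ?_) (integrable_const _) (Eventually.of_forall fun x => ?_)
    · have hv1 : ‖v‖ = 1 := by simpa using hv
      filter_upwards [ix_ae_mem hG] with x hx
      have h1 := hC x hx
      have h2 := fcq_X_le (v := v) hx.2.2
      rw [hv1] at h2
      rw [norm_mul, norm_pow, Real.norm_eq_abs (ixX v x)]
      calc ‖ixP u x‖ * |ixX v x| ^ 2 ≤ C * 1 ^ 2 :=
            mul_le_mul h1 (pow_le_pow_left₀ (abs_nonneg _) h2 2) (by positivity) ((norm_nonneg _).trans h1)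
        _ = C := by ring
    · unfold ixX
      fun_prop
  have hne : (sphere (0 : E (m + 2)) 1).Nonempty := NormedSpace.sphere_nonempty.2 zero_le_one
  obtain ⟨v₀, hv₀, hmin⟩ := (isCompact_sphere (0 : E (m + 2)) 1).exists_isMinOn hne hcont
  have hv₀1 : ‖v₀‖ = 1 := by simpa using hv₀
  have hv₀0 : v₀ ≠ 0 := fun h => by rw [h, norm_zero] at hv₀1; exact zero_ne_one hv₀1
  have hnn : ∀ v, ∀ x ∈ ixLink U u, 0 ≤ ixP u x * ixX v x ^ 2 := fun v x _ =>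
    mul_nonneg (fcq_P_nonneg u x) (by positivity)
  have hpos : 0 < ∫ x, ixP u x * ixX v₀ x ^ 2 ∂σ := by
    have h0 : 0 ≤ ∫ x, ixP u x * ixX v₀ x ^ 2 ∂σ :=
      integral_nonneg fun x => mul_nonneg (fcq_P_nonneg u x) (by positivity)
    refine lt_of_le_of_ne h0 fun h => ?_
    obtain ⟨x, hx, h1, h2⟩ := hpatch v₀ hv₀0
    have := ix_eq_zero_of_integral hG (hF v₀) (hnn v₀) h.symm x hx
    exact (mul_ne_zero h1 (pow_ne_zero 2 h2)) this
  refine ⟨_, hpos, fun v => ?_⟩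
  by_cases hv : v = 0
  · rw [hv, norm_zero]
    simp only [ne_eq, OfNat.ofNat_ne_zero, not_false_eq_true, zero_pow, mul_zero]
    exact integral_nonneg fun x => mul_nonneg (fcq_P_nonneg u x) (by positivity)
  · have hvn : 0 < ‖v‖ := norm_pos_iff.2 hv
    have hw : ‖v‖⁻¹ • v ∈ sphere (0 : E (m + 2)) 1 := by
      rw [mem_sphere_zero_iff_norm, norm_smul, norm_inv, norm_norm, inv_mul_cancel₀ hvn.ne']
    have h1 : ∫ x, ixP u x * ixX v₀ x ^ 2 ∂σ ≤ ∫ x, ixP u x * ixX (‖v‖⁻¹ • v) x ^ 2 ∂σ := hmin hw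
    have e : ∫ x, ixP u x * ixX (‖v‖⁻¹ • v) x ^ 2 ∂σ = (‖v‖⁻¹) ^ 2 * ∫ x, ixP u x * ixX v x ^ 2 ∂σ := by
      rw [← integral_const_mul]
      refine integral_congr_ae (Eventually.of_forall fun x => ?_)
      simp only
      rw [fcq_X_smul]
      ring
    rw [e] at h1
    calc (∫ x, ixP u x * ixX v₀ x ^ 2 ∂σ) * ‖v‖ ^ 2
        ≤ ((‖v‖⁻¹) ^ 2 * ∫ x, ixP u x * ixX v x ^ 2 ∂σ) * ‖v‖ ^ 2 :=
          mul_le_mul_of_nonneg_right h1 (by positivity)
      _ = ∫ x, ixP u x * ixX v x ^ 2 ∂σ := by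
          field_simp

/-- **positivity of the quadratic form**, abstract version. -/
theorem fcq_abs (hm : 1 ≤ m) (hG : IxGeom U u σ)
    (hpatch : ∀ v : E (m + 2), v ≠ 0 → ∃ x ∈ ixLink U u, ixP u x ≠ 0 ∧ ixX v x ≠ 0)
    {η : E (m + 2) → ℝ} (hη : IxFun U η)
    (h1 : ixB m u σ η (fun _ => 1) = 0) (h2 : ∀ a, ixB m u σ η (ixX a) = 0) (h3 : 0 < ixB m u σ η η) :
    ∃ c > 0, ∀ (v : E (m + 2)) (β s : ℝ), c * (‖v‖ ^ 2 + β ^ 2 + s ^ 2) ≤ ∫ x, fcqG m u η v β s x ∂σ := by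
  have hT := hG.toIxTube
  have := hG.fin
  have hP := ixFun_P hT
  obtain ⟨q₀, hq₀, hq⟩ := fcq_QA hG hpatch
  have hL : 0 < σ.real univ := ix_vol_pos (by omega) hG
  set L := σ.real univ with hLdef
  set pb : ℝ := ∫ x, ixP u x ∂σ with hpb
  have hpb0 : 0 ≤ pb := integral_nonneg fun x => fcq_P_nonneg u x
  have hm1 : (1 : ℝ) ≤ m := by exact_mod_cast hm
  set θ : ℝ := min 1 (L / (2 * (pb + 1))) with hθ
  have hθ0 : 0 < θ := lt_min one_pos (by positivity)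
  have hθ1 : θ ≤ 1 := min_le_left _ _
  have hθ2 : θ * pb ≤ L / 2 := by
    have h : θ ≤ L / (2 * (pb + 1)) := min_le_right _ _
    calc θ * pb ≤ L / (2 * (pb + 1)) * pb := mul_le_mul_of_nonneg_right h hpb0
      _ = L / 2 * (pb / (pb + 1)) := by field_simp
      _ ≤ L / 2 * 1 := by
          refine mul_le_mul_of_nonneg_left ?_ (by positivity)
          rw [div_le_one (by positivity)]
          linarith
      _ = L / 2 := by ring
  set J := ixB m u σ η η with hJ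
  refine ⟨min (min (θ * q₀ / 2) (L / 2)) J, lt_min (lt_min (by positivity) (by positivity)) h3, fun v β s => ?_⟩
  rw [fcq_expand hG hη h1 h2 v β s]
  have hX := ixFun_X hT v
  have key : θ * (q₀ * ‖v‖ ^ 2 / 2 - β ^ 2 * pb) ≤ ∫ x, ixP u x * (β + ixX v x) ^ 2 ∂σ := by
    have i1 : Integrable (fun x => ixP u x * (β + ixX v x) ^ 2) σ :=
      (hP.mul (((IxFun.const β).add hX).pow 2)).integrable hG
    have i2 : Integrable (fun x => ixP u x * ixX v x ^ 2) σ := (hP.mul (hX.pow 2)).integrable hG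
    have i3 : Integrable (fun x => ixP u x) σ := hP.integrable hG
    have hnn : 0 ≤ ∫ x, ixP u x * (β + ixX v x) ^ 2 ∂σ :=
      integral_nonneg fun x => mul_nonneg (fcq_P_nonneg u x) (by positivity)
    have hlow : (∫ x, ixP u x * ixX v x ^ 2 ∂σ) / 2 - β ^ 2 * pb ≤ ∫ x, ixP u x * (β + ixX v x) ^ 2 ∂σ := by
      have e : (∫ x, ixP u x * ixX v x ^ 2 ∂σ) / 2 - β ^ 2 * pb
          = ∫ x, (2⁻¹ * (ixP u x * ixX v x ^ 2) - β ^ 2 * ixP u x) ∂σ := by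
        rw [integral_sub (i2.const_mul _) (i3.const_mul _), integral_const_mul, integral_const_mul]
        ring
      rw [e]
      refine integral_mono ((i2.const_mul _).sub (i3.const_mul _)) i1 fun x => ?_
      have hp := fcq_P_nonneg u x
      simp only
      nlinarith [mul_nonneg hp (sq_nonneg (2 * β + ixX v x))]
    have h4 : q₀ * ‖v‖ ^ 2 / 2 - β ^ 2 * pb ≤ ∫ x, ixP u x * (β + ixX v x) ^ 2 ∂σ := by
      have := hq v
      linarith
    rcases le_total 0 (q₀ * ‖v‖ ^ 2 / 2 - β ^ 2 * pb) with h5 | h5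
    · calc θ * (q₀ * ‖v‖ ^ 2 / 2 - β ^ 2 * pb) ≤ 1 * (q₀ * ‖v‖ ^ 2 / 2 - β ^ 2 * pb) :=
            mul_le_mul_of_nonneg_right hθ1 h5
        _ ≤ _ := by rw [one_mul]; exact h4
    · exact (mul_nonpos_of_nonneg_of_nonpos hθ0.le h5).trans hnn
  set c := min (min (θ * q₀ / 2) (L / 2)) J with hc
  have c1 : c ≤ θ * q₀ / 2 := (min_le_left _ _).trans (min_le_left _ _)
  have c2 : c ≤ L / 2 := (min_le_left _ _).trans (min_le_right _ _)
  have c3 : c ≤ J := min_le_right _ _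
  have b1 : c * ‖v‖ ^ 2 ≤ θ * q₀ / 2 * ‖v‖ ^ 2 := mul_le_mul_of_nonneg_right c1 (by positivity)
  have b2 : c * β ^ 2 ≤ L / 2 * β ^ 2 := mul_le_mul_of_nonneg_right c2 (by positivity)
  have b3 : c * s ^ 2 ≤ J * s ^ 2 := mul_le_mul_of_nonneg_right c3 (by positivity)
  have b4 : L * β ^ 2 ≤ (m : ℝ) * β ^ 2 * L := by
    have : 0 ≤ L * β ^ 2 := by positivity
    nlinarith
  have b5 : θ * pb * β ^ 2 ≤ L / 2 * β ^ 2 := mul_le_mul_of_nonneg_right hθ2 (by positivity)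
  nlinarith

/-- a point of the link with `|A|² ≠ 0`, `⟨v,x⟩ ≠ 0` (`fal_patch`). -/
theorem fcq_patch (hm : 1 ≤ m) {S U : Set (E (m + 2))} (hS : MinCone (m + 2) S) (hnf : ¬ IsHalf S)
    (hU : GmtSimCone S U (gmtSimSd S)) (hcon : ∀ x ∈ U, ∀ t : ℝ, 0 < t → t • x ∈ U) (v : E (m + 2)) (hv : v ≠ 0) :
    ∃ x ∈ ixLink U (gmtSimSd S), ixP (gmtSimSd S) x ≠ 0 ∧ ixX v x ≠ 0 := by
  obtain ⟨p, hp, hp0, hA, hvp⟩ := fal_patch (by omega) hS ⟨hU, hcon⟩ hnf v hv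
  have hT := ix_geo_tube hS hU hcon
  have hpU : p ∈ U := hU.bd p hp hp0
  have hn : 0 < ‖p‖ := norm_pos_iff.2 hp0
  have hi : 0 < ‖p‖⁻¹ := inv_pos.2 hn
  refine ⟨‖p‖⁻¹ • p, ⟨hcon p hpU _ hi, ?_, ?_⟩, ?_, ?_⟩
  · rw [hT.hom _ hi, (hU.zero_iff p hpU).2 hp, mul_zero]
  · rw [norm_smul, norm_inv, norm_norm, inv_mul_cancel₀ hn.ne']
  · rw [(ixFun_P hT).hom p hpU _ hi]
    unfold ixP
    exact mul_ne_zero (pow_ne_zero 2 hn.ne') hA
  · rw [(ixFun_X hT v).hom p hpU _ hi]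
    unfold ixX
    exact div_ne_zero hvp hn.ne'

theorem fcq_faQ {S U : Set (E (m + 2))} (hS : MinCone (m + 2) S)
    (hU : GmtSimCone S U (gmtSimSd S)) (hcon : ∀ x ∈ U, ∀ t : ℝ, 0 < t → t • x ∈ U)
    {η : E (m + 2) → ℝ} (hη : IxFun U η) (v : E (m + 2)) (β s : ℝ) :
    faQ S η v β s = ∫ x, fcqG m (gmtSimSd S) η v β s x ∂(ixSig S) := by
  rw [ix_geo_integral (by omega) hS hU hcon (fcq_G_fun (ix_geo_tube hS hU hcon) hη v β s)]
  unfold faQ
  congr 1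
  refine integral_congr_ae (Eventually.of_forall fun x => ?_)
  simp only
  unfold fcqG ixP ixX ixTg
  push_cast
  ring

/-- **step 6 of the centre: `faQ` is positive definite.** -/
theorem fcq_main (m : ℕ) (hm : 1 ≤ m) {S : Set (E (m + 2))} (hS : MinCone (m + 2) S) (hnf : ¬ IsHalf S)
    {η : E (m + 2) → ℝ} (hη : Hom0 η) (h1 : jacB S η (fun _ => 1) = 0)
    (h2 : ∀ a : E (m + 2), jacB S η (fun x => ⟪a, x⟫ / ‖x‖) = 0) (h3 : 0 < jacB S η η) :
    ∃ c > 0, ∀ (v : E (m + 2)) (β s : ℝ), c * (‖v‖ ^ 2 + β ^ 2 + s ^ 2) ≤ faQ S η v β s := by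
  obtain ⟨U, hU, hcon⟩ := kit_tube hS
  have hG := ix_geo (by omega) hS hnf hU hcon
  have hT := hG.toIxTube
  have hη' : IxFun U η := (Hom0.kitFun hU.zero hη).ixFun
  rw [ix_geo_jacB hS hU hcon hη' (IxFun.const 1)] at h1
  rw [ix_geo_jacB hS hU hcon hη' hη'] at h3
  have h2' : ∀ a, ixB m (gmtSimSd S) (ixSig S) η (ixX a) = 0 := fun a => by
    rw [← ix_geo_jacB hS hU hcon hη' (ixFun_X hT a)]
    exact h2 a
  obtain ⟨c, hc, h⟩ := fcq_abs hm hG (fcq_patch hm hS hnf hU hcon) hη' h1 h2' h3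
  refine ⟨c, hc, fun v β s => ?_⟩
  rw [fcq_faQ hS hU hcon hη']
  exact h v β s

/-- positivity of `v ↦ ∫_Σ |A|² ⟨v,x⟩²` on the cone (`= fac_QA` of `Fa/Cen.lean`). -/
theorem fcq_QA_cone (m : ℕ) (hm : 1 ≤ m) {S : Set (E (m + 2))} (hS : MinCone (m + 2) S) (hnf : ¬ IsHalf S) :
    ∃ q₀ > 0, ∀ v : E (m + 2), q₀ * ‖v‖ ^ 2 ≤
      ∫ x in ball (0 : E (m + 2)) 1, ‖x‖ ^ 2 * gmtSimA (gmtSimSd S) x * (⟪v, x⟫ / ‖x‖) ^ 2 ∂(gmtMu S) := by
  obtain ⟨U, hU, hcon⟩ := kit_tube hS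
  have hG := ix_geo (by omega) hS hnf hU hcon
  have hT := hG.toIxTube
  obtain ⟨q₀, hq₀, hq⟩ := fcq_QA hG (fcq_patch hm hS hnf hU hcon)
  have hk : (0 : ℝ) < ((m + 2 : ℕ) : ℝ) - 1 := by
    push_cast
    have : (0 : ℝ) ≤ m := Nat.cast_nonneg m
    linarith
  refine ⟨q₀ / (((m + 2 : ℕ) : ℝ) - 1), by positivity, fun v => ?_⟩
  have h := hq v
  rw [ix_geo_integral (by omega) hS hU hcon ((ixFun_P hT).mul ((ixFun_X hT v).pow 2))] at h
  rw [div_mul_eq_mul_div, div_le_iff₀ hk, mul_comm _ (((m + 2 : ℕ) : ℝ) - 1)]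
  exact h

end Claimed.Agent.R323
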