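import Claimed.Agent.R323.Defs

/-!
# Row 323, block E (the Lorentz-distance family at the Allen-Cahn level).  DEFINITIONS.   Architect: helper256.

Paper: sec. 5 (`family.tex`).  Design: report 905 + header of `Fa/Main.lean`.   EVERYTHING IS AMBIENT on `E n`, `n = m + 2`.
* `u = gmtSimSd S` signed distance to the cone `𝒞 = gmtBd S`; `N = ∇u`, `H = D²u = gmtSimH u` (`= -A` of the paper, extended by `0` to the normal and radial directions).
* boost with velocity `v`, `|v| < 1`:  `C = faC v = (1-|v|²)^{-1/2}`, `B = faB v = 1 + C²/(C+1) v vᵀ`  (`B v = C v`, `B² = 1 + C² v vᵀ`),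
  `(y,b) ↦ (z,h) = (faZ v y b, faH v y b) = (B y + C b v, C (b + ⟨v,y⟩))`, inverse `(z,h) ↦ (y,b) = (faY v z h, faBt v z h) = (B z - C h v, C (h - ⟨v,z⟩))`,
  `|z|² - h² = |y|² - b²`.
* `ψ_v = faPsi u v`: the function whose graph is the boosted graph of `u`; `ψ_v = -⟨v,·⟩` for `|v| ≥ 1`; `θ_v = faTh u v = arcsin (ψ_v / |y|)`.
* source coordinates `(p,s)`, `p ∈ 𝒞 \ 0`, `s ∈ ℝ`: the null line `(p + s N(p), s)`; `faYs`, `faBs` = its boost; `FaCt u p s`: CONTACT (`p` is a nearest point of `z = p + s N(p)`, right sign).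
-/

set_option autoImplicit false
open scoped ContDiff ENNReal NNReal RealInnerProductSpace Topology
open MeasureTheory Metric Set Filter

namespace Claimed.Agent.R323

open Claimed.Agent.Gmt

variable {n : ℕ}

/-- what the Lorentz construction uses of the signed distance `u` to the cone. -/
structure FaSd (K : ℝ) (u : E n → ℝ) : Prop where
  lip : LipschitzWith 1 u
  hom : ∀ t : ℝ, 0 < t → ∀ x, u (t • x) = t * u x
  K0 : 0 ≤ K
  K1 : K < 1
  bd : ∀ z, |u z| ≤ K * ‖z‖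

/-- the Lorentz factor `C = (1 - |v|²)^{-1/2}`. -/
noncomputable def faC (v : E n) : ℝ := (Real.sqrt (1 - ‖v‖ ^ 2))⁻¹

/-- the spatial part of the boost: `B = 1 + C²/(C+1) v vᵀ`. -/
noncomputable def faB (v : E n) : E n →L[ℝ] E n := 1 + (faC v ^ 2 / (faC v + 1)) • gmtSimR1 v v

/-- boost, `z`-component. -/
noncomputable def faZ (v y : E n) (b : ℝ) : E n := faB v y + (faC v * b) • v

/-- boost, `h`-component. -/
noncomputable def faH (v y : E n) (b : ℝ) : ℝ := faC v * (b + ⟪v, y⟫)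

/-- inverse boost, `y`-component. -/
noncomputable def faY (v z : E n) (h : ℝ) : E n := faB v z - (faC v * h) • v

/-- inverse boost, `b`-component. -/
noncomputable def faBt (v z : E n) (h : ℝ) : ℝ := faC v * (h - ⟪v, z⟫)

open Classical in
/-- `ψ_v`: the unique `b` with `(faZ v y b, faH v y b) ∈ graph u`; `-⟨v,y⟩` for `|v| ≥ 1`. -/
noncomputable def faPsi (u : E n → ℝ) (v y : E n) : ℝ :=
  if ‖v‖ < 1 then (if h : ∃ b, faH v y b = u (faZ v y b) then h.choose else 0) else -⟪v, y⟫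

/-- `θ_v = arcsin (ψ_v/|y|)` (`0`-homogeneous). -/
noncomputable def faTh (u : E n → ℝ) (v y : E n) : ℝ := Real.arcsin (faPsi u v y / ‖y‖)

/-- the point `z_v(y)` of the original picture which corresponds to `y`. -/
noncomputable def faZy (u : E n → ℝ) (v y : E n) : E n := faZ v y (faPsi u v y)

/-- contact: `z = p + s N(p)` has signed distance `s`. -/
def FaCt (u : E n → ℝ) (p : E n) (s : ℝ) : Prop := u (p + s • gradient u p) = s

/-- `𝒴_v(p,s)`: the `y`-component of the boosted null line through `p`. -/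
noncomputable def faYs (u : E n → ℝ) (v p : E n) (s : ℝ) : E n := faY v (p + s • gradient u p) s

/-- `b_v(p,s) = D s - C ⟨v,p⟩`. -/
noncomputable def faBs (u : E n → ℝ) (v p : E n) (s : ℝ) : ℝ := faBt v (p + s • gradient u p) s

/-- `D = C (1 - ⟨v,N⟩)`. -/
noncomputable def faD (u : E n → ℝ) (v p : E n) : ℝ := faC v * (1 - ⟪v, gradient u p⟫)

/-- `s_v(p,t)`: the parameter on the null line through `p` at which `θ_v = t` (`b = |p| tan t`). -/
noncomputable def faS (u : E n → ℝ) (v p : E n) (t : ℝ) : ℝ := (‖p‖ * Real.tan t + faC v * ⟪v, p⟫) / faD u v p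

open Classical in
/-- the truncated determinant `𝒟(M) = det M` if `M ≥ 0`, `0` otherwise. -/
noncomputable def faDet (M : E n →L[ℝ] E n) : ℝ := if ∀ w, 0 ≤ ⟪M w, w⟫ then M.det else 0

/-- the link integral of a `0`-homogeneous function: `∫_Σ J = (n-1) ∫_{𝒞 ∩ B_1} J dμ`. -/
noncomputable def faLk (S : Set (E n)) (J : E n → ℝ≥0∞) : ℝ≥0∞ :=
  ENNReal.ofReal ((n : ℝ) - 1) * ∫⁻ p in ball (0 : E n) 1, J p ∂(gmtMu S)

/-- `a(v,t)/cos^m t = ∫_Σ 𝒟(1 + s_v(p,t) H(p))`. -/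
noncomputable def faA (S : Set (E n)) (v : E n) (t : ℝ) : ℝ≥0∞ :=
  faLk S fun p => ENNReal.ofReal (faDet (1 + faS (gmtSimSd S) v p t • gmtSimH (gmtSimSd S) p))

/-! ### the profile -/

/-- `(1+λ) tanh (t/(√2 ε))`. -/
noncomputable def faG (ε lam t : ℝ) : ℝ := (1 + lam) * Real.tanh (t / (Real.sqrt 2 * ε))

/-- the truncated profile: `Ψ = clamp ((1+λ) tanh (t/(√2 ε)))`; `Ψ = ±1` for `|t| ≥ faT ε lam`. -/
noncomputable def faProf (ε lam t : ℝ) : ℝ := max (-1) (min 1 (faG ε lam t))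

/-- the transition half width: `(1+λ) tanh (T/(√2 ε)) = 1`. -/
noncomputable def faT (ε lam : ℝ) : ℝ := Real.sqrt 2 * ε * Real.artanh (1 + lam)⁻¹

/-- the common energy density of the profile: `(1 - tanh²(t/(√2 ε)))²/(4ε) = W(q(t/ε))/ε = (ε/2) (q(t/ε)')²`; `∫ = acC/2`. -/
noncomputable def faE (ε t : ℝ) : ℝ := (1 - Real.tanh (t / (Real.sqrt 2 * ε)) ^ 2) ^ 2 / (4 * ε)

/-- the piecewise linear cutoff: `1` for `|t| ≤ r/2`, `0` for `|t| ≥ r`. -/
noncomputable def faCut (r t : ℝ) : ℝ := max 0 (min 1 (2 - 2 * |t| / r))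

/-! ### the deformed family -/

/-- the phase `w = θ_v - β - σ et(z_v(y))`; `et` is a `Hom0` function on the `z`-space, `= η ∘ π` near the cone (constant along the normals), `= 0` away from the tube. -/
noncomputable def faW (u et : E n → ℝ) (v : E n) (β σ : ℝ) (y : E n) : ℝ :=
  faTh u v y - β - σ * et (faZy u v y)

/-- the test function `Ψ(w)`. -/
noncomputable def faU (u et : E n → ℝ) (ε lam : ℝ) (v : E n) (β σ : ℝ) (y : E n) : ℝ :=
  faProf ε lam (faW u et v β σ y)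

/-- **the family**: `q = (v,β) ↦ Ψ(θ_v - β - σ₀ χ(|q|) et(z_v))`, `χ = faCut r₀`. -/
noncomputable def faFam (S : Set (E n)) (et : E n → ℝ) (ε lam σ₀ r₀ : ℝ) (q : E n × ℝ) (y : E n) : ℝ :=
  faU (gmtSimSd S) et ε lam q.1 q.2 (σ₀ * faCut r₀ (Real.sqrt (‖q.1‖ ^ 2 + q.2 ^ 2))) y

/-- Hilbert-Schmidt norm squared (`gmtSimA u x = faHS (gmtSimH u x)`). -/
noncomputable def faHS (X : E n →L[ℝ] E n) : ℝ := ∑ i, ‖X (eb i)‖ ^ 2

/-- the quadratic form `Q(v,β,σ) = ∫_Σ (m (β+ση)² + |A|² (β + ση + ⟨v,x⟩)² - σ² |∇η|²)` `(= B(ρ,ρ), ρ = β + ⟨v,x⟩ + ση)`. -/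
noncomputable def faQ (S : Set (E n)) (η : E n → ℝ) (v : E n) (β σ : ℝ) : ℝ :=
  ((n : ℝ) - 1) * ∫ x in ball (0 : E n) 1,
    (((n : ℝ) - 2) * (β + σ * η x) ^ 2 + ‖x‖ ^ 2 * gmtSimA (gmtSimSd S) x * (β + σ * η x + ⟪v, x⟫ / ‖x‖) ^ 2
      - σ ^ 2 * (‖x‖ ^ 2 * gmtSimTg (gmtSimSd S) η η x)) ∂(gmtMu S)

end Claimed.Agent.R323
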