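import Claimed.Agent.R323.Kit.LinkE
import Claimed.Agent.R323.Fa.Defs

/-!
# Row 323, block E: the bridge Kit ⟹ E.   Architect: helper256.
-/

set_option autoImplicit false
open scoped ContDiff ENNReal NNReal RealInnerProductSpace Topology
open MeasureTheory Metric Set Filter

namespace Claimed.Agent.R323

open Claimed.Agent.Gmt

/-- the signed distance to a non flat minimal cone satisfies `FaSd`. -/
theorem fa_sd {m : ℕ} (hm : 1 ≤ m) {S : Set (E (m + 2))} (hS : MinCone (m + 2) S) (hnf : ¬ IsHalf S) :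
    ∃ K : ℝ, FaSd K (gmtSimSd S) := by
  obtain ⟨K, hK0, hK1, hb⟩ := kit_sd_bound hm hS hnf
  exact ⟨K, ⟨kit_sd_lip S, fun t ht x => gmtSim_sd_smul hS.cone ht x, hK0, hK1, hb⟩⟩

theorem fa_linkArea_nonneg {k : ℕ} (hk : 1 ≤ k) (S : Set (E k)) : 0 ≤ linkArea S := by
  unfold linkArea
  have : (1 : ℝ) ≤ k := by exact_mod_cast hk
  exact mul_nonneg (by linarith) ENNReal.toReal_nonneg

theorem fa_hom0_zero {k : ℕ} : Hom0 (fun _ : E k => (0 : ℝ)) :=
  ⟨contDiffOn_const, fun _ _ _ => rfl⟩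

end Claimed.Agent.R323
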