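import Claimed.Agent.R323.Fa.Defs
import Claimed.Agent.R323.Kit.LinkMu

/-!
# Row 323, block E3: UNIFORM STRICT LOSS OFF THE CENTRE (paper Lemma 5.7, `family.tex` l.524-597).   helper15.   Prefix `fal_`.   No sorry of its own.

Objects of `Fa/Defs.lean`: `faA S v t = a(v,t)/cos^m t = ∫_Σ 𝒟(1 + s_v(p,t) H(p))`, `u = gmtSimSd S`, `H = D²u`, `μ = gmtMu S`.
EXITS
* `fal_le`    : `faA S v t ≤ |Σ|` (all `v`, `t`);
* `fal_key`   : `faA S v t ≤ |Σ| - (n-1) I(v, tan t √(1-|v|²))`, `I = falI S` continuous, `≥ 0`, `I(v,0) > 0` for `v ≠ 0`;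
* `fal_loss`  : `ρ ≤ |v| < 1`, `|t| ≤ t₀` `⟹ faA S v t ≤ |Σ| - c`;
* `fal_away`  : `|v| < 1`, `|t| < π/2`, (`ρ ≤ |v|` or `ρ ≤ |t|`) `⟹ cos^m t · faA S v t ≤ |Σ| - c`;      `fal_area_pos : 0 < |Σ|`.
PROOF (direct, no sequences, no analyticity).
1. quantitative AM-GM: `λ_i ≥ 0`, `∑ λ_i = n` `⟹ ∏ λ_i ≤ 1 - (λ_j - 1)²/(n-1)²` (AM-GM on the other `n-1` numbers + Bernoulli); spectral theorem:
   `𝒟(1 + s H) ≤ 1 - min(1, s² |H|²/(n (n-1)²))` for `H` symmetric, trace free.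
2. `s_v(p,t) = (τ |p| + ⟨v,p⟩)/(1 - ⟨v,N⟩)`, `τ = tan t √(1-|v|²)`, `0 < 1 - ⟨v,N⟩ ≤ 2`: the singular denominator only helps.
3. `I(v,τ) = ∫_{B_1} min(1, (τ|p| + ⟨v,p⟩)² |H|²/(4 n (n-1)²)) dμ` is continuous on `E n × ℝ` (dominated convergence).
4. `I(v,0) > 0`: there is a point of the cone with `H ≠ 0` and `⟨v,p⟩ ≠ 0` (`fal_patch`): if `⟨v,·⟩ = 0` on the part of the cone where `H ≠ 0`, then `⟨v, π x⟩ = 0` near such a point,
   so `v ∥ N` there, `N` is locally constant, `H = 0`.   (`H ≡ 0` on the cone means half space: `gmtSim_flat_local`, `gmtSim_flat_global`.)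
5. tube lemma + compactness of `{ρ ≤ |v| ≤ 1}`.
Below: only the leaf `kit_mu_zero` (K3-Z) and `kit_tube`.
-/

set_option autoImplicit false
open scoped ContDiff ENNReal NNReal RealInnerProductSpace Topology
open MeasureTheory Metric Set Filter

namespace Claimed.Agent.R323

open Claimed.Agent.Gmt

variable {n : ℕ}

/-! ### 1. numbers -/
/-- AM-GM in product form. -/
theorem fal_amgm {ι : Type*} (s : Finset ι) (z : ι → ℝ) (hz : ∀ i ∈ s, 0 ≤ z i) (hs : s.Nonempty) :
    ∏ i ∈ s, z i ≤ ((∑ i ∈ s, z i) / s.card) ^ s.card := by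
  have hc : (0 : ℝ) < s.card := by exact_mod_cast hs.card_pos
  have h := Real.geom_mean_le_arith_mean s (fun _ => 1) z (fun _ _ => zero_le_one) (by simpa using hc) hz
  simp only [Real.rpow_one, Finset.sum_const, nsmul_eq_mul, mul_one, one_mul] at h
  have hp : 0 ≤ ∏ i ∈ s, z i := Finset.prod_nonneg hz
  calc ∏ i ∈ s, z i = ((∏ i ∈ s, z i) ^ ((s.card : ℝ)⁻¹)) ^ s.card :=
        (Real.rpow_inv_natCast_pow hp hs.card_pos.ne').symm
    _ ≤ _ := pow_le_pow_left₀ (Real.rpow_nonneg hp _) h _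

/-- **quantitative AM-GM**: nonnegative numbers of mean one. -/
theorem fal_prod_le {ι : Type*} [Fintype ι] [DecidableEq ι] (l : ι → ℝ) (hl : ∀ i, 0 ≤ l i)
    (hk : 2 ≤ Fintype.card ι) (hsum : ∑ i, l i = Fintype.card ι) (j : ι) :
    ∏ i, l i ≤ 1 - (l j - 1) ^ 2 / ((Fintype.card ι : ℝ) - 1) ^ 2 := by
  classical
  set k := Fintype.card ι with hkdef
  set s : Finset ι := Finset.univ.erase j with hs
  have hcard : s.card = k - 1 := by
    rw [hs, Finset.card_erase_of_mem (Finset.mem_univ j), Finset.card_univ]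
  have hne : s.Nonempty := by
    rw [← Finset.card_pos, hcard]; omega
  have hk1 : ((k - 1 : ℕ) : ℝ) = (k : ℝ) - 1 := by
    rw [Nat.cast_sub (by omega)]; simp
  have hkpos : (0 : ℝ) < (k : ℝ) - 1 := by
    have : (2 : ℝ) ≤ k := by exact_mod_cast hk
    linarith
  have hprod : ∏ i, l i = l j * ∏ i ∈ s, l i := (Finset.mul_prod_erase _ _ (Finset.mem_univ j)).symm
  have hsum' : ∑ i ∈ s, l i = (k : ℝ) - l j := by
    have := Finset.add_sum_erase Finset.univ l (Finset.mem_univ j)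
    rw [hsum] at this
    linarith
  set y := l j - 1 with hy
  set d := (k : ℝ) - 1 with hd
  have h1 : ∏ i ∈ s, l i ≤ (1 - y / d) ^ (k - 1) := by
    have := fal_amgm s l (fun i _ => hl i) hne
    rw [hsum', hcard, hk1] at this
    convert this using 2
    field_simp
    ring
  have hylow : -1 ≤ y := by have := hl j; linarith
  have hyup : y ≤ d := by
    have : 0 ≤ ∑ i ∈ s, l i := Finset.sum_nonneg fun i _ => hl i
    rw [hsum'] at this
    linarith
  have h2 : 0 ≤ 1 - y / d := by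
    rw [sub_nonneg, div_le_one hkpos]; exact hyup
  have h3 : 1 + y ≤ (1 + y / d) ^ (k - 1) := by
    have hb : (-2 : ℝ) ≤ y / d := by
      rw [le_div_iff₀ hkpos]
      have : (1 : ℝ) ≤ d := by
        have : (2 : ℝ) ≤ k := by exact_mod_cast hk
        linarith
      nlinarith
    have := one_add_mul_le_pow hb (k - 1)
    rw [hk1] at this
    have h4 : d * (y / d) = y := by field_simp
    rw [h4] at this
    exact this
  have h5 : 0 ≤ y ^ 2 / d ^ 2 := by positivity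
  have h6 : y ^ 2 / d ^ 2 ≤ 1 := by
    rw [div_le_one (by positivity)]
    have : (1 : ℝ) ≤ d := by
      have : (2 : ℝ) ≤ k := by exact_mod_cast hk
      linarith
    nlinarith
  calc ∏ i, l i = (1 + y) * ∏ i ∈ s, l i := by rw [hprod]; congr 1; rw [hy]; ring
    _ ≤ (1 + y) * (1 - y / d) ^ (k - 1) := mul_le_mul_of_nonneg_left h1 (by linarith)
    _ ≤ (1 + y / d) ^ (k - 1) * (1 - y / d) ^ (k - 1) := mul_le_mul_of_nonneg_right h3 (pow_nonneg h2 _)
    _ = (1 - y ^ 2 / d ^ 2) ^ (k - 1) := by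
        rw [← mul_pow]; congr 1; field_simp; ring
    _ ≤ (1 - y ^ 2 / d ^ 2) ^ 1 := pow_le_pow_of_le_one (by linarith) (by linarith) (by omega)
    _ = 1 - y ^ 2 / d ^ 2 := pow_one _

/-! ### 2. operators -/

/-- the Hilbert-Schmidt norm does not depend on the orthonormal basis. -/
theorem fal_hs (H : E n →L[ℝ] E n) (hsym : ∀ v w, ⟪H v, w⟫ = ⟪v, H w⟫) (b c : OrthonormalBasis (Fin n) ℝ (E n)) :
    ∑ i, ‖H (b i)‖ ^ 2 = ∑ i, ‖H (c i)‖ ^ 2 := by
  have h1 : ∀ (b c : OrthonormalBasis (Fin n) ℝ (E n)), ∑ i, ‖H (b i)‖ ^ 2 = ∑ i, ∑ j, ⟪H (b i), c j⟫ ^ 2 := by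
    intro b c
    refine Finset.sum_congr rfl fun i _ => ?_
    rw [← c.sum_sq_norm_inner_left (H (b i))]
    simp
  rw [h1 b c, h1 c b, Finset.sum_comm]
  refine Finset.sum_congr rfl fun i _ => Finset.sum_congr rfl fun j _ => ?_
  rw [hsym, real_inner_comm]

/-- **quantitative AM-GM for operators**: `det (1 + s H) ≤ 1 - s² |H|² / (n (n-1)²)` for `1 + s H ≥ 0`, `tr H = 0`. -/
theorem fal_det_psd (hn : 2 ≤ n) (H : E n →L[ℝ] E n) (hsym : ∀ v w, ⟪H v, w⟫ = ⟪v, H w⟫)
    (htr : gmtSimTr H = 0) (s : ℝ) (hpsd : ∀ w, 0 ≤ ⟪(1 + s • H) w, w⟫) :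
    (1 + s • H).det ≤ 1 - s ^ 2 * (∑ i, ‖H (eb i)‖ ^ 2) / ((n : ℝ) * ((n : ℝ) - 1) ^ 2) := by
  set M : E n →L[ℝ] E n := 1 + s • H with hM
  set T : E n →ₗ[ℝ] E n := (M : E n →ₗ[ℝ] E n) with hTdef
  have hT : T.IsSymmetric := by
    intro x y
    show ⟪M x, y⟫ = ⟪x, M y⟫
    simp only [hM, _root_.add_apply, _root_.smul_apply, one_apply_eq_self, inner_add_left, inner_add_right,
      inner_smul_left, inner_smul_right, hsym]
    simp
  have hfr : Module.finrank ℝ (E n) = n := finrank_euclideanSpace_fin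
  set l := hT.eigenvalues hfr with hl
  set b := hT.eigenvectorBasis hfr with hb
  have hap : ∀ i, M (b i) = l i • b i := fun i => hT.apply_eigenvectorBasis hfr i
  have hbn : ∀ i, ⟪b i, b i⟫ = 1 := fun i => by
    rw [real_inner_self_eq_norm_sq, b.orthonormal.1 i]; norm_num
  have hl0 : ∀ i, 0 ≤ l i := by
    intro i
    have := hpsd (b i)
    rw [hap i, inner_smul_left, hbn] at this
    simpa using this
  have hsum : ∑ i, l i = n := by
    have h1 := hT.trace_eq_sum_eigenvalues hfr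
    have h2 := LinearMap.trace_eq_sum_inner T (EuclideanSpace.basisFun (Fin n) ℝ)
    rw [h1] at h2
    have h3 : ∀ i : Fin n, ⟪EuclideanSpace.basisFun (Fin n) ℝ i, T (EuclideanSpace.basisFun (Fin n) ℝ i)⟫
        = 1 + s * ⟪H (eb i), eb i⟫ := by
      intro i
      rw [EuclideanSpace.basisFun_apply]
      show ⟪eb i, M (eb i)⟫ = _
      simp only [hM, _root_.add_apply, _root_.smul_apply, one_apply_eq_self, inner_add_right, inner_smul_right]
      rw [real_inner_comm (H (eb i))]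
      congr 1
      simp [eb]
    simp only [h3, Finset.sum_add_distrib, ← Finset.mul_sum] at h2
    unfold gmtSimTr at htr
    rw [htr] at h2
    simpa using h2
  have hdev : ∀ i, (l i - 1) ^ 2 = s ^ 2 * ‖H (b i)‖ ^ 2 := by
    intro i
    have h1 : s • H (b i) = (l i - 1) • b i := by
      have := hap i
      simp only [hM, _root_.add_apply, _root_.smul_apply, one_apply_eq_self] at this
      rw [sub_smul, one_smul, ← this]
      abel
    have h2 : ‖s • H (b i)‖ ^ 2 = ‖(l i - 1) • b i‖ ^ 2 := by rw [h1]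
    rw [norm_smul, norm_smul, b.orthonormal.1 i, mul_one, mul_pow, Real.norm_eq_abs, Real.norm_eq_abs, sq_abs, sq_abs] at h2
    exact h2.symm
  have hA : ∑ i, (l i - 1) ^ 2 = s ^ 2 * ∑ i, ‖H (eb i)‖ ^ 2 := by
    simp only [hdev, ← Finset.mul_sum]
    congr 1
    have := fal_hs H hsym b (EuclideanSpace.basisFun (Fin n) ℝ)
    simpa [EuclideanSpace.basisFun_apply] using this
  have hnpos : (0 : ℝ) < n := by positivity
  have hne : (Finset.univ : Finset (Fin n)).Nonempty := by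
    have : Nonempty (Fin n) := ⟨⟨0, by omega⟩⟩
    exact Finset.univ_nonempty
  obtain ⟨j, -, hj⟩ : ∃ j ∈ (Finset.univ : Finset (Fin n)), (s ^ 2 * ∑ i, ‖H (eb i)‖ ^ 2) / n ≤ (l j - 1) ^ 2 := by
    refine Finset.exists_le_of_sum_le hne ?_
    rw [hA, Finset.sum_const, Finset.card_univ, Fintype.card_fin, nsmul_eq_mul]
    apply le_of_eq
    field_simp
  have hdet : M.det = ∏ i, l i := by
    have := hT.det_eq_prod_eigenvalues hfr
    simpa using this
  rw [hdet]
  have h := fal_prod_le l hl0 (by simpa using hn) (by simpa using hsum) j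
  rw [Fintype.card_fin] at h
  refine h.trans ?_
  have hd : (0 : ℝ) < ((n : ℝ) - 1) ^ 2 := by
    have : (2 : ℝ) ≤ n := by exact_mod_cast hn
    have : (0 : ℝ) < (n : ℝ) - 1 := by linarith
    positivity
  have : s ^ 2 * (∑ i, ‖H (eb i)‖ ^ 2) / ((n : ℝ) * ((n : ℝ) - 1) ^ 2) ≤ (l j - 1) ^ 2 / ((n : ℝ) - 1) ^ 2 := by
    rw [← div_div]
    exact div_le_div_of_nonneg_right hj hd.le
  linarith

/-! ### 3. the source patch -/

/-- a function which vanishes on the cone near `q` has a gradient parallel to the normal. -/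
theorem fal_parallel {S U : Set (E n)} {u : E n → ℝ} (hc : GmtSimTube S U u) (v : E n) {q : E n} (hq : q ∈ U) (hu : u q = 0)
    (hF : (fun x => ⟪v, gmtSimPi u x⟫) =ᶠ[𝓝 q] fun _ => (0 : ℝ)) :
    v = ⟪v, gradient u q⟫ • gradient u q := by
  have hgs : ContDiffOn ℝ ∞ (gradient u) U := gmtSim_contDiffOn_gradient hc.opn hc.smooth
  have hgd : DifferentiableAt ℝ (gradient u) q :=
    (hgs.contDiffAt (hc.opn.mem_nhds hq)).differentiableAt (by simp)
  have hud : DifferentiableAt ℝ u q :=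
    (hc.smooth.contDiffAt (hc.opn.mem_nhds hq)).differentiableAt (by simp)
  have h1 : HasFDerivAt (fun x : E n => ⟪v, x⟫) (innerSL ℝ v) q := (innerSL ℝ v).hasFDerivAt
  have h2 : DifferentiableAt ℝ (fun x => ⟪v, gradient u x⟫) q := (differentiableAt_const v).inner ℝ hgd
  have h3 := hud.hasFDerivAt.mul h2.hasFDerivAt
  have h4 := h1.sub h3
  have h5 : (fun x => ⟪v, gmtSimPi u x⟫) = fun x => ⟪v, x⟫ - u x * ⟪v, gradient u x⟫ := by
    funext x
    unfold gmtSimPi
    rw [inner_sub_right, inner_smul_right]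
  rw [h5] at hF
  have h6 : HasFDerivAt (fun x => ⟪v, x⟫ - u x * ⟪v, gradient u x⟫) (0 : E n →L[ℝ] ℝ) q :=
    (hasFDerivAt_const (0 : ℝ) q).congr_of_eventuallyEq hF
  have h7 := h4.unique h6
  rw [hu, zero_smul, zero_add] at h7
  have h8 : ∀ w, ⟪v - ⟪v, gradient u q⟫ • gradient u q, w⟫ = 0 := by
    intro w
    have := congrArg (fun L : E n →L[ℝ] ℝ => L w) h7
    simp only [_root_.sub_apply, _root_.smul_apply, innerSL_apply_apply, _root_.zero_apply, smul_eq_mul] at this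
    rw [inner_sub_left, inner_smul_left, gmtSim_inner_gradient]
    simpa using this
  have h9 := h8 (v - ⟪v, gradient u q⟫ • gradient u q)
  rw [inner_self_eq_zero, sub_eq_zero] at h9
  exact h9

/-- **the source patch**: a point of the cone where `A ≠ 0` and `⟨v,·⟩ ≠ 0`. -/
theorem fal_patch (hn : 3 ≤ n) {S U : Set (E n)} (hS : MinCone n S) (hU : KitTube S U) (hnf : ¬ IsHalf S)
    (v : E n) (hv : v ≠ 0) :
    ∃ p ∈ gmtBd S, p ≠ 0 ∧ gmtSimA (gmtSimSd S) p ≠ 0 ∧ ⟪v, p⟫ ≠ 0 := by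
  set u := gmtSimSd S with hu
  have hc : GmtSimCone S U u := hU.cone
  have ht : GmtSimTube S U u := hc.toGmtSimTube
  obtain ⟨p, hp, hp0, hpA⟩ : ∃ p ∈ gmtBd S, p ≠ 0 ∧ gmtSimA u p ≠ 0 := by
    by_contra hcon
    push Not at hcon
    exact hnf (gmtSim_flat_global hn hS.meas hS.vert (gmtSim_flat_local hc hcon))
  by_contra hcon
  push Not at hcon
  apply hpA
  have hpU : p ∈ U := hc.bd p hp hp0
  have hup : u p = 0 := (hc.zero_iff p hpU).2 hp
  have hgs : ContDiffOn ℝ ∞ (gradient u) U := gmtSim_contDiffOn_gradient hc.opn hc.smooth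
  have hgd : DifferentiableAt ℝ (gradient u) p :=
    (hgs.contDiffAt (hc.opn.mem_nhds hpU)).differentiableAt (by simp)
  have hud : DifferentiableAt ℝ u p :=
    (hc.smooth.contDiffAt (hc.opn.mem_nhds hpU)).differentiableAt (by simp)
  have hAc : ContinuousOn (gmtSimA u) U := (gmtSim_contDiffOn_A hc.opn hc.smooth).continuousOn
  -- the open set where `A ≠ 0`
  have hW : ∀ᶠ x in 𝓝 p, x ∈ U ∧ gmtSimA u x ≠ 0 :=
    Filter.Eventually.and (hc.opn.mem_nhds hpU) ((hAc.continuousAt (hc.opn.mem_nhds hpU)).eventually_ne hpA)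
  have hπc : Tendsto (gmtSimPi u) (𝓝 p) (𝓝 p) := by
    have h1 : ContinuousAt (gmtSimPi u) p := by
      unfold gmtSimPi
      exact continuousAt_id.sub (hud.continuousAt.smul hgd.continuousAt)
    have h2 : gmtSimPi u p = p := by
      unfold gmtSimPi
      rw [hup, zero_smul, sub_zero]
    have h3 := h1.tendsto
    rwa [h2] at h3
  have hF : ∀ᶠ x in 𝓝 p, ⟪v, gmtSimPi u x⟫ = 0 := by
    filter_upwards [hπc.eventually hW, hc.opn.mem_nhds hpU] with x hx hxU
    have h1 := hc.proj x hxU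
    have h2 : gmtSimPi u x ∈ gmtBd S := (hc.zero_iff _ h1.1).1 h1.2
    exact hcon _ h2 (fun h => hc.zero (h ▸ h1.1)) hx.2
  -- `v` is parallel to the normal near `p`
  have hpar : ∀ᶠ x in 𝓝 p, ⟪v, gradient u x⟫ • gradient u x = v := by
    have h1 : ∀ᶠ q in 𝓝 p, (fun x => ⟪v, gmtSimPi u x⟫) =ᶠ[𝓝 q] fun _ => (0 : ℝ) := hF.eventually_nhds
    filter_upwards [hπc.eventually h1, hc.opn.mem_nhds hpU] with x hx hxU
    have h2 := hc.proj x hxU
    have h3 := fal_parallel ht v h2.1 h2.2 hx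
    rw [hc.grad_proj x hxU] at h3
    exact h3.symm
  set N := gradient u p with hN
  set lam := ⟪v, N⟫ with hlam
  have hvN : lam • N = v := hpar.self_of_nhds
  have hlam0 : lam ≠ 0 := by
    intro h
    rw [h, zero_smul] at hvN
    exact hv hvN.symm
  have hHN : gmtSimH u p N = 0 := gmtSim_H_gradient hc.opn hc.smooth hc.eik hpU
  have hHv : gmtSimH u p v = 0 := by rw [← hvN, map_smul, hHN, smul_zero]
  -- differentiate
  have h2 : HasFDerivAt (fun x => ⟪v, gradient u x⟫) ((innerSL ℝ v).comp (gmtSimH u p)) p :=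
    (innerSL ℝ v).hasFDerivAt.comp p hgd.hasFDerivAt
  have h3 := h2.smul hgd.hasFDerivAt
  have h4 : HasFDerivAt (fun x => ⟪v, gradient u x⟫ • gradient u x) (0 : E n →L[ℝ] E n) p :=
    (hasFDerivAt_const v p).congr_of_eventuallyEq hpar
  have h5 := h3.unique h4
  have hH : ∀ w, gmtSimH u p w = 0 := by
    intro w
    have h6 := congrArg (fun L : E n →L[ℝ] E n => L w) h5
    simp only [_root_.add_apply, _root_.smul_apply, ContinuousLinearMap.smulRight_apply, ContinuousLinearMap.comp_apply,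
      innerSL_apply_apply, _root_.zero_apply] at h6
    rw [← gmtSim_H_symm hc.opn hc.smooth hpU, hHv, inner_zero_left, zero_smul, add_zero] at h6
    exact (smul_eq_zero.1 h6).resolve_left hlam0
  unfold gmtSimA
  simp [hH]

/-! ### 4. the loss -/

/-- the constant of the quantitative AM-GM inequality. -/
noncomputable def falQ (n : ℕ) : ℝ := (n : ℝ) * ((n : ℝ) - 1) ^ 2

theorem falQ_pos (hn : 2 ≤ n) : 0 < falQ n := by
  unfold falQ
  have : (2 : ℝ) ≤ n := by exact_mod_cast hn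
  have h1 : (0 : ℝ) < (n : ℝ) - 1 := by linarith
  positivity

/-- the truncated determinant: `𝒟(1 + s H) ≤ 1 - min(1, s² |H|² / q_n)`. -/
theorem fal_det_le (hn : 2 ≤ n) (H : E n →L[ℝ] E n) (hsym : ∀ v w, ⟪H v, w⟫ = ⟪v, H w⟫)
    (htr : gmtSimTr H = 0) (s : ℝ) :
    faDet (1 + s • H) ≤ 1 - min 1 (s ^ 2 * (∑ i, ‖H (eb i)‖ ^ 2) / falQ n) := by
  unfold faDet
  split_ifs with h
  · have := fal_det_psd hn H hsym htr s h
    have h2 := min_le_right 1 (s ^ 2 * (∑ i, ‖H (eb i)‖ ^ 2) / falQ n)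
    unfold falQ at h2 ⊢
    linarith
  · have := min_le_left 1 (s ^ 2 * (∑ i, ‖H (eb i)‖ ^ 2) / falQ n)
    linarith

/-- the loss density at the parameter `q = (v, τ)`. -/
noncomputable def falG (S : Set (E n)) (q : E n × ℝ) (p : E n) : ℝ :=
  min 1 ((q.2 * ‖p‖ + ⟪q.1, p⟫) ^ 2 * gmtSimA (gmtSimSd S) p / (4 * falQ n))

/-- the integrated loss. -/
noncomputable def falI (S : Set (E n)) (q : E n × ℝ) : ℝ := ∫ p in ball (0 : E n) 1, falG S q p ∂(gmtMu S)

theorem falA_nonneg (u : E n → ℝ) (p : E n) : 0 ≤ gmtSimA u p := by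
  unfold gmtSimA
  positivity

theorem falG_nonneg (hn : 2 ≤ n) (S : Set (E n)) (q : E n × ℝ) (p : E n) : 0 ≤ falG S q p := by
  unfold falG
  have := falQ_pos hn
  have := falA_nonneg (gmtSimSd S) p
  exact le_min zero_le_one (by positivity)

theorem falG_le_one (S : Set (E n)) (q : E n × ℝ) (p : E n) : falG S q p ≤ 1 := min_le_left _ _

theorem falG_continuousOn {S U : Set (E n)} (hU : KitTube S U) (q : E n × ℝ) : ContinuousOn (falG S q) U := by
  have hc := hU.cone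
  have hAc : ContinuousOn (gmtSimA (gmtSimSd S)) U := (gmtSim_contDiffOn_A hc.opn hc.smooth).continuousOn
  unfold falG
  refine ContinuousOn.inf continuousOn_const (ContinuousOn.div_const (ContinuousOn.mul ?_ hAc) _)
  exact (Continuous.continuousOn (by fun_prop))

theorem falG_continuous_param (S : Set (E n)) (p : E n) : Continuous fun q : E n × ℝ => falG S q p := by
  unfold falG
  fun_prop

/-- `μ`-almost every point of the unit ball is a point of the cone different from the vertex. -/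
theorem fal_ae (hn : 2 ≤ n) {S : Set (E n)} (hS : MinCone n S) :
    ∀ᵐ p ∂((gmtMu S).restrict (ball 0 1)), p ∈ gmtBd S ∧ p ≠ 0 := by
  refine ae_restrict_of_ae ?_
  have h1 : ∀ᵐ p ∂(gmtMu S), p ∈ gmtBd S := by
    rw [ae_iff]; exact gmtMu_compl_gmtBd hS.meas
  have h2 : ∀ᵐ p ∂(gmtMu S), p ≠ 0 := by
    rw [ae_iff]
    simpa using kit_mu_zero hn hS.lf hS.cone
  filter_upwards [h1, h2] with p hp1 hp2
  exact ⟨hp1, hp2⟩

theorem fal_fin {S : Set (E n)} (hS : MinCone n S) : gmtMu S (ball 0 1) ≠ ⊤ := by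
  have h := gmtMu_compact_ne_top isOpen_univ hS.lf (isCompact_closedBall (0 : E n) 1) (subset_univ _)
  exact ne_top_of_le_ne_top h (measure_mono ball_subset_closedBall)

theorem fal_finite {S : Set (E n)} (hS : MinCone n S) : IsFiniteMeasure ((gmtMu S).restrict (ball 0 1)) :=
  ⟨by rw [Measure.restrict_apply_univ]; exact lt_top_iff_ne_top.2 (fal_fin hS)⟩

theorem falG_meas (hn : 2 ≤ n) {S U : Set (E n)} (hS : MinCone n S) (hU : KitTube S U) (q : E n × ℝ) :
    AEStronglyMeasurable (falG S q) ((gmtMu S).restrict (ball 0 1)) := by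
  have h1 : AEStronglyMeasurable (falG S q) (((gmtMu S).restrict (ball 0 1)).restrict U) :=
    (falG_continuousOn hU q).aestronglyMeasurable hU.cone.opn.measurableSet
  have h2 : ((gmtMu S).restrict (ball 0 1)).restrict U = (gmtMu S).restrict (ball 0 1) := by
    refine Measure.restrict_eq_self_of_ae_mem ?_
    filter_upwards [fal_ae hn hS] with p hp
    exact hU.cone.bd p hp.1 hp.2
  rwa [h2] at h1

theorem falG_integrable (hn : 2 ≤ n) {S U : Set (E n)} (hS : MinCone n S) (hU : KitTube S U) (q : E n × ℝ) :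
    Integrable (falG S q) ((gmtMu S).restrict (ball 0 1)) := by
  have := fal_finite hS
  refine Integrable.of_bound (falG_meas hn hS hU q) 1 (Eventually.of_forall fun p => ?_)
  rw [Real.norm_eq_abs, abs_of_nonneg (falG_nonneg hn S q p)]
  exact falG_le_one S q p

theorem falI_continuous (hn : 2 ≤ n) {S U : Set (E n)} (hS : MinCone n S) (hU : KitTube S U) : Continuous (falI S) := by
  have := fal_finite hS
  unfold falI
  refine continuous_of_dominated (bound := fun _ => (1 : ℝ)) (fun q => falG_meas hn hS hU q) (fun q => ?_)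
    (integrable_const _) (Eventually.of_forall fun p => falG_continuous_param S p)
  refine Eventually.of_forall fun p => ?_
  rw [Real.norm_eq_abs, abs_of_nonneg (falG_nonneg hn S q p)]
  exact falG_le_one S q p

theorem falI_nonneg (hn : 2 ≤ n) (S : Set (E n)) (q : E n × ℝ) : 0 ≤ falI S q :=
  integral_nonneg fun p => falG_nonneg hn S q p

/-- positivity at `τ = 0`, `v ≠ 0`. -/
theorem falI_pos (hn : 3 ≤ n) {S U : Set (E n)} (hS : MinCone n S) (hU : KitTube S U) (hnf : ¬ IsHalf S)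
    (v : E n) (hv : v ≠ 0) : 0 < falI S (v, 0) := by
  have hn2 : 2 ≤ n := by omega
  obtain ⟨p, hp, hp0, hpA, hpv⟩ := fal_patch hn hS hU hnf v hv
  have hc := hU.cone
  -- normalise `‖p‖ = 1/2`
  set t : ℝ := (2 * ‖p‖)⁻¹ with ht
  have hpn : 0 < ‖p‖ := norm_pos_iff.2 hp0
  have htpos : 0 < t := by positivity
  set p₁ := t • p with hp₁
  have hp₁bd : p₁ ∈ gmtBd S := (gmtSim_bd_smul hS.cone htpos p).2 hp
  have hp₁n : ‖p₁‖ = 1 / 2 := by
    rw [hp₁, norm_smul, Real.norm_eq_abs, abs_of_pos htpos, ht]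
    field_simp
  have hp₁0 : p₁ ≠ 0 := by
    intro h
    rw [h, norm_zero] at hp₁n
    norm_num at hp₁n
  have hp₁U : p₁ ∈ U := hc.bd p₁ hp₁bd hp₁0
  have hp₁A : 0 < gmtSimA (gmtSimSd S) p₁ := by
    rw [hp₁, hc.homA p hp hp0 t htpos]
    have := lt_of_le_of_ne (falA_nonneg (gmtSimSd S) p) (Ne.symm hpA)
    positivity
  have hp₁v : ⟪v, p₁⟫ ≠ 0 := by
    rw [hp₁, inner_smul_right]
    exact mul_ne_zero htpos.ne' hpv
  have hpos : 0 < falG S (v, 0) p₁ := by
    unfold falG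
    have := falQ_pos hn2
    refine lt_min one_pos ?_
    simp only [zero_mul, zero_add]
    positivity
  have hev : ∀ᶠ x in 𝓝 p₁, 0 < falG S (v, 0) x ∧ x ∈ ball (0 : E n) 1 := by
    have h1 : ContinuousAt (falG S (v, 0)) p₁ := (falG_continuousOn hU (v, 0)).continuousAt (hc.opn.mem_nhds hp₁U)
    have h2 : p₁ ∈ ball (0 : E n) 1 := by
      rw [mem_ball_zero_iff, hp₁n]; norm_num
    exact (h1.eventually (lt_mem_nhds hpos)).and (isOpen_ball.mem_nhds h2)
  obtain ⟨r, hr, hball⟩ := Metric.eventually_nhds_iff_ball.1 hev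
  unfold falI
  rw [integral_pos_iff_support_of_nonneg (fun p => falG_nonneg hn2 S (v, 0) p) (falG_integrable hn2 hS hU (v, 0))]
  have h3 : 0 < gmtMu S (ball p₁ r) := (gmtBd_iff_gmtMu hS.meas p₁).1 hp₁bd r hr
  refine lt_of_lt_of_le h3 ?_
  rw [Measure.restrict_apply' measurableSet_ball]
  refine measure_mono fun x hx => ⟨?_, (hball x hx).2⟩
  exact (hball x hx).1.ne'


/-- on the cone the Hessian of the distance is symmetric and trace free. -/
theorem fal_H {S U : Set (E n)} (hU : KitTube S U) {p : E n} (hp : p ∈ gmtBd S) (hp0 : p ≠ 0) :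
    (∀ v w, ⟪gmtSimH (gmtSimSd S) p v, w⟫ = ⟪v, gmtSimH (gmtSimSd S) p w⟫) ∧ gmtSimTr (gmtSimH (gmtSimSd S) p) = 0 := by
  have hc := hU.cone
  have hpU : p ∈ U := hc.bd p hp hp0
  refine ⟨fun v w => gmtSim_H_symm hc.opn hc.smooth hpU v w, ?_⟩
  have h := hc.harm p hpU ((hc.zero_iff p hpU).2 hp)
  rw [gmtSim_div_eq_tr] at h
  exact h

/-- a link integral below the area. -/
theorem fal_lk_le (hn : 2 ≤ n) {S U : Set (E n)} (hS : MinCone n S) (hU : KitTube S U) (q : E n × ℝ) (J : E n → ℝ)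
    (hJ : ∀ p ∈ gmtBd S, p ≠ 0 → J p ≤ 1 - falG S q p) :
    faLk S (fun p => ENNReal.ofReal (J p)) ≤ ENNReal.ofReal (linkArea S - ((n : ℝ) - 1) * falI S q) := by
  have := fal_finite hS
  have hn1 : (0 : ℝ) ≤ (n : ℝ) - 1 := by
    have : (2 : ℝ) ≤ n := by exact_mod_cast hn
    linarith
  have hint : Integrable (fun p => 1 - falG S q p) ((gmtMu S).restrict (ball 0 1)) :=
    (integrable_const _).sub (falG_integrable hn hS hU q)
  have h1 : ∫⁻ p in ball (0 : E n) 1, ENNReal.ofReal (J p) ∂(gmtMu S)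
      ≤ ∫⁻ p in ball (0 : E n) 1, ENNReal.ofReal (1 - falG S q p) ∂(gmtMu S) := by
    refine lintegral_mono_ae ?_
    filter_upwards [fal_ae hn hS] with p hp
    exact ENNReal.ofReal_le_ofReal (hJ p hp.1 hp.2)
  have h2 : ∫⁻ p in ball (0 : E n) 1, ENNReal.ofReal (1 - falG S q p) ∂(gmtMu S)
      = ENNReal.ofReal ((gmtMu S (ball 0 1)).toReal - falI S q) := by
    rw [← ofReal_integral_eq_lintegral_ofReal hint (Eventually.of_forall fun p => sub_nonneg.2 (falG_le_one S q p)),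
      integral_sub (integrable_const _) (falG_integrable hn hS hU q)]
    congr 2
    simp [Measure.real]
  unfold faLk
  calc ENNReal.ofReal ((n : ℝ) - 1) * ∫⁻ p in ball (0 : E n) 1, ENNReal.ofReal (J p) ∂(gmtMu S)
      ≤ ENNReal.ofReal ((n : ℝ) - 1) * ENNReal.ofReal ((gmtMu S (ball 0 1)).toReal - falI S q) := by
        rw [← h2]; exact mul_le_mul_right h1 _
    _ = ENNReal.ofReal (linkArea S - ((n : ℝ) - 1) * falI S q) := by
        rw [← ENNReal.ofReal_mul hn1]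
        unfold linkArea
        congr 1
        ring

/-- **(E3-0)** every level: `a(v,t)/cos^m t ≤ |Σ|`. -/
theorem fal_le (hn : 2 ≤ n) {S : Set (E n)} (hS : MinCone n S) (v : E n) (t : ℝ) :
    faA S v t ≤ ENNReal.ofReal (linkArea S) := by
  obtain ⟨U, hU⟩ := kit_tube' hS
  have h := fal_lk_le hn hS hU (0, 0)
    (fun p => faDet (1 + faS (gmtSimSd S) v p t • gmtSimH (gmtSimSd S) p)) (fun p hp hp0 => by
      obtain ⟨h1, h2⟩ := fal_H hU hp hp0
      have h3 := fal_det_le hn _ h1 h2 (faS (gmtSimSd S) v p t)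
      have h4 : falG S (0, 0) p = 0 := by
        unfold falG
        simp
      rw [h4]
      have h5 : 0 ≤ min 1 (faS (gmtSimSd S) v p t ^ 2 * (∑ i, ‖gmtSimH (gmtSimSd S) p (eb i)‖ ^ 2) / falQ n) := by
        have := falQ_pos hn
        exact le_min zero_le_one (by positivity)
      linarith)
  refine h.trans (ENNReal.ofReal_le_ofReal ?_)
  have hn1 : (0 : ℝ) ≤ (n : ℝ) - 1 := by
    have : (2 : ℝ) ≤ n := by exact_mod_cast hn
    linarith
  have := mul_nonneg hn1 (falI_nonneg hn S (0, 0))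
  linarith

/-- the parameter `s_v(p,t)` is bounded below. -/
theorem fal_S_sq {u : E n → ℝ} {v p : E n} (hv : ‖v‖ < 1) (hN : ‖gradient u p‖ = 1) (t : ℝ) :
    (Real.tan t * Real.sqrt (1 - ‖v‖ ^ 2) * ‖p‖ + ⟪v, p⟫) ^ 2 / 4 ≤ faS u v p t ^ 2 := by
  have h0 : 0 < 1 - ‖v‖ ^ 2 := by nlinarith [norm_nonneg v]
  set r := Real.sqrt (1 - ‖v‖ ^ 2) with hr
  have hr0 : 0 < r := Real.sqrt_pos.2 h0
  have hin : |⟪v, gradient u p⟫| < 1 := by
    calc |⟪v, gradient u p⟫| ≤ ‖v‖ * ‖gradient u p‖ := abs_real_inner_le_norm _ _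
      _ < 1 := by rw [hN, mul_one]; exact hv
  rw [abs_lt] at hin
  set g := ⟪v, gradient u p⟫ with hg
  have hd0 : 0 < 1 - g := by linarith
  have hd2 : 1 - g ≤ 2 := by linarith
  have hS : faS u v p t = (Real.tan t * r * ‖p‖ + ⟪v, p⟫) / (1 - g) := by
    unfold faS faD faC
    rw [← hr, ← hg]
    field_simp
  rw [hS, div_pow]
  refine div_le_div_of_nonneg_left (sq_nonneg _) (by positivity) ?_
  nlinarith

/-- **the key inequality**: `a(v,t)/cos^m t ≤ |Σ| - (n-1) I(v, tan t √(1-|v|²))`. -/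
theorem fal_key (hn : 2 ≤ n) {S U : Set (E n)} (hS : MinCone n S) (hU : KitTube S U) {v : E n} (hv : ‖v‖ < 1) (t : ℝ) :
    faA S v t ≤ ENNReal.ofReal (linkArea S - ((n : ℝ) - 1) * falI S (v, Real.tan t * Real.sqrt (1 - ‖v‖ ^ 2))) := by
  refine fal_lk_le hn hS hU _ (fun p => faDet (1 + faS (gmtSimSd S) v p t • gmtSimH (gmtSimSd S) p)) fun p hp hp0 => ?_
  obtain ⟨h1, h2⟩ := fal_H hU hp hp0
  have h3 := fal_det_le hn _ h1 h2 (faS (gmtSimSd S) v p t)
  have hpU : p ∈ U := hU.cone.bd p hp hp0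
  have h4 := fal_S_sq (u := gmtSimSd S) (p := p) hv (hU.cone.eik p hpU) t
  have hq := falQ_pos hn
  have hA := falA_nonneg (gmtSimSd S) p
  have h5 : falG S (v, Real.tan t * Real.sqrt (1 - ‖v‖ ^ 2)) p
      ≤ min 1 (faS (gmtSimSd S) v p t ^ 2 * (∑ i, ‖gmtSimH (gmtSimSd S) p (eb i)‖ ^ 2) / falQ n) := by
    unfold falG
    refine min_le_min le_rfl ?_
    show _ ≤ faS (gmtSimSd S) v p t ^ 2 * gmtSimA (gmtSimSd S) p / falQ n
    rw [div_le_div_iff₀ (by positivity) hq]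
    have := mul_le_mul_of_nonneg_right h4 (mul_nonneg hA hq.le)
    nlinarith
  linarith


/-- uniform positivity of the loss on `ρ ≤ |v| ≤ 1`, `|τ| ≤ τ₀`. -/
theorem falI_unif (hn : 3 ≤ n) {S U : Set (E n)} (hS : MinCone n S) (hU : KitTube S U) (hnf : ¬ IsHalf S)
    {ρ : ℝ} (hρ : 0 < ρ) :
    ∃ c > 0, ∃ τ₀ > 0, ∀ v : E n, ρ ≤ ‖v‖ → ‖v‖ ≤ 1 → ∀ τ : ℝ, |τ| ≤ τ₀ → c ≤ falI S (v, τ) := by
  have hn2 : 2 ≤ n := by omega
  have hcont := falI_continuous hn2 hS hU
  set K : Set (E n) := {v | ρ ≤ ‖v‖ ∧ ‖v‖ ≤ 1} with hK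
  have hKc : IsCompact K := by
    have h1 : IsClosed K := (isClosed_le continuous_const continuous_norm).inter (isClosed_le continuous_norm continuous_const)
    refine (isCompact_closedBall (0 : E n) 1).of_isClosed_subset h1 fun v hv => ?_
    rw [mem_closedBall_zero_iff]
    exact hv.2
  have hO : IsOpen {q : E n × ℝ | 0 < falI S q} := isOpen_lt continuous_const hcont
  have hsub : K ×ˢ ({0} : Set ℝ) ⊆ {q : E n × ℝ | 0 < falI S q} := by
    rintro ⟨v, τ⟩ ⟨hv, hτ⟩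
    rw [mem_singleton_iff] at hτ
    subst hτ
    refine falI_pos hn hS hU hnf v fun h => ?_
    have := hv.1
    rw [h, norm_zero] at this
    linarith
  obtain ⟨A, V, -, hV, hKA, h0V, hAV⟩ := generalized_tube_lemma hKc isCompact_singleton hO hsub
  obtain ⟨τ₀, hτ₀, hball⟩ := Metric.isOpen_iff.1 hV 0 (h0V rfl)
  have hcomp : IsCompact (K ×ˢ closedBall (0 : ℝ) (τ₀ / 2)) := hKc.prod (isCompact_closedBall _ _)
  obtain ⟨c, hc, hmin⟩ := hcomp.exists_forall_le' hcont.continuousOn (a := 0) (by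
    rintro ⟨v, τ⟩ ⟨hv, hτ⟩
    refine hAV ⟨hKA hv, hball ?_⟩
    rw [mem_closedBall] at hτ
    rw [mem_ball]
    simp only at hτ ⊢
    linarith)
  refine ⟨c, hc, τ₀ / 2, by positivity, fun v h1 h2 τ hτ => hmin (v, τ) ⟨⟨h1, h2⟩, ?_⟩⟩
  rw [mem_closedBall, Real.dist_eq, sub_zero]
  exact hτ

/-- **(E3-1) strict loss for boosts away from `0`, levels near `0`** (uniform up to `|v| → 1`). -/
theorem fal_loss (hn : 3 ≤ n) {S : Set (E n)} (hS : MinCone n S) (hnf : ¬ IsHalf S) {ρ : ℝ} (hρ : 0 < ρ) :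
    ∃ c > 0, ∃ t₀ > 0, ∀ v : E n, ρ ≤ ‖v‖ → ‖v‖ < 1 → ∀ t : ℝ, |t| ≤ t₀ →
      faA S v t ≤ ENNReal.ofReal (linkArea S - c) := by
  have hn2 : 2 ≤ n := by omega
  obtain ⟨U, hU⟩ := kit_tube' hS
  obtain ⟨c, hc, τ₀, hτ₀, h⟩ := falI_unif hn hS hU hnf hρ
  have htan : ContinuousAt Real.tan 0 := Real.continuousAt_tan.2 (by simp)
  obtain ⟨δ, hδ, hδt⟩ := Metric.continuousAt_iff.1 htan τ₀ hτ₀
  refine ⟨c, hc, δ / 2, by positivity, fun v h1 h2 t ht => ?_⟩
  refine (fal_key hn2 hS hU h2 t).trans (ENNReal.ofReal_le_ofReal ?_)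
  have h3 : |Real.tan t| ≤ τ₀ := by
    have := hδt (x := t) (by rw [Real.dist_eq, sub_zero]; linarith)
    rw [Real.dist_eq, Real.tan_zero, sub_zero] at this
    exact this.le
  have h4 : |Real.tan t * Real.sqrt (1 - ‖v‖ ^ 2)| ≤ τ₀ := by
    rw [abs_mul, abs_of_nonneg (Real.sqrt_nonneg _)]
    have h5 : Real.sqrt (1 - ‖v‖ ^ 2) ≤ 1 := by
      rw [Real.sqrt_le_left zero_le_one, one_pow]
      nlinarith [sq_nonneg ‖v‖]
    calc |Real.tan t| * Real.sqrt (1 - ‖v‖ ^ 2) ≤ |Real.tan t| * 1 := mul_le_mul_of_nonneg_left h5 (abs_nonneg _)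
      _ ≤ τ₀ := by rw [mul_one]; exact h3
  have h6 := h v h1 h2.le _ h4
  have hn1 : (1 : ℝ) ≤ (n : ℝ) - 1 := by
    have : (3 : ℝ) ≤ n := by exact_mod_cast hn
    linarith
  nlinarith

theorem fal_area_pos (hn : 2 ≤ n) {S : Set (E n)} (hS : MinCone n S) : 0 < linkArea S := by
  unfold linkArea
  have hn1 : (0 : ℝ) < (n : ℝ) - 1 := by
    have : (2 : ℝ) ≤ n := by exact_mod_cast hn
    linarith
  have h1 : 0 < gmtMu S (ball 0 1) := (gmtBd_iff_gmtMu hS.meas 0).1 hS.vert 1 one_pos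
  exact mul_pos hn1 (ENNReal.toReal_pos h1.ne' (fal_fin hS))

/-- **(E3) uniform strict loss off the centre**: `a(v,t) = cos^m t · faA S v t ≤ |Σ| - c` outside every neighbourhood of `(v,t) = (0,0)`,
uniformly up to `|v| → 1`, `|t| → π/2`. -/
theorem fal_away (m : ℕ) (hm : 1 ≤ m) {S : Set (E (m + 2))} (hS : MinCone (m + 2) S) (hnf : ¬ IsHalf S) {ρ : ℝ} (hρ : 0 < ρ) :
    ∃ c > 0, ∀ (v : E (m + 2)) (t : ℝ), ‖v‖ < 1 → |t| < Real.pi / 2 → (ρ ≤ ‖v‖ ∨ ρ ≤ |t|) →
      ENNReal.ofReal (Real.cos t ^ m) * faA S v t ≤ ENNReal.ofReal (linkArea S - c) := by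
  obtain ⟨c, hc, t₀, ht₀, h⟩ := fal_loss (by omega) hS hnf hρ
  have hL := fal_area_pos (by omega) hS
  set t₁ := min (min ρ t₀) 1 with ht₁
  have ht₁0 : 0 < t₁ := lt_min (lt_min hρ ht₀) one_pos
  have ht₁1 : t₁ ≤ 1 := min_le_right _ _
  have hpi : (1 : ℝ) < Real.pi / 2 := by have := Real.pi_gt_three; linarith
  have hcos : Real.cos t₁ < 1 := by
    have := Real.cos_lt_cos_of_nonneg_of_le_pi_div_two le_rfl (by linarith) ht₁0
    rwa [Real.cos_zero] at this
  refine ⟨min c ((1 - Real.cos t₁) * linkArea S), lt_min hc (mul_pos (by linarith) hL), fun v t hv ht hor => ?_⟩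
  have hct0 : 0 ≤ Real.cos t := Real.cos_nonneg_of_mem_Icc ⟨by have := (abs_lt.1 ht).1; linarith, (abs_lt.1 ht).2.le⟩
  have hct1 : Real.cos t ≤ 1 := Real.cos_le_one t
  have hpow1 : Real.cos t ^ m ≤ 1 := pow_le_one₀ hct0 hct1
  by_cases hcase : t₁ ≤ |t|
  · -- loss from the level
    have h1 : Real.cos t ≤ Real.cos t₁ := by
      rw [← Real.cos_abs t]
      exact Real.cos_le_cos_of_nonneg_of_le_pi ht₁0.le (by have := Real.pi_pos; linarith) hcase
    have h2 : Real.cos t ^ m ≤ Real.cos t₁ := (pow_le_of_le_one hct0 hct1 (by omega)).trans h1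
    calc ENNReal.ofReal (Real.cos t ^ m) * faA S v t
        ≤ ENNReal.ofReal (Real.cos t₁) * ENNReal.ofReal (linkArea S) :=
          mul_le_mul' (ENNReal.ofReal_le_ofReal h2) (fal_le (by omega) hS v t)
      _ = ENNReal.ofReal (Real.cos t₁ * linkArea S) := (ENNReal.ofReal_mul (hct0.trans h1)).symm
      _ ≤ _ := by
          refine ENNReal.ofReal_le_ofReal ?_
          have := min_le_right c ((1 - Real.cos t₁) * linkArea S)
          linarith
  · -- loss from the boost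
    push Not at hcase
    have h1 : |t| < ρ := lt_of_lt_of_le hcase ((min_le_left _ _).trans (min_le_left _ _))
    have h2 : |t| ≤ t₀ := (lt_of_lt_of_le hcase ((min_le_left _ _).trans (min_le_right _ _))).le
    have h3 : ρ ≤ ‖v‖ := hor.resolve_right (not_le.2 h1)
    calc ENNReal.ofReal (Real.cos t ^ m) * faA S v t
        ≤ 1 * ENNReal.ofReal (linkArea S - c) :=
          mul_le_mul' (by rw [← ENNReal.ofReal_one]; exact ENNReal.ofReal_le_ofReal hpow1) (h v h3 hv t h2)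
      _ = ENNReal.ofReal (linkArea S - c) := one_mul _
      _ ≤ _ := by
          refine ENNReal.ofReal_le_ofReal ?_
          have := min_le_left c ((1 - Real.cos t₁) * linkArea S)
          linarith

end Claimed.Agent.R323
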