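import Claimed.Agent.R323.Fa.Defs

/-!
# Row 323, block E5: THE PROFILE.   Architect: helper256.   Mathlib + `R323/Defs` (`acW`, `acC`, `acE`) + `Fa/Defs` only.

`g = faG ε lam = (1+λ) tanh(t/(√2 ε))`, `Ψ = faProf ε lam = clamp g`, `T = faT ε lam` (`g T = 1`), `faE ε t = (1 - tanh²(t/(√2ε)))²/(4ε)`.
* `(ε/2) g'(t)² = (1+λ)² faE ε t`;  `acW (g t) ≤ acW (tanh ..) = ε faE ε t` when `|g t| ≤ 1` (because `|tanh| ≤ |g| ≤ 1`).
* `∫ faE ε = acC/2 = √2/3`: `faE ε t = d/dt [G(tanh(t/(√2ε)))]`, `G(r) = (r - r³/3)/(2√2)·... ` (choose the constant), limits `± G(1)`: `integral_of_hasDerivAt_of_tendsto` + `integrable_of_...nonneg`.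
* THE KINK IS HARMLESS: where `|w y| ≥ T` the function `Ψ∘w` has a local extremum (`= ±1`), so `fderiv = 0` (`IsLocalMax.fderiv_eq_zero`, no differentiability needed) and `acW (±1) = 0`;
  where `|w y| < T`, `Ψ∘w = g∘w` near `y` (`w` continuous at `y`): chain rule.
-/

set_option autoImplicit false
open scoped ContDiff ENNReal NNReal RealInnerProductSpace Topology
open MeasureTheory Metric Set Filter

namespace Claimed.Agent.R323

open Claimed.Agent.Gmt

variable {n : ℕ}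

/-! ### L-FA-PROF-A : elementary -/

theorem fa_tanh_hasDerivAt (x : ℝ) : HasDerivAt Real.tanh (1 - Real.tanh x ^ 2) x := by
  have hc : Real.cosh x ≠ 0 := (Real.cosh_pos x).ne'
  have h := (Real.hasDerivAt_sinh x).div (Real.hasDerivAt_cosh x) hc
  have e : Real.tanh = fun y => Real.sinh y / Real.cosh y := by
    funext y
    exact Real.tanh_eq_sinh_div_cosh y
  rw [e]
  refine h.congr_deriv ?_
  field_simp

theorem fa_tanh_cont : Continuous Real.tanh :=
  continuous_iff_continuousAt.2 fun x => (fa_tanh_hasDerivAt x).continuousAt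

theorem fa_tanh_strictMono : StrictMono Real.tanh := by
  intro x y hxy
  by_contra hcon
  rw [not_lt] at hcon
  have := Real.artanh_le_artanh (Real.neg_one_lt_tanh y) (Real.tanh_lt_one x) hcon
  rw [Real.artanh_tanh, Real.artanh_tanh] at this
  linarith

theorem fa_c_pos {ε : ℝ} (hε : 0 < ε) : 0 < Real.sqrt 2 * ε := by positivity

theorem fa_G_hasDerivAt (ε lam t : ℝ) :
    HasDerivAt (faG ε lam)
      ((1 + lam) * ((1 - Real.tanh (t / (Real.sqrt 2 * ε)) ^ 2) / (Real.sqrt 2 * ε))) t := by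
  have h1 : HasDerivAt (fun s : ℝ => s / (Real.sqrt 2 * ε)) (1 / (Real.sqrt 2 * ε)) t :=
    (hasDerivAt_id t).div_const _
  have h2 := (HasDerivAt.comp (h₂ := Real.tanh) t (fa_tanh_hasDerivAt _) h1).const_mul (1 + lam)
  refine HasDerivAt.congr_deriv (f := faG ε lam) h2 ?_
  ring

theorem fa_G_odd (ε lam t : ℝ) : faG ε lam (-t) = -faG ε lam t := by
  unfold faG
  rw [neg_div, Real.tanh_neg]
  ring

theorem fa_a_mem {lam : ℝ} (hl : 0 < lam) : (1 + lam)⁻¹ ∈ Ioo (0 : ℝ) 1 :=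
  ⟨by positivity, inv_lt_one_of_one_lt₀ (by linarith)⟩

theorem fa_prof_abs_le (ε lam t : ℝ) : |faProf ε lam t| ≤ 1 := by
  unfold faProf
  rw [abs_le]
  exact ⟨le_max_left _ _, max_le (by norm_num) (min_le_left _ _)⟩

theorem fa_prof_odd (ε lam t : ℝ) : faProf ε lam (-t) = -faProf ε lam t := by
  unfold faProf
  rw [fa_G_odd]
  generalize faG ε lam t = g
  simp only [max_def, min_def]
  split_ifs <;> linarith

theorem fa_prof_lip {ε lam : ℝ} (hε : 0 < ε) (hl : 0 ≤ lam) :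
    ∃ L : ℝ≥0, LipschitzWith L (faProf ε lam) := by
  have hc := fa_c_pos hε
  have hC : 0 ≤ (1 + lam) / (Real.sqrt 2 * ε) := by positivity
  have hG : LipschitzWith (Real.toNNReal ((1 + lam) / (Real.sqrt 2 * ε))) (faG ε lam) := by
    refine lipschitzWith_of_nnnorm_deriv_le (fun t => (fa_G_hasDerivAt ε lam t).differentiableAt) ?_
    intro t
    rw [(fa_G_hasDerivAt ε lam t).deriv, Real.le_toNNReal_iff_coe_le hC, coe_nnnorm,
      Real.norm_eq_abs]
    have h1 : 0 ≤ 1 - Real.tanh (t / (Real.sqrt 2 * ε)) ^ 2 := by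
      have := Real.tanh_sq_lt_one (t / (Real.sqrt 2 * ε))
      linarith
    have h2 : 1 - Real.tanh (t / (Real.sqrt 2 * ε)) ^ 2 ≤ 1 := by
      have := sq_nonneg (Real.tanh (t / (Real.sqrt 2 * ε)))
      linarith
    rw [abs_of_nonneg (by positivity), div_eq_mul_one_div (1 + lam)]
    refine mul_le_mul_of_nonneg_left ?_ (by linarith)
    exact div_le_div_of_nonneg_right h2 hc.le
  exact ⟨_, (hG.const_min 1).const_max (-1)⟩

theorem fa_T_pos {ε lam : ℝ} (hε : 0 < ε) (hl : 0 < lam) : 0 < faT ε lam := by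
  unfold faT
  exact mul_pos (fa_c_pos hε) (Real.artanh_pos (fa_a_mem hl))

/-- `|g t| < 1 ↔ |t| < T`. -/
theorem fa_G_lt_iff {ε lam : ℝ} (hε : 0 < ε) (hl : 0 < lam) (t : ℝ) : |faG ε lam t| < 1 ↔ |t| < faT ε lam := by
  have hc := fa_c_pos hε
  have ha := fa_a_mem hl
  have ha' : (1 + lam)⁻¹ ∈ Ioo (-1 : ℝ) 1 := ⟨by linarith [ha.1], ha.2⟩
  have hl1 : 0 < 1 + lam := by linarith
  set a := (1 + lam)⁻¹ with hadef
  set A := Real.artanh a with hA
  have htA : Real.tanh A = a := Real.tanh_artanh ha'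
  have htA' : Real.tanh (-A) = -a := by rw [Real.tanh_neg, htA]
  set x := t / (Real.sqrt 2 * ε) with hx
  have e1 : |faG ε lam t| < 1 ↔ |Real.tanh x| < a := by
    unfold faG
    rw [abs_mul, abs_of_pos hl1, hadef, inv_eq_one_div, lt_div_iff₀' hl1]
  have e2 : |Real.tanh x| < a ↔ |x| < A := by
    rw [abs_lt, abs_lt, ← htA', ← htA, fa_tanh_strictMono.lt_iff_lt, fa_tanh_strictMono.lt_iff_lt]
  have e3 : |x| < A ↔ |t| < faT ε lam := by
    unfold faT
    rw [hx, abs_div, abs_of_pos hc, div_lt_iff₀ hc, mul_comm]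
  rw [e1, e2, e3]

theorem fa_prof_one {ε lam : ℝ} (hε : 0 < ε) (hl : 0 < lam) {t : ℝ} (ht : faT ε lam ≤ t) : faProf ε lam t = 1 := by
  have hc := fa_c_pos hε
  have ha := fa_a_mem hl
  have ha' : (1 + lam)⁻¹ ∈ Ioo (-1 : ℝ) 1 := ⟨by linarith [ha.1], ha.2⟩
  have hl1 : 0 < 1 + lam := by linarith
  have h1 : Real.artanh (1 + lam)⁻¹ ≤ t / (Real.sqrt 2 * ε) := by
    rw [le_div_iff₀ hc, mul_comm]
    exact ht
  have h2 := fa_tanh_strictMono.monotone h1
  rw [Real.tanh_artanh ha'] at h2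
  have h3 : 1 ≤ faG ε lam t := by
    unfold faG
    calc (1 : ℝ) = (1 + lam) * (1 + lam)⁻¹ := (mul_inv_cancel₀ hl1.ne').symm
      _ ≤ (1 + lam) * Real.tanh (t / (Real.sqrt 2 * ε)) := mul_le_mul_of_nonneg_left h2 hl1.le
  unfold faProf
  rw [min_eq_left h3, max_eq_right (by norm_num)]

theorem fa_prof_neg_one {ε lam : ℝ} (hε : 0 < ε) (hl : 0 < lam) {t : ℝ} (ht : t ≤ -faT ε lam) :
    faProf ε lam t = -1 := by
  have h := fa_prof_one hε hl (t := -t) (by linarith)
  rw [fa_prof_odd] at h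
  linarith

theorem fa_T_tendsto {lam : ℝ} (hl : 0 < lam) : Tendsto (fun ε => faT ε lam) (𝓝[>] (0 : ℝ)) (𝓝 0) := by
  unfold faT
  have h : Continuous fun ε : ℝ => Real.sqrt 2 * ε * Real.artanh (1 + lam)⁻¹ := by fun_prop
  have h2 := h.tendsto 0
  simp only [mul_zero, zero_mul] at h2
  exact h2.mono_left nhdsWithin_le_nhds

theorem fa_cut_nonneg (r t : ℝ) : 0 ≤ faCut r t := by
  exact le_max_left _ _

theorem fa_cut_le_one (r t : ℝ) : faCut r t ≤ 1 := by
  exact max_le zero_le_one (min_le_left _ _)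

theorem fa_cut_one {r t : ℝ} (hr : 0 < r) (ht : |t| ≤ r / 2) : faCut r t = 1 := by
  unfold faCut
  have h : 1 ≤ 2 - 2 * |t| / r := by
    have : 2 * |t| / r ≤ 1 := by
      rw [div_le_one hr]
      linarith
    linarith
  rw [min_eq_left h, max_eq_right zero_le_one]

theorem fa_cut_zero {r t : ℝ} (hr : 0 < r) (ht : r ≤ |t|) : faCut r t = 0 := by
  unfold faCut
  have h : 2 - 2 * |t| / r ≤ 0 := by
    have : 2 ≤ 2 * |t| / r := by
      rw [le_div_iff₀ hr]
      linarith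
    linarith
  rw [max_eq_left (le_trans (min_le_right _ _) h)]

theorem fa_cut_cont (r : ℝ) : Continuous (faCut r) := by
  unfold faCut
  fun_prop

theorem fa_cut_lip {r : ℝ} (hr : 0 < r) : ∃ L : ℝ≥0, LipschitzWith L (faCut r) := by
  have h : LipschitzWith (Real.toNNReal (2 / r)) fun t : ℝ => 2 - 2 * |t| / r := by
    refine LipschitzWith.of_dist_le_mul fun s t => ?_
    rw [Real.coe_toNNReal _ (by positivity), Real.dist_eq, Real.dist_eq]
    have e : 2 - 2 * |s| / r - (2 - 2 * |t| / r) = 2 / r * (|t| - |s|) := by ring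
    rw [e, abs_mul, abs_of_pos (by positivity : 0 < 2 / r)]
    refine mul_le_mul_of_nonneg_left ?_ (by positivity)
    rw [abs_sub_comm s t]
    exact abs_abs_sub_abs_le_abs_sub t s
  exact ⟨_, (h.const_min 1).const_max 0⟩

theorem fa_E_nonneg {ε : ℝ} (hε : 0 < ε) (t : ℝ) : 0 ≤ faE ε t := by
  unfold faE
  positivity

theorem fa_E_cont {ε : ℝ} (hε : 0 < ε) : Continuous (faE ε) := by
  unfold faE
  have := fa_tanh_cont
  fun_prop

/-! ### L-FA-PROF-B : the integral -/

theorem fa_tanh_tendsto_top : Tendsto Real.tanh atTop (𝓝 1) := by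
  have e : Real.tanh = fun x => 1 - 2 / (Real.exp (2 * x) + 1) := by
    funext x
    rw [Real.tanh_eq, Real.exp_neg, two_mul, Real.exp_add]
    have := Real.exp_pos x
    field_simp
    ring
  rw [e]
  have h1 : Tendsto (fun x : ℝ => Real.exp (2 * x) + 1) atTop atTop :=
    tendsto_atTop_add_const_right _ _
      (Real.tendsto_exp_atTop.comp (tendsto_id.const_mul_atTop (by norm_num : (0 : ℝ) < 2)))
  have h2 := (h1.const_div_atTop 2).const_sub 1
  simpa using h2

theorem fa_tanh_tendsto_bot : Tendsto Real.tanh atBot (𝓝 (-1)) := by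
  have h := (fa_tanh_tendsto_top.comp tendsto_neg_atBot_atTop).neg
  refine h.congr fun x => ?_
  simp [Real.tanh_neg]

/-- the antiderivative of `faE ε`. -/
noncomputable def faAnti (ε t : ℝ) : ℝ :=
  Real.sqrt 2 / 4 * (Real.tanh (t / (Real.sqrt 2 * ε)) - Real.tanh (t / (Real.sqrt 2 * ε)) ^ 3 / 3)

theorem fa_anti_hasDerivAt {ε : ℝ} (hε : 0 < ε) (t : ℝ) : HasDerivAt (faAnti ε) (faE ε t) t := by
  have hc := fa_c_pos hε
  have h1 : HasDerivAt (fun s : ℝ => s / (Real.sqrt 2 * ε)) (1 / (Real.sqrt 2 * ε)) t :=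
    (hasDerivAt_id t).div_const _
  have h2 := HasDerivAt.comp (h₂ := Real.tanh) t (fa_tanh_hasDerivAt _) h1
  have h3 := ((h2.sub ((h2.pow 3).div_const 3)).const_mul (Real.sqrt 2 / 4))
  refine HasDerivAt.congr_deriv (f := faAnti ε) h3 ?_
  unfold faE
  have hs : Real.sqrt 2 * Real.sqrt 2 = 2 := Real.mul_self_sqrt (by norm_num)
  have hs0 : Real.sqrt 2 ≠ 0 := by positivity
  simp only [Function.comp]
  generalize Real.tanh (t / (Real.sqrt 2 * ε)) = τ
  field_simp
  ring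

theorem fa_anti_tendsto_top {ε : ℝ} (hε : 0 < ε) :
    Tendsto (faAnti ε) atTop (𝓝 (Real.sqrt 2 / 4 * (1 - 1 ^ 3 / 3))) := by
  have h : Tendsto (fun t : ℝ => Real.tanh (t / (Real.sqrt 2 * ε))) atTop (𝓝 1) :=
    fa_tanh_tendsto_top.comp (tendsto_id.atTop_div_const (fa_c_pos hε))
  exact (h.sub ((h.pow 3).div_const 3)).const_mul _

theorem fa_anti_tendsto_bot {ε : ℝ} (hε : 0 < ε) :
    Tendsto (faAnti ε) atBot (𝓝 (Real.sqrt 2 / 4 * (-1 - (-1) ^ 3 / 3))) := by
  have h : Tendsto (fun t : ℝ => Real.tanh (t / (Real.sqrt 2 * ε))) atBot (𝓝 (-1)) :=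
    fa_tanh_tendsto_bot.comp (tendsto_id.atBot_div_const (fa_c_pos hε))
  exact (h.sub ((h.pow 3).div_const 3)).const_mul _

theorem fa_E_lintegral {ε : ℝ} (hε : 0 < ε) : ∫⁻ t, ENNReal.ofReal (faE ε t) = ENNReal.ofReal (acC / 2) := by
  have hcov : AECover volume atTop (fun R : ℝ => Ioc (-R) R) :=
    aecover_Ioc tendsto_neg_atTop_atBot tendsto_id
  refine hcov.lintegral_eq_of_tendsto _ ((fa_E_cont hε).measurable.ennreal_ofReal.aemeasurable) ?_
  have hI : ∀ R : ℝ, 0 ≤ R → ∫⁻ t in Ioc (-R) R, ENNReal.ofReal (faE ε t)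
      = ENNReal.ofReal (faAnti ε R - faAnti ε (-R)) := by
    intro R hR
    have hint : IntervalIntegrable (faE ε) volume (-R) R := (fa_E_cont hε).intervalIntegrable _ _
    have h1 := intervalIntegral.integral_eq_sub_of_hasDerivAt
      (fun x _ => fa_anti_hasDerivAt hε x) hint
    rw [intervalIntegral.integral_of_le (by linarith)] at h1
    rw [← h1, ofReal_integral_eq_lintegral_ofReal]
    · exact (intervalIntegrable_iff_integrableOn_Ioc_of_le (by linarith)).1 hint
    · exact Eventually.of_forall fun t => fa_E_nonneg hε t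
  have hlim : Tendsto (fun R : ℝ => ENNReal.ofReal (faAnti ε R - faAnti ε (-R))) atTop
      (𝓝 (ENNReal.ofReal (acC / 2))) := by
    refine (ENNReal.continuous_ofReal.tendsto _).comp ?_
    have h := (fa_anti_tendsto_top hε).sub ((fa_anti_tendsto_bot hε).comp tendsto_neg_atTop_atBot)
    have e : Real.sqrt 2 / 4 * (1 - 1 ^ 3 / 3) - Real.sqrt 2 / 4 * (-1 - (-1) ^ 3 / 3) = acC / 2 := by
      unfold acC
      ring
    rw [e] at h
    exact h
  refine hlim.congr' ?_
  filter_upwards [eventually_ge_atTop 0] with R hR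
  rw [hI R hR]

/-- weighted form: if `X ≤ M` on the support of `t ↦ cut (t - a) · faE ε (t - a)`. -/
theorem fa_E_weight {ε : ℝ} (hε : 0 < ε) {T : ℝ} (hT : 0 < T) (a M : ℝ) (hM : 0 ≤ M) (s : Set ℝ) (X : ℝ → ℝ)
    (hX : ∀ t ∈ s, |t - a| < 2 * T → X t ≤ M) :
    ∫⁻ t in s, ENNReal.ofReal (faCut (2 * T) (t - a) * faE ε (t - a) * X t) ≤ ENNReal.ofReal (acC / 2 * M) := by
  have hpt : ∀ t ∈ s, faCut (2 * T) (t - a) * faE ε (t - a) * X t ≤ faE ε (t - a) * M := by
    intro t ht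
    have hE := fa_E_nonneg hε (t - a)
    have hc0 := fa_cut_nonneg (2 * T) (t - a)
    have hc1 := fa_cut_le_one (2 * T) (t - a)
    by_cases h : |t - a| < 2 * T
    · have hx := hX t ht h
      calc faCut (2 * T) (t - a) * faE ε (t - a) * X t
          ≤ faCut (2 * T) (t - a) * faE ε (t - a) * M :=
            mul_le_mul_of_nonneg_left hx (mul_nonneg hc0 hE)
        _ ≤ 1 * faE ε (t - a) * M :=
            mul_le_mul_of_nonneg_right (mul_le_mul_of_nonneg_right hc1 hE) hM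
        _ = faE ε (t - a) * M := by ring
    · rw [fa_cut_zero (by positivity) (not_lt.1 h), zero_mul, zero_mul]
      exact mul_nonneg hE hM
  have hmeas : Measurable fun t : ℝ => ENNReal.ofReal (faE ε (t - a) * M) :=
    (((fa_E_cont hε).comp (continuous_id.sub continuous_const)).mul continuous_const).measurable.ennreal_ofReal
  calc ∫⁻ t in s, ENNReal.ofReal (faCut (2 * T) (t - a) * faE ε (t - a) * X t)
      ≤ ∫⁻ t in s, ENNReal.ofReal (faE ε (t - a) * M) :=
        setLIntegral_mono hmeas fun t ht => ENNReal.ofReal_le_ofReal (hpt t ht)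
    _ ≤ ∫⁻ t, ENNReal.ofReal (faE ε (t - a) * M) := setLIntegral_le_lintegral _ _
    _ = ∫⁻ t, ENNReal.ofReal (faE ε (t - a)) * ENNReal.ofReal M := by
        refine lintegral_congr fun t => ?_
        rw [ENNReal.ofReal_mul (fa_E_nonneg hε _)]
    _ = (∫⁻ t, ENNReal.ofReal (faE ε (t - a))) * ENNReal.ofReal M := by
        rw [lintegral_mul_const]
        exact ((fa_E_cont hε).comp (continuous_id.sub continuous_const)).measurable.ennreal_ofReal
    _ = ENNReal.ofReal (acC / 2 * M) := by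
        rw [lintegral_sub_right_eq_self (fun t => ENNReal.ofReal (faE ε t)) a, fa_E_lintegral hε,
          ← ENNReal.ofReal_mul]
        unfold acC
        positivity

/-! ### L-FA-PROF-C : the pointwise energy inequality and the conversion to `acE` -/

theorem fa_prof_energy {ε lam : ℝ} (hε : 0 < ε) (hl : 0 < lam) {w : E n → ℝ} {y : E n} (hw : DifferentiableAt ℝ w y) :
    ε / 2 * ‖y‖ ^ 2 * ‖fderiv ℝ (fun x => faProf ε lam (w x)) y‖ ^ 2 + acW (faProf ε lam (w y)) / ε
      ≤ if |w y| < faT ε lam then faE ε (w y) * ((1 + lam) ^ 2 * (‖y‖ ^ 2 * ‖fderiv ℝ w y‖ ^ 2) + 1) else 0 := by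
  by_cases h : |w y| < faT ε lam
  · rw [if_pos h]
    have hev : ∀ᶠ x in 𝓝 y, |w x| < faT ε lam :=
      hw.continuousAt.abs.eventually (gt_mem_nhds h)
    have heq : (fun x => faProf ε lam (w x)) =ᶠ[𝓝 y] fun x => faG ε lam (w x) := by
      filter_upwards [hev] with x hx
      have := (fa_G_lt_iff hε hl (w x)).2 hx
      rw [abs_lt] at this
      unfold faProf
      rw [min_eq_right this.2.le, max_eq_right this.1.le]
    have hd := (fa_G_hasDerivAt ε lam (w y)).comp_hasFDerivAt y hw.hasFDerivAt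
    have hfd : fderiv ℝ (fun x => faProf ε lam (w x)) y
        = ((1 + lam) * ((1 - Real.tanh (w y / (Real.sqrt 2 * ε)) ^ 2) / (Real.sqrt 2 * ε)))
          • fderiv ℝ w y := by
      rw [heq.fderiv_eq]
      exact hd.fderiv
    have hP : faProf ε lam (w y) = faG ε lam (w y) := heq.eq_of_nhds
    have hg := (fa_G_lt_iff hε hl (w y)).2 h
    rw [hfd, norm_smul, mul_pow, hP, Real.norm_eq_abs, sq_abs]
    unfold faG at hg ⊢
    unfold faE acW
    set τ := Real.tanh (w y / (Real.sqrt 2 * ε)) with hτ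
    have hs : Real.sqrt 2 ^ 2 = 2 := Real.sq_sqrt (by norm_num)
    have e1 : ε / 2 * ‖y‖ ^ 2 * (((1 + lam) * ((1 - τ ^ 2) / (Real.sqrt 2 * ε))) ^ 2 * ‖fderiv ℝ w y‖ ^ 2)
        = (1 - τ ^ 2) ^ 2 / (4 * ε) * ((1 + lam) ^ 2 * (‖y‖ ^ 2 * ‖fderiv ℝ w y‖ ^ 2)) := by
      rw [mul_pow, div_pow, mul_pow, hs]
      field_simp
      ring
    rw [e1]
    have hg2 : ((1 + lam) * τ) ^ 2 < 1 := by
      rw [← sq_abs]
      exact pow_lt_one₀ (abs_nonneg _) hg (by norm_num)
    have hτg : τ ^ 2 ≤ ((1 + lam) * τ) ^ 2 := by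
      rw [mul_pow]
      have : (1 : ℝ) ≤ (1 + lam) ^ 2 := one_le_pow₀ (by linarith)
      nlinarith [sq_nonneg τ]
    have h2 : (1 - ((1 + lam) * τ) ^ 2) ^ 2 ≤ (1 - τ ^ 2) ^ 2 :=
      pow_le_pow_left₀ (by linarith) (by linarith) 2
    have e2 : (1 - ((1 + lam) * τ) ^ 2) ^ 2 / 4 / ε ≤ (1 - τ ^ 2) ^ 2 / (4 * ε) := by
      rw [div_div]
      exact div_le_div_of_nonneg_right h2 (by positivity)
    linarith
  · rw [if_neg h]
    rw [not_lt, le_abs] at h
    have hz : fderiv ℝ (fun x => faProf ε lam (w x)) y = 0 ∧ acW (faProf ε lam (w y)) = 0 := by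
      rcases h with h | h
      · have h1 := fa_prof_one hε hl h
        constructor
        · apply IsLocalMax.fderiv_eq_zero
          refine Eventually.of_forall fun x => ?_
          simp only [h1]
          exact (abs_le.1 (fa_prof_abs_le ε lam (w x))).2
        · rw [h1]
          simp [acW]
      · have h1 := fa_prof_neg_one hε hl (t := w y) (by linarith)
        constructor
        · apply IsLocalMin.fderiv_eq_zero
          refine Eventually.of_forall fun x => ?_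
          simp only [h1]
          exact (abs_le.1 (fa_prof_abs_le ε lam (w x))).1
        · rw [h1]
          simp [acW]
    rw [hz.1, hz.2]
    simp

/-- from an a.e. bound of the energy density to `acE`. -/
theorem fa_acE_le {ε : ℝ} (hε : 0 < ε) (U : E n → ℝ) (F : E n → ℝ≥0∞)
    (h : ∀ᵐ y : E n, ENNReal.ofReal (ε / 2 * ‖y‖ ^ 2 * ‖fderiv ℝ U y‖ ^ 2 + acW (U y) / ε) ≤ F y)
    {c : ℝ} (hc : 0 ≤ c) (hb : ENNReal.ofReal n * ∫⁻ y in ball (0 : E n) 1, F y ≤ ENNReal.ofReal (acC * c)) :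
    acE n ε U ≤ c := by
  unfold acE
  have hC : 0 < acC := by
    unfold acC
    positivity
  set f : E n → ℝ := fun x => ε / 2 * ‖x‖ ^ 2 * ‖fderiv ℝ U x‖ ^ 2 + acW (U x) / ε with hf
  have hf0 : ∀ x, 0 ≤ f x := by
    intro x
    simp only [hf, acW]
    positivity
  by_cases hint : IntegrableOn f (ball (0 : E n) 1) volume
  · have h1 : ENNReal.ofReal (∫ x in ball (0 : E n) 1, f x) ≤ ∫⁻ y in ball (0 : E n) 1, F y := by
      rw [ofReal_integral_eq_lintegral_ofReal hint (Eventually.of_forall hf0)]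
      exact lintegral_mono_ae (ae_restrict_of_ae h)
    have h2 : ENNReal.ofReal ((n : ℝ) * ∫ x in ball (0 : E n) 1, f x) ≤ ENNReal.ofReal (acC * c) := by
      rw [ENNReal.ofReal_mul (Nat.cast_nonneg _)]
      exact le_trans (mul_le_mul_right h1 _) hb
    have h3 : (n : ℝ) * ∫ x in ball (0 : E n) 1, f x ≤ acC * c :=
      (ENNReal.ofReal_le_ofReal_iff (by positivity)).1 h2
    rw [div_mul_eq_mul_div, div_le_iff₀ hC]
    linarith
  · rw [integral_undef hint, mul_zero]
    exact hc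

end Claimed.Agent.R323
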