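import Claimed.Agent.R323.Fa.EnMain
import Claimed.Agent.R323.Fa.Psi
import Claimed.Agent.R323.Fa.Prof
import Claimed.Agent.R323.Fa.Loss
import Claimed.Agent.R323.Fa.Ctx

/-!
# Row 323, block E5: THE ENERGY STEP.   Owner: helper33.   Exit statements: helper256.

## `fae_master` (link form of the area inequality, general density): see `Fa/EnLink.lean` (helper33).

## `fae_upper`, `fae_outer`
`U = Ψ(θ_v - β)` (`faU .. 0`: `σ = 0`).  A.e.: `fa_th_grad`, `fa_prof_energy`: density `≤ faCut (2T) w · faE ε w ((1+λ)² + 1)`, `w = θ_v - β`.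
`fae_master` needs compact support in `t ∈ (-π/2,π/2)`: multiply by cutoffs `k_j(t) ↑ 1` and use monotone convergence (`|θ_v| < π/2`: `fa_th_lt`).
Then `fa_E_weight` with `X t = cos^m t · faA` bounded by `fal_le` / `fal_away` (E3, PROVED by helper15; for `fae_outer`: `|t - β| < 2T`; `ρ ≤ |β|` gives `ρ/2 ≤ |t|` once `2T ≤ ρ/2`), `fa_acE_le`.
-/

set_option autoImplicit false
open scoped ContDiff ENNReal NNReal RealInnerProductSpace Topology
open MeasureTheory Metric Set Filter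

namespace Claimed.Agent.R323

open Claimed.Agent.Gmt

/-- the context from the hypotheses of the chief. -/
theorem fae_base (m : ℕ) {S U : Set (E (m + 2))} {K : ℝ} (hS : MinCone (m + 2) S) (hU : KitTube S U)
    (hK : FaSd K (gmtSimSd S)) : FaeBase (m + 2) S U K :=
  ⟨by omega, hS, hU.cone, fun t ht x hx => hU.conic x hx t ht, hK⟩

/-- the measure inequality `(θ_v)_# vol ≤ cos^m t · faA S v t dt`. -/
theorem fae_mi (m : ℕ) (hm : 2 ≤ m) {S : Set (E (m + 2))} (hS : MinCone (m + 2) S) (hnf : ¬ IsHalf S)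
    {v : E (m + 2)} (hv : ‖v‖ < 1) (F : ℝ → ℝ) (hF : Continuous F) (hF0 : ∀ t, 0 ≤ F t) :
    ENNReal.ofReal ((m : ℝ) + 2) * ∫⁻ y in ball (0 : E (m + 2)) 1, ENNReal.ofReal (F (faTh (gmtSimSd S) v y)) ≤
      ∫⁻ t in Ioo (-(Real.pi / 2)) (Real.pi / 2), ENNReal.ofReal (F t) * (ENNReal.ofReal (Real.cos t ^ m) * faA S v t) := by
  obtain ⟨U, hU⟩ := kit_tube' hS
  obtain ⟨K, hK⟩ := fa_sd (by omega) hS hnf
  have h := fae_en ((fae_base m hS hU hK).ctx hv) F hF hF0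
  have e1 : ((m + 2 : ℕ) : ℝ) = (m : ℝ) + 2 := by push_cast; ring
  rw [e1] at h
  refine h.trans (le_of_eq ?_)
  refine lintegral_congr fun t => ?_
  rw [ENNReal.ofReal_mul (hF0 t), mul_assoc]
  rfl

theorem fae_U_zero {n : ℕ} (u et : E n → ℝ) (ε lam : ℝ) (v : E n) (β : ℝ) :
    faU u et ε lam v β 0 = fun y => faProf ε lam (faTh u v y - β) := by
  funext y
  simp [faU, faW]

theorem fae_upper (m : ℕ) (hm : 2 ≤ m) {S : Set (E (m + 2))} (hS : MinCone (m + 2) S) (hnf : ¬ IsHalf S)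
    {ε lam : ℝ} (hε : 0 < ε) (hl : 0 < lam) {v : E (m + 2)} (hv : ‖v‖ < 1) (β : ℝ) (et : E (m + 2) → ℝ) :
    acE (m + 2) ε (faU (gmtSimSd S) et ε lam v β 0) ≤ (1 + lam) ^ 2 * linkArea S := by
  obtain ⟨U, hU⟩ := kit_tube' hS
  obtain ⟨K, hK⟩ := fa_sd (by omega) hS hnf
  have hL : 0 ≤ linkArea S := fa_linkArea_nonneg (by omega) S
  rw [fae_U_zero]
  refine (fae_up (fae_base m hS hU hK) hv.le β hε hl).trans ?_
  nlinarith [mul_nonneg hL hl.le, mul_nonneg hL (sq_nonneg lam)]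

theorem fae_outer (m : ℕ) (hm : 2 ≤ m) {S : Set (E (m + 2))} (hS : MinCone (m + 2) S) (hnf : ¬ IsHalf S)
    {ρ : ℝ} (hρ : 0 < ρ) :
    ∃ c > 0, ∀ lam : ℝ, 0 < lam → ∀ᶠ ε in 𝓝[>] (0 : ℝ), ∀ (v : E (m + 2)) (β : ℝ), ‖v‖ < 1 → (ρ ≤ ‖v‖ ∨ ρ ≤ |β|) →
      ∀ et : E (m + 2) → ℝ, acE (m + 2) ε (faU (gmtSimSd S) et ε lam v β 0) ≤ (1 + lam) ^ 2 * (linkArea S - c) := by
  obtain ⟨U, hU⟩ := kit_tube' hS
  obtain ⟨K, hK⟩ := fa_sd (by omega) hS hnf
  have hL : 0 < linkArea S := fal_area_pos (by omega) hS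
  obtain ⟨c, hc, hloss⟩ := fal_away m (by omega) hS hnf (ρ := ρ / 2) (by positivity)
  refine ⟨min c (linkArea S), lt_min hc hL, fun lam hl => ?_⟩
  have hM : 0 ≤ linkArea S - min c (linkArea S) := by linarith [min_le_right c (linkArea S)]
  have hT : ∀ᶠ ε in 𝓝[>] (0 : ℝ), faT ε lam < ρ / 4 :=
    (fa_T_tendsto hl).eventually (gt_mem_nhds (by positivity))
  filter_upwards [hT, self_mem_nhdsWithin] with ε hT hε v β hv hq et
  have hε' : 0 < ε := hε
  rw [fae_U_zero]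
  have h := fae_out (fae_base m hS hU hK) (ρ := ρ / 2) hM (fun v t hv ht hor => by
    refine (hloss v t hv ht hor).trans (ENNReal.ofReal_le_ofReal ?_)
    linarith [min_le_left c (linkArea S)]) hv.le (β := β)
    (by rcases hq with h | h
        · exact Or.inl (by linarith)
        · exact Or.inr (by linarith)) hε' hl (by linarith)
  refine h.trans ?_
  nlinarith [mul_nonneg hM hl.le, mul_nonneg hM (sq_nonneg lam)]

end Claimed.Agent.R323
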