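import Claimed.Agent.R323.Fa.CenInt
import Claimed.Agent.R323.Fa.En
import Claimed.Agent.R323.Fa.CenQ

/-!
# Row 323, block E4: THE CENTRE.   Owner / architect: helper56.   Exit statement: helper56 + helper256.   Paper: sec. 5.7-5.8; design: report 905 F.   PLAN: header of `Fa/CenDefs.lean`.

`fac_main` is PROVED here from `fac_eta` (`CenEta`), `fac_int` (`CenInt`), `fcq_main` (`Fa/CenQ.lean`, helper209, PROVED).
-/

set_option autoImplicit false
open scoped ContDiff ENNReal NNReal RealInnerProductSpace Topology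
open MeasureTheory Metric Set Filter

namespace Claimed.Agent.R323

open Claimed.Agent.Gmt

/-- `|x|² |A|²` is bounded on the cone. -/
theorem fac_A_bdd {n : ℕ} {S U : Set (E n)} (hS : GmtCone S) (hU : KitTube S U) :
    ∃ C : ℝ, 0 ≤ C ∧ ∀ x ∈ gmtBd S, x ≠ 0 → ‖x‖ ^ 2 * gmtSimA (gmtSimSd S) x ≤ C := by
  have hc := hU.cone
  have hAc : ContinuousOn (gmtSimA (gmtSimSd S)) U := (gmtSim_contDiffOn_A hc.opn hc.smooth).continuousOn
  have hK : IsCompact (gmtBd S ∩ sphere (0 : E n) 1) := (isCompact_sphere (0 : E n) 1).inter_left (isClosed_gmtBd S)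
  have hsub : gmtBd S ∩ sphere (0 : E n) 1 ⊆ U := fun x hx => hc.bd x hx.1 fun h => by
    have h1 := mem_sphere_zero_iff_norm.1 hx.2
    rw [h, norm_zero] at h1
    exact zero_ne_one h1
  obtain ⟨C, hC⟩ := hK.exists_bound_of_continuousOn (hAc.mono hsub)
  refine ⟨max C 0, le_max_right _ _, fun x hx hx0 => ?_⟩
  have hn : 0 < ‖x‖ := norm_pos_iff.2 hx0
  have hy : (‖x‖⁻¹ • x) ∈ gmtBd S ∩ sphere (0 : E n) 1 :=
    ⟨(gmtSim_bd_smul hS (inv_pos.2 hn) x).2 hx, by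
      rw [mem_sphere_zero_iff_norm, norm_smul, norm_inv, norm_norm, inv_mul_cancel₀ hn.ne']⟩
  have h1 := hC _ hy
  rw [hc.homA x hx hx0 _ (inv_pos.2 hn), inv_pow, inv_inv, Real.norm_eq_abs] at h1
  exact ((le_abs_self _).trans h1).trans (le_max_left _ _)

/-- positivity of `v ↦ ∫_Σ |A|² ⟨v,x⟩²`: continuous quadratic form, positive on the unit sphere (`fal_patch`: a point of the cone with `A ≠ 0`, `⟨v,p⟩ ≠ 0`;
`gmtBd_iff_gmtMu`: `μ` charges every ball centred on the cone), compactness of the sphere. -/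
theorem fac_QA (m : ℕ) (hm : 2 ≤ m) {S : Set (E (m + 2))} (hS : MinCone (m + 2) S) (hnf : ¬ IsHalf S) :
    ∃ q₀ > 0, ∀ v : E (m + 2), q₀ * ‖v‖ ^ 2 ≤
      ∫ x in ball (0 : E (m + 2)) 1, ‖x‖ ^ 2 * gmtSimA (gmtSimSd S) x * (⟪v, x⟫ / ‖x‖) ^ 2 ∂(gmtMu S) := by
  have hn3 : 3 ≤ m + 2 := by omega
  have hn2 : 2 ≤ m + 2 := by omega
  obtain ⟨U, hU⟩ := kit_tube' hS
  have hc := hU.cone
  obtain ⟨C, hC0, hC⟩ := fac_A_bdd hS.cone hU
  have hfin := fal_finite hS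
  set μ := (gmtMu S).restrict (ball (0 : E (m + 2)) 1) with hμ
  set G : E (m + 2) → E (m + 2) → ℝ := fun v x => ‖x‖ ^ 2 * gmtSimA (gmtSimSd S) x * (⟪v, x⟫ / ‖x‖) ^ 2 with hG
  have hae := fal_ae hn2 hS
  -- measurability
  have hGc : ∀ v, ContinuousOn (G v) U := by
    intro v
    have hAc : ContinuousOn (gmtSimA (gmtSimSd S)) U := (gmtSim_contDiffOn_A hc.opn hc.smooth).continuousOn
    have h1 : ContinuousOn (fun x : E (m + 2) => ⟪v, x⟫ / ‖x‖) U := by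
      refine ContinuousOn.div (Continuous.continuousOn (by fun_prop)) continuous_norm.continuousOn fun x hx => ?_
      exact norm_ne_zero_iff.2 fun h => hc.zero (h ▸ hx)
    exact ((continuous_norm.pow 2).continuousOn.mul hAc).mul (h1.pow 2)
  have hGm : ∀ v, AEStronglyMeasurable (G v) μ := by
    intro v
    have h1 : AEStronglyMeasurable (G v) (μ.restrict U) := (hGc v).aestronglyMeasurable hc.opn.measurableSet
    have h2 : μ.restrict U = μ := by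
      refine Measure.restrict_eq_self_of_ae_mem ?_
      filter_upwards [hae] with p hp
      exact hc.bd p hp.1 hp.2
    rwa [h2] at h1
  have hG0 : ∀ v x, 0 ≤ G v x := fun v x => by
    have := falA_nonneg (gmtSimSd S) x
    simp only [hG]
    positivity
  have hGb : ∀ v, ∀ᵐ x ∂μ, ‖G v x‖ ≤ C * ‖v‖ ^ 2 := by
    intro v
    filter_upwards [hae] with x hx
    rw [Real.norm_eq_abs, abs_of_nonneg (hG0 v x)]
    have hn : 0 < ‖x‖ := norm_pos_iff.2 hx.2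
    have h1 : (⟪v, x⟫ / ‖x‖) ^ 2 ≤ ‖v‖ ^ 2 := by
      rw [← sq_abs (⟪v, x⟫ / ‖x‖)]
      refine pow_le_pow_left₀ (abs_nonneg _) ?_ 2
      rw [abs_div, abs_norm, div_le_iff₀ hn]
      exact abs_real_inner_le_norm v x
    have h2 : 0 ≤ ‖x‖ ^ 2 * gmtSimA (gmtSimSd S) x := mul_nonneg (by positivity) (falA_nonneg _ _)
    exact mul_le_mul (hC x hx.1 hx.2) h1 (by positivity) hC0
  have hGi : ∀ v, Integrable (G v) μ := fun v =>
    Integrable.mono' (integrable_const (C * ‖v‖ ^ 2)) (hGm v) (hGb v)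
  -- comparison with `falI`
  have hQ := falQ_pos hn2
  have hcmp : ∀ v, 4 * falQ (m + 2) * falI S (v, 0) ≤ ∫ x, G v x ∂μ := by
    intro v
    unfold falI
    rw [← integral_const_mul]
    refine integral_mono_ae ((falG_integrable hn2 hS hU (v, 0)).const_mul _) (hGi v) ?_
    filter_upwards [hae] with x hx
    have hn : 0 < ‖x‖ := norm_pos_iff.2 hx.2
    have h1 : falG S (v, 0) x ≤ (0 * ‖x‖ + ⟪v, x⟫) ^ 2 * gmtSimA (gmtSimSd S) x / (4 * falQ (m + 2)) := min_le_right _ _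
    have h2 : G v x = (0 * ‖x‖ + ⟪v, x⟫) ^ 2 * gmtSimA (gmtSimSd S) x := by
      simp only [hG]
      field_simp
      ring
    rw [h2]
    rw [le_div_iff₀ (by positivity)] at h1
    linarith
  -- compactness of the sphere
  have hcont : ContinuousOn (fun v : E (m + 2) => falI S (v, 0)) (sphere 0 1) :=
    ((falI_continuous hn2 hS hU).comp (by fun_prop : Continuous fun v : E (m + 2) => (v, (0 : ℝ)))).continuousOn
  have hne : (sphere (0 : E (m + 2)) 1).Nonempty := by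
    have : Nontrivial (E (m + 2)) := by
      refine ⟨⟨EuclideanSpace.single 0 1, 0, fun h => ?_⟩⟩
      have := congrArg norm h
      simp at this
    exact NormedSpace.sphere_nonempty.2 zero_le_one
  obtain ⟨v₀, hv₀, hmin⟩ := (isCompact_sphere (0 : E (m + 2)) 1).exists_isMinOn hne hcont
  have hv₀0 : v₀ ≠ 0 := fun h => by
    have h1 := mem_sphere_zero_iff_norm.1 hv₀
    rw [h, norm_zero] at h1
    exact zero_ne_one h1
  have hpos : 0 < falI S (v₀, 0) := falI_pos hn3 hS hU hnf v₀ hv₀0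
  refine ⟨4 * falQ (m + 2) * falI S (v₀, 0), by positivity, fun v => ?_⟩
  by_cases hv : v = 0
  · rw [hv, norm_zero]
    simp
  have hvn : 0 < ‖v‖ := norm_pos_iff.2 hv
  have hw : ‖v‖⁻¹ • v ∈ sphere (0 : E (m + 2)) 1 := by
    rw [mem_sphere_zero_iff_norm, norm_smul, norm_inv, norm_norm, inv_mul_cancel₀ hvn.ne']
  have h1 : falI S (v₀, 0) ≤ falI S (‖v‖⁻¹ • v, 0) := hmin hw
  have h2 := hcmp (‖v‖⁻¹ • v)
  have h3 : ∫ x, G v x ∂μ = ‖v‖ ^ 2 * ∫ x, G (‖v‖⁻¹ • v) x ∂μ := by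
    rw [← integral_const_mul]
    refine integral_congr_ae (Eventually.of_forall fun x => ?_)
    simp only [hG, inner_smul_left, RCLike.conj_to_real]
    field_simp
  show _ ≤ ∫ x, G v x ∂μ
  rw [h3]
  have h4 : 4 * falQ (m + 2) * falI S (v₀, 0) ≤ ∫ x, G (‖v‖⁻¹ • v) x ∂μ :=
    (mul_le_mul_of_nonneg_left h1 (by positivity)).trans h2
  calc 4 * falQ (m + 2) * falI S (v₀, 0) * ‖v‖ ^ 2 = ‖v‖ ^ 2 * (4 * falQ (m + 2) * falI S (v₀, 0)) := by ring
    _ ≤ _ := mul_le_mul_of_nonneg_left h4 (by positivity)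

/-- C7: the quadratic form is positive definite (`fcq_main`, helper209). -/
theorem fac_quad (m : ℕ) (hm : 2 ≤ m) {S : Set (E (m + 2))} (hS : MinCone (m + 2) S) (hnf : ¬ IsHalf S)
    {et : E (m + 2) → ℝ} (het : Hom0 et) (h1 : jacB S et (fun _ => 1) = 0)
    (hx : ∀ a : E (m + 2), jacB S et (fun x => ⟪a, x⟫ / ‖x‖) = 0) (hpos : 0 < jacB S et et) :
    ∃ c : ℝ, 0 < c ∧ ∀ (v : E (m + 2)) (β σ : ℝ), c * (‖v‖ ^ 2 + β ^ 2 + σ ^ 2) ≤ faQ S et v β σ := by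
  obtain ⟨c, hc, h⟩ := fcq_main m (by omega) hS hnf het h1 hx hpos
  exact ⟨c, hc, h⟩

theorem fac_main (m : ℕ) (hm : 2 ≤ m) {S : Set (E (m + 2))} (hS : MinCone (m + 2) S) (hnf : ¬ IsHalf S)
    (hx : ExtraIndex S) :
    ∃ et : E (m + 2) → ℝ, Hom0 et ∧ ∃ r₀ : ℝ, 0 < r₀ ∧ r₀ < 1 ∧ ∃ c > 0, ∀ d > 0, ∃ l₀ > 0, ∀ lam : ℝ, 0 < lam → lam ≤ l₀ →
      ∀ᶠ ε in 𝓝[>] (0 : ℝ), ∀ (v : E (m + 2)) (β σ : ℝ), ‖v‖ ≤ r₀ → |β| ≤ r₀ → |σ| ≤ r₀ →
        acE (m + 2) ε (faU (gmtSimSd S) et ε lam v β σ) ≤ linkArea S - c * (‖v‖ ^ 2 + β ^ 2 + σ ^ 2) + d := by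
  obtain ⟨U, hU⟩ := kit_tube' hS
  obtain ⟨K, hK⟩ := fa_sd (by omega) hS hnf
  obtain ⟨et, s₂, hE, h1, hxx, hpos⟩ := fac_eta (by omega) hS hU hx
  have hC : FacCtx (m + 2) S U K s₂ et := ⟨by omega, hS, hU, hK, hE⟩
  obtain ⟨c, hc, hQ⟩ := fac_quad m hm hS hnf hE.hom0 h1 hxx hpos
  have hL : 0 ≤ linkArea S := fa_linkArea_nonneg (by omega) S
  obtain ⟨L, hLdef⟩ : ∃ L, L = linkArea S := ⟨_, rfl⟩
  rw [← hLdef] at hL
  have ho : 0 < c / (4 * (L + 1)) := by positivity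
  obtain ⟨r₂, hr₂, hr₂', C₀, hC₀, hint⟩ := fac_int hC ho
  refine ⟨et, hE.hom0, r₂, hr₂, by linarith, c / 4, by positivity, fun d hd => ?_⟩
  refine ⟨min 1 (d / (6 * (L + 1))), lt_min one_pos (by positivity), fun lam hl0 hl => ?_⟩
  have hl1 : lam ≤ 1 := hl.trans (min_le_left _ _)
  have hl2 : lam * (6 * (L + 1)) ≤ d := by
    have := hl.trans (min_le_right _ _)
    rwa [le_div_iff₀ (by positivity)] at this
  have hτ : 0 < min r₂ (d / (8 * (L * C₀ + 1))) := lt_min hr₂ (by positivity)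
  filter_upwards [(fa_T_tendsto hl0).eventually (gt_mem_nhds hτ), self_mem_nhdsWithin] with ε hT hε v β σ hv hβ hσ
  have hε' : 0 < ε := hε
  have hT0 : 0 < faT ε lam := fa_T_pos hε' hl0
  have hT1 : faT ε lam ≤ r₂ := hT.le.trans (min_le_left _ _)
  have hT2 : faT ε lam * (8 * (L * C₀ + 1)) ≤ d := by
    have := hT.le.trans (min_le_right _ _)
    rwa [le_div_iff₀ (by positivity)] at this
  have h := hint ε lam hε' hl0 hT1 v β σ hv hβ hσ
  rw [← hLdef] at h ⊢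
  obtain ⟨R, hR⟩ : ∃ R, R = ‖v‖ ^ 2 + β ^ 2 + σ ^ 2 := ⟨_, rfl⟩
  have hR0 : 0 ≤ R := by rw [hR]; positivity
  have hq := hQ v β σ
  rw [← hR] at h hq ⊢
  obtain ⟨T, hTdef⟩ : ∃ T, T = faT ε lam := ⟨_, rfl⟩
  rw [← hTdef] at h hT0 hT2
  refine h.trans ?_
  -- `Y = L om R - Q/2 ≤ -(c/4) R`
  have hY : L * (c / (4 * (L + 1)) * R) - faQ S et v β σ / 2 ≤ -(c / 4 * R) := by
    have e1 : L * (c / (4 * (L + 1)) * R) ≤ c / 4 * R := by
      have : L * (c / (4 * (L + 1))) ≤ c / 4 := by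
        rw [mul_div_assoc', div_le_iff₀ (by positivity)]
        nlinarith
      calc L * (c / (4 * (L + 1)) * R) = L * (c / (4 * (L + 1))) * R := by ring
        _ ≤ c / 4 * R := mul_le_mul_of_nonneg_right this hR0
    linarith
  have hsq1 : 1 ≤ (1 + lam) ^ 2 := by nlinarith
  have hsq2 : (1 + lam) ^ 2 ≤ 1 + 3 * lam := by nlinarith
  have hY0 : L * (c / (4 * (L + 1)) * R) - faQ S et v β σ / 2 ≤ 0 := hY.trans (by
    have : 0 ≤ c / 4 * R := by positivity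
    linarith)
  have e2 : (1 + lam) ^ 2 * (L * (1 + c / (4 * (L + 1)) * R + C₀ * T) - faQ S et v β σ / 2)
      = (1 + lam) ^ 2 * (L + L * C₀ * T) + (1 + lam) ^ 2 * (L * (c / (4 * (L + 1)) * R) - faQ S et v β σ / 2) := by ring
  rw [e2]
  have h3 : (1 + lam) ^ 2 * (L * (c / (4 * (L + 1)) * R) - faQ S et v β σ / 2)
      ≤ 1 * (L * (c / (4 * (L + 1)) * R) - faQ S et v β σ / 2) := mul_le_mul_of_nonpos_right hsq1 hY0
  have hLT : 0 ≤ L + L * C₀ * T := by positivity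
  have h4 : (1 + lam) ^ 2 * (L + L * C₀ * T) ≤ (1 + 3 * lam) * (L + L * C₀ * T) :=
    mul_le_mul_of_nonneg_right hsq2 hLT
  have h5 : (1 + 3 * lam) * (L + L * C₀ * T) ≤ L + d := by
    obtain ⟨X, hX⟩ : ∃ X, X = L * C₀ * T := ⟨_, rfl⟩
    have a1 : 0 ≤ X := by rw [hX]; positivity
    have a0 : 0 ≤ lam * L := by positivity
    have e3 : lam * (6 * (L + 1)) = 6 * (lam * L) + 6 * lam := by ring
    have e4 : T * (8 * (L * C₀ + 1)) = 8 * X + 8 * T := by rw [hX]; ring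
    have a4 : lam * X ≤ 1 * X := mul_le_mul_of_nonneg_right hl1 a1
    rw [← hX]
    have e5 : (1 + 3 * lam) * (L + X) = L + X + 3 * (lam * L) + 3 * (lam * X) := by ring
    rw [e5]
    linarith
  linarith

end Claimed.Agent.R323
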