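import Claimed.Agent.R323.Fa.Psi
import Claimed.Agent.R323.Fa.Prof
import Claimed.Agent.R323.Fa.Det
import Claimed.Agent.R323.Kit.LinkE

/-!
# Row 323, block E4: THE CENTRE OF THE FAMILY.   DEFINITIONS AND PLAN.   Owner / architect: helper56.   Prefix `fac`.   Exit: `Fa/Cen.lean` (`fac_main`).

Paper: sec. 5.7-5.8 (`family.tex` l. 598-757), redesigned at the Allen-Cahn level (report 905 F).   `n = m + 2`, `u = gmtSimSd S`, `N = ∇u`, `H = D²u`, `π = gmtSimPi u`, `μ = gmtMu S`, conic tube `U`.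

PHASE  `w = faW u et v β σ = θ_v - β - σ et(z_v(y))`,  test function `faU = Ψ(w)`.   `et` = extension of the extra index direction `η`, CONSTANT ALONG THE NORMALS of the cone in the conic
neighbourhood `V = facV S s₂ = {z ≠ 0, |u z| < s₂ |z|}` (`et = et ∘ π` on `V`), smooth and `0`-homogeneous (`Hom0`).

CHAIN (one file = one package)
* `CenEta`   C1  `fac_eta`: `ExtraIndex S ⟹ ∃ et s₂, FacExt S U et s₂` + the three index properties for `et` itself.
* `CenGrad`  C2  `facg_main` (helper201, PROVED): if `u` is differentiable at `z = z_v(y)`, `∇et(z) ⟂ N(z), z`, then `w` is differentiable at `y` and `|y|² |Dw(y)|² = 1 + σ² |y|² |∇et(z)|²`.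
* `CenMod`   C4  continuous `0`-homogeneous functions are bounded and uniformly continuous in the conic sense; smallness of `faS`.
* `CenDens`  C3  `fac_dens`: the energy density of `faU` at a contact point `y = 𝒴_v(p, s_v(p,t))` is `≤ facF(p,t)`.
* `CenReal`  C6  `fac_real`: the real variable inequality (second order Taylor expansion with uniform remainder), `fac_point`: its geometric form.
* `CenQ`     C7  `fcq_main` (helper209): `faQ S et v β σ ≥ c (|v|² + β² + σ²)`.
* `CenInt`   C5  `fac_int`: master inequality of E5 (`Fa/En*.lean`, helper33) + `fa_E_weight` + `fac_point` ⟹ `acE ≤ (1+λ)² (|Σ| (1 + ω r² + C T) - Q/2)`.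
* `Cen`      C8  `fac_main`.
-/

set_option autoImplicit false
open scoped ContDiff ENNReal NNReal RealInnerProductSpace Topology
open MeasureTheory Metric Set Filter

namespace Claimed.Agent.R323

open Claimed.Agent.Gmt

variable {n : ℕ}

/-- the conic neighbourhood `{z ≠ 0, |u z| < s₂ |z|}` of the cone. -/
def facV (S : Set (E n)) (s₂ : ℝ) : Set (E n) := {z | z ≠ 0 ∧ |gmtSimSd S z| < s₂ * ‖z‖}

/-- `et` is smooth, `0`-homogeneous and constant along the normals of the cone in `facV S s₂ ⊆ U`. -/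
structure FacExt (S U : Set (E n)) (et : E n → ℝ) (s₂ : ℝ) : Prop where
  hom0 : Hom0 et
  pos : 0 < s₂
  sub : facV S s₂ ⊆ U
  proj : ∀ z ∈ facV S s₂, et z = et (gmtSimPi (gmtSimSd S) z)

/-- the context of the centre. -/
structure FacCtx (n : ℕ) (S U : Set (E n)) (K s₂ : ℝ) (et : E n → ℝ) : Prop where
  n4 : 4 ≤ n
  cone : MinCone n S
  tube : KitTube S U
  sd : FaSd K (gmtSimSd S)
  ext : FacExt S U et s₂

/-- `|∇_Σ et|²` as a `0`-homogeneous function. -/
noncomputable def facGr (S : Set (E n)) (et : E n → ℝ) (p : E n) : ℝ := ‖p‖ ^ 2 * gmtSimTg (gmtSimSd S) et et p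

/-- `|A|²` as a `0`-homogeneous function. -/
noncomputable def facP (S : Set (E n)) (p : E n) : ℝ := ‖p‖ ^ 2 * gmtSimA (gmtSimSd S) p

/-- the majorant of the energy density in the source coordinates `(p,t)`. -/
noncomputable def facF (S : Set (E n)) (et : E n → ℝ) (ε lam om β σ : ℝ) (p : E n) (t : ℝ) : ℝ :=
  faCut (2 * faT ε lam) (t - β - σ * et p) * faE ε (t - β - σ * et p) *
    ((1 + lam) ^ 2 * (1 + σ ^ 2 * (facGr S et p + om)) + 1)

/-- the integrand of `faQ`. -/
noncomputable def facq (S : Set (E n)) (et : E n → ℝ) (v : E n) (β σ : ℝ) (p : E n) : ℝ :=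
  ((n : ℝ) - 2) * (β + σ * et p) ^ 2 + facP S p * (β + σ * et p + ⟪v, p⟫ / ‖p‖) ^ 2 - σ ^ 2 * facGr S et p

theorem fac_Q_eq (S : Set (E n)) (et : E n → ℝ) (v : E n) (β σ : ℝ) :
    faQ S et v β σ = ((n : ℝ) - 1) * ∫ p in ball (0 : E n) 1, facq S et v β σ p ∂(gmtMu S) := rfl

end Claimed.Agent.R323
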