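import Claimed.Agent.R323.Fa.Psi

/-!
# Row 323, block E4 (centre), piece (a2): THE GRADIENT OF THE PHASE `w = θ_v - β - σ et(z_v)`.   (helper201; prefix `facg_`)

POINTWISE.  `z = z_v(y) = faZy u v y`, `u` differentiable at `z` with unit gradient `N`.  `D = C (1 - ⟨v,N⟩)`, `N' = faNp v N = (B N - C v)/D`.
* `y = 𝒴(z) = B z - C u(z) v` is a global inverse of `z_v`; `D𝒴 = faDY v N = B - C v ⊗ N`, with inverse `faDZ v N = B + C v ⊗ N'`: `facg_Zy_deriv`.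
* `∇ψ_v(y) = N'`: `facg_psi_grad`.       * `∇θ_v(y) = (1-g²)^{-1/2} (N'/|y| - ψ y/|y|³)`, `g = ψ/|y|`: `facg_th_grad`.
* `∇(et ∘ z_v)(y) = (faDZ)ᵀ ∇et(z) = O ∇et(z)`, `O w = B w + C ⟨v,w⟩ N'`: an isometry on `N^⊥`, with values in `N'^⊥` (`fa_O_norm`, `fa_O_perp`); `⟨y, O w⟩ = ⟨z, w⟩`.
EXIT `facg_main`: `|y|² |∇w|² = 1 + σ² |y|² |∇et(z)|²` if `∇et(z) ⟂ N, z`.
-/

set_option autoImplicit false
open scoped ContDiff ENNReal NNReal RealInnerProductSpace Topology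
open MeasureTheory Metric Set Filter

namespace Claimed.Agent.R323

open Claimed.Agent.Gmt

variable {n : ℕ}

/-- the unit normal of the boosted graph: `N' = (B N - C v)/D`. -/
noncomputable def faNp (v N : E n) : E n := (faC v * (1 - ⟪v, N⟫))⁻¹ • (faB v N - faC v • v)

/-- `D𝒴 = B - C v ⊗ N`. -/
noncomputable def faDY (v N : E n) : E n →L[ℝ] E n := faB v - faC v • gmtSimR1 v N

/-- `D z_v = B + C v ⊗ N'`. -/
noncomputable def faDZ (v N : E n) : E n →L[ℝ] E n := faB v + faC v • gmtSimR1 v (faNp v N)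

theorem facg_defs_eqns_cite : True := by
  have := @faNp.eq_1
  have := @faDY.eq_1
  have := @faDZ.eq_1
  trivial

theorem facg_DY_apply (v N x : E n) : faDY v N x = faB v x - (faC v * ⟪N, x⟫) • v := by
  simp [faDY, gmtSimR1, smul_smul]

theorem facg_DZ_apply (v N x : E n) : faDZ v N x = faB v x + (faC v * ⟪faNp v N, x⟫) • v := by
  simp [faDZ, gmtSimR1, smul_smul]

theorem facg_Np_inner (v N x : E n) :
    ⟪faNp v N, x⟫ = (faC v * (1 - ⟪v, N⟫))⁻¹ * (⟪faB v N, x⟫ - faC v * ⟪v, x⟫) := by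
  simp only [faNp, inner_smul_left, inner_sub_left, conj_trivial]

theorem facg_Np_norm {v N : E n} (hv : ‖v‖ < 1) (hN : ‖N‖ = 1) : ‖faNp v N‖ = 1 := by
  have hD := fa_D_pos' hv hN
  rw [faNp, norm_smul, fa_Np_norm hv hN, Real.norm_of_nonneg (inv_nonneg.2 hD.le)]
  exact inv_mul_cancel₀ hD.ne'

theorem facg_DZ_DY {v N : E n} (hv : ‖v‖ < 1) (hN : ‖N‖ = 1) (x : E n) : faDZ v N (faDY v N x) = x := by
  have hD := fa_D_pos' hv hN
  have hC := fa_C_sq hv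
  obtain ⟨Di, hDi⟩ : ∃ Di : ℝ, Di = (faC v * (1 - ⟪v, N⟫))⁻¹ := ⟨_, rfl⟩
  have hDD : Di * (faC v * (1 - ⟪v, N⟫)) = 1 := by rw [hDi]; exact inv_mul_cancel₀ hD.ne'
  rw [facg_DZ_apply, facg_Np_inner, ← hDi, facg_DY_apply, map_sub, map_smul, fa_B_B hv, fa_B_self hv,
    inner_sub_right, inner_sub_right, inner_smul_right, inner_smul_right, fa_B_inner hv, fa_inner_v_B hv,
    fa_B_symm, fa_B_self hv, inner_smul_right, real_inner_self_eq_norm_sq, real_inner_comm v N]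
  have key : faC v ^ 2 * ⟪v, x⟫ - faC v * ⟪N, x⟫ * faC v + faC v * (Di * (⟪N, x⟫ + faC v ^ 2 * ⟪v, N⟫ * ⟪v, x⟫
      - faC v * ⟪N, x⟫ * (faC v * ⟪v, N⟫) - faC v * (faC v * ⟪v, x⟫ - faC v * ⟪N, x⟫ * ‖v‖ ^ 2))) = 0 := by
    linear_combination (faC v * ⟪N, x⟫ * Di * (-1)) * hC + (faC v ^ 2 * ⟪N, x⟫ - faC v ^ 2 * ⟪v, x⟫) * hDD
  calc _ = x + (faC v ^ 2 * ⟪v, x⟫ - faC v * ⟪N, x⟫ * faC v + faC v * (Di * (⟪N, x⟫ + faC v ^ 2 * ⟪v, N⟫ * ⟪v, x⟫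
      - faC v * ⟪N, x⟫ * (faC v * ⟪v, N⟫) - faC v * (faC v * ⟪v, x⟫ - faC v * ⟪N, x⟫ * ‖v‖ ^ 2)))) • v := by
        module
    _ = x := by rw [key, zero_smul, add_zero]

theorem facg_DY_DZ {v N : E n} (hv : ‖v‖ < 1) (hN : ‖N‖ = 1) (x : E n) : faDY v N (faDZ v N x) = x := by
  have hD := fa_D_pos' hv hN
  obtain ⟨Di, hDi⟩ : ∃ Di : ℝ, Di = (faC v * (1 - ⟪v, N⟫))⁻¹ := ⟨_, rfl⟩
  have hDD : Di * (faC v * (1 - ⟪v, N⟫)) = 1 := by rw [hDi]; exact inv_mul_cancel₀ hD.ne'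
  rw [facg_DY_apply, facg_DZ_apply, facg_Np_inner, ← hDi, map_add, map_smul, fa_B_B hv, fa_B_self hv,
    inner_add_right, inner_smul_right, ← fa_B_symm, real_inner_comm v N]
  have key : faC v ^ 2 * ⟪v, x⟫ + faC v * (Di * (⟪faB v N, x⟫ - faC v * ⟪v, x⟫)) * faC v
      - faC v * (⟪faB v N, x⟫ + faC v * (Di * (⟪faB v N, x⟫ - faC v * ⟪v, x⟫)) * ⟪v, N⟫) = 0 := by
    linear_combination (faC v * (⟪faB v N, x⟫ - faC v * ⟪v, x⟫)) * hDD
  calc _ = x + (faC v ^ 2 * ⟪v, x⟫ + faC v * (Di * (⟪faB v N, x⟫ - faC v * ⟪v, x⟫)) * faC v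
      - faC v * (⟪faB v N, x⟫ + faC v * (Di * (⟪faB v N, x⟫ - faC v * ⟪v, x⟫)) * ⟪v, N⟫)) • v := by
        module
    _ = x := by rw [key, zero_smul, add_zero]

/-- the derivative of `𝒴(z) = B z - C u(z) v`. -/
theorem facg_Yz_deriv {u : E n → ℝ} {v z N : E n} (hu : HasGradientAt u N z) :
    HasFDerivAt (fun z => faY v z (u z)) (faDY v N) z := by
  have h1 : HasFDerivAt (fun z : E n => faB v z) (faB v) z := (faB v).hasFDerivAt
  have h2 : HasFDerivAt u (innerSL ℝ N) z := hu.hasFDerivAt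
  have h3 := (h2.const_mul (faC v)).smul_const v
  have h4 := h1.sub h3
  have e : faDY v N = faB v - (faC v • innerSL ℝ N).smulRight v := by
    ext1 x
    rw [facg_DY_apply]
    simp
  rw [e]
  exact h4

theorem facg_Y_Zy {K : ℝ} {u : E n → ℝ} (hK : FaSd K u) {v : E n} (hv : ‖v‖ < 1) (y : E n) :
    faY v (faZy u v y) (u (faZy u v y)) = y := by
  unfold faZy
  rw [← fa_psi_spec hK hv y, fa_Y_Z hv]

theorem facg_Bt_Zy {K : ℝ} {u : E n → ℝ} (hK : FaSd K u) {v : E n} (hv : ‖v‖ < 1) (y : E n) :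
    faBt v (faZy u v y) (u (faZy u v y)) = faPsi u v y := by
  unfold faZy
  rw [← fa_psi_spec hK hv y, fa_Bt_Z hv]

theorem facg_Zy_continuous {K : ℝ} {u : E n → ℝ} (hK : FaSd K u) {v : E n} (hv : ‖v‖ < 1) :
    Continuous (faZy u v) := by
  unfold faZy faZ
  have h := (fa_psi_lip hK hv.le).continuous
  fun_prop

/-- **(a1), pointwise**: `D z_v = B + C v ⊗ N'`. -/
theorem facg_Zy_deriv {K : ℝ} {u : E n → ℝ} (hK : FaSd K u) {v : E n} (hv : ‖v‖ < 1) {y N : E n}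
    (hu : HasGradientAt u N (faZy u v y)) (hN : ‖N‖ = 1) : HasFDerivAt (faZy u v) (faDZ v N) y := by
  have h := HasFDerivAt.of_local_left_inverse (f := fun z => faY v z (u z))
    (f' := ContinuousLinearEquiv.equivOfInverse (faDY v N) (faDZ v N) (facg_DZ_DY hv hN) (facg_DY_DZ hv hN))
    (g := faZy u v) (a := y) (facg_Zy_continuous hK hv).continuousAt (facg_Yz_deriv hu)
    (Eventually.of_forall fun y' => facg_Y_Zy hK hv y')
  exact h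

/-- `∇ψ_v = N'`. -/
theorem facg_psi_grad {K : ℝ} {u : E n → ℝ} (hK : FaSd K u) {v : E n} (hv : ‖v‖ < 1) {y N : E n}
    (hu : HasGradientAt u N (faZy u v y)) (hN : ‖N‖ = 1) : HasGradientAt (faPsi u v) (faNp v N) y := by
  have hD := fa_D_pos' hv hN
  have hC := fa_C_sq hv
  have hz := facg_Zy_deriv hK hv hu hN
  have h1 : HasFDerivAt (fun y => u (faZy u v y)) ((innerSL ℝ N).comp (faDZ v N)) y :=
    HasFDerivAt.comp y (f := faZy u v) (g := u) hu.hasFDerivAt hz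
  have h2 : HasFDerivAt (fun y => ⟪v, faZy u v y⟫) ((innerSL ℝ v).comp (faDZ v N)) y :=
    HasFDerivAt.comp y (f := faZy u v) (g := fun z => ⟪v, z⟫) (innerSL ℝ v).hasFDerivAt hz
  have h3 := (h1.sub h2).const_mul (faC v)
  have e1 : (fun y => faC v * (u (faZy u v y) - ⟪v, faZy u v y⟫)) = faPsi u v := by
    funext y'
    exact facg_Bt_Zy hK hv y'
  have e2 : faC v • ((innerSL ℝ N).comp (faDZ v N) - (innerSL ℝ v).comp (faDZ v N)) = innerSL ℝ (faNp v N) := by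
    ext1 x
    simp only [_root_.smul_apply, _root_.sub_apply, ContinuousLinearMap.comp_apply, innerSL_apply_apply, smul_eq_mul]
    rw [facg_DZ_apply, inner_add_right, inner_add_right, inner_smul_right, inner_smul_right, fa_inner_v_B hv,
      real_inner_self_eq_norm_sq, ← fa_B_symm, real_inner_comm v N]
    have e3 : ⟪faB v N, x⟫ - faC v * ⟪v, x⟫ = faC v * (1 - ⟪v, N⟫) * ⟪faNp v N, x⟫ := by
      rw [facg_Np_inner, ← mul_assoc, mul_inv_cancel₀ hD.ne', one_mul]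
    linear_combination (faC v) * e3 + ⟪faNp v N, x⟫ * hC
  have h4 : HasFDerivAt (faPsi u v) (innerSL ℝ (faNp v N)) y := by
    rw [← e1, ← e2]
    exact h3
  exact h4

/-- the gradient of `arcsin (ψ/|y|)`. -/
theorem facg_th_grad {ψ : E n → ℝ} {y ξ : E n} (hd : HasGradientAt ψ ξ y) (hy : y ≠ 0) (hlt : |ψ y| < ‖y‖) :
    HasGradientAt (fun x => Real.arcsin (ψ x / ‖x‖))
      ((1 / Real.sqrt (1 - (ψ y / ‖y‖) ^ 2)) • (‖y‖⁻¹ • ξ - (ψ y / ‖y‖ ^ 3) • y)) y := by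
  have hy0 : 0 < ‖y‖ := norm_pos_iff.2 hy
  have hg1 : |ψ y / ‖y‖| < 1 := by
    rw [abs_div, abs_of_pos hy0, div_lt_one hy0]
    exact hlt
  have hN : HasFDerivAt (fun x : E n => ‖x‖) ((‖y‖⁻¹) • innerSL ℝ y) y := by
    have h1 : HasFDerivAt (fun x : E n => ‖x‖ ^ 2) (2 • innerSL ℝ y) y := (hasStrictFDerivAt_norm_sq y).hasFDerivAt
    have h2 := h1.sqrt (by positivity : ‖y‖ ^ 2 ≠ 0)
    have e : (fun x : E n => Real.sqrt (‖x‖ ^ 2)) = fun x => ‖x‖ := funext fun x => Real.sqrt_sq (norm_nonneg x)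
    rw [e, Real.sqrt_sq hy0.le] at h2
    have e' : (‖y‖⁻¹) • innerSL ℝ y = (1 / (2 * ‖y‖)) • (2 : ℕ) • innerSL ℝ y := by
      ext1 w
      simp only [_root_.smul_apply, innerSL_apply_apply, smul_eq_mul, nsmul_eq_mul]
      push_cast
      field_simp
    rw [e']
    exact h2
  have hI : HasFDerivAt (fun x : E n => ‖x‖⁻¹) ((-(‖y‖ ^ 2)⁻¹) • ((‖y‖⁻¹) • innerSL ℝ y)) y :=
    (hasDerivAt_inv hy0.ne').comp_hasFDerivAt y hN
  have hd' : HasFDerivAt ψ (innerSL ℝ ξ) y := hd.hasFDerivAt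
  have hQ : HasFDerivAt (fun x : E n => ψ x / ‖x‖) (innerSL ℝ (‖y‖⁻¹ • ξ - (ψ y / ‖y‖ ^ 3) • y)) y := by
    have h1 := hd'.fun_mul hI
    simp only [← div_eq_mul_inv] at h1
    have e : innerSL ℝ (‖y‖⁻¹ • ξ - (ψ y / ‖y‖ ^ 3) • y)
        = ψ y • -(‖y‖ ^ 2)⁻¹ • ‖y‖⁻¹ • (innerSL ℝ) y + ‖y‖⁻¹ • innerSL ℝ ξ := ?_
    · rw [e]
      exact h1
    ext w
    rw [innerSL_apply_apply, inner_sub_left, inner_smul_left, inner_smul_left]
    simp only [_root_.add_apply, _root_.smul_apply, innerSL_apply_apply, smul_eq_mul, conj_trivial]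
    field_simp
    ring
  have hA := (Real.hasDerivAt_arcsin (x := ψ y / ‖y‖) (by linarith [(abs_lt.1 hg1).1])
    (by linarith [(abs_lt.1 hg1).2])).comp_hasFDerivAt y hQ
  have e : innerSL ℝ ((1 / Real.sqrt (1 - (ψ y / ‖y‖) ^ 2)) • (‖y‖⁻¹ • ξ - (ψ y / ‖y‖ ^ 3) • y))
      = (1 / Real.sqrt (1 - (ψ y / ‖y‖) ^ 2)) • innerSL ℝ (‖y‖⁻¹ • ξ - (ψ y / ‖y‖ ^ 3) • y) := by
    rw [map_smul]
  have h5 : HasFDerivAt (fun x => Real.arcsin (ψ x / ‖x‖))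
      (innerSL ℝ ((1 / Real.sqrt (1 - (ψ y / ‖y‖) ^ 2)) • (‖y‖⁻¹ • ξ - (ψ y / ‖y‖ ^ 3) • y))) y := by
    rw [e]
    exact hA
  exact h5

/-- `∇(et ∘ z_v) = O ∇et(z)`, `O w = B w + C ⟨v,w⟩ N'`. -/
theorem facg_et_grad {K : ℝ} {u : E n → ℝ} (hK : FaSd K u) {v : E n} (hv : ‖v‖ < 1) {y N : E n}
    (hu : HasGradientAt u N (faZy u v y)) (hN : ‖N‖ = 1) {et : E n → ℝ} (het : DifferentiableAt ℝ et (faZy u v y)) :
    HasGradientAt (fun y => et (faZy u v y))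
      (faB v (gradient et (faZy u v y)) + (faC v * ⟪v, gradient et (faZy u v y)⟫) • faNp v N) y := by
  have hz := facg_Zy_deriv hK hv hu hN
  have h0 : HasFDerivAt et (innerSL ℝ (gradient et (faZy u v y))) (faZy u v y) := het.hasGradientAt.hasFDerivAt
  have h1 : HasFDerivAt (fun y => et (faZy u v y)) ((innerSL ℝ (gradient et (faZy u v y))).comp (faDZ v N)) y :=
    HasFDerivAt.comp y (f := faZy u v) (g := et) h0 hz
  have e : (innerSL ℝ (gradient et (faZy u v y))).comp (faDZ v N)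
      = innerSL ℝ (faB v (gradient et (faZy u v y)) + (faC v * ⟪v, gradient et (faZy u v y)⟫) • faNp v N) := by
    ext1 x
    simp only [ContinuousLinearMap.comp_apply, innerSL_apply_apply]
    rw [facg_DZ_apply, inner_add_right, inner_smul_right, inner_add_left, inner_smul_left, fa_B_symm,
      real_inner_comm v (gradient et (faZy u v y))]
    simp only [conj_trivial]
    ring
  have h2 : HasFDerivAt (fun y => et (faZy u v y))
      (innerSL ℝ (faB v (gradient et (faZy u v y)) + (faC v * ⟪v, gradient et (faZy u v y)⟫) • faNp v N)) y := by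
    rw [← e]
    exact h1
  exact h2

/-- pure algebra: the norm of `κ η - σ q`. -/
theorem facg_alg {y ξ q : E n} {ψ σ : ℝ} (hy : y ≠ 0) (hlt : |ψ| < ‖y‖) (hξ : ‖ξ‖ = 1) (he : ⟪ξ, y⟫ = ψ)
    (h1 : ⟪q, ξ⟫ = 0) (h2 : ⟪q, y⟫ = 0) :
    ‖y‖ ^ 2 * ‖(1 / Real.sqrt (1 - (ψ / ‖y‖) ^ 2)) • (‖y‖⁻¹ • ξ - (ψ / ‖y‖ ^ 3) • y) - σ • q‖ ^ 2
      = 1 + σ ^ 2 * ‖y‖ ^ 2 * ‖q‖ ^ 2 := by
  have hy0 : 0 < ‖y‖ := norm_pos_iff.2 hy
  have hg1 : |ψ / ‖y‖| < 1 := by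
    rw [abs_div, abs_of_pos hy0, div_lt_one hy0]
    exact hlt
  have hg2 : 0 < 1 - (ψ / ‖y‖) ^ 2 := by
    have := abs_lt.1 hg1
    nlinarith
  obtain ⟨κ, hκ⟩ : ∃ κ : ℝ, κ = 1 / Real.sqrt (1 - (ψ / ‖y‖) ^ 2) := ⟨_, rfl⟩
  have hκ2 : κ ^ 2 * (1 - (ψ / ‖y‖) ^ 2) = 1 := by
    rw [hκ, div_pow, Real.sq_sqrt hg2.le, one_pow, one_div]
    exact inv_mul_cancel₀ hg2.ne'
  obtain ⟨η, hη⟩ : ∃ η : E n, η = ‖y‖⁻¹ • ξ - (ψ / ‖y‖ ^ 3) • y := ⟨_, rfl⟩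
  rw [← hκ, ← hη]
  have e1 : ‖η‖ ^ 2 = ‖y‖⁻¹ ^ 2 - 2 * (‖y‖⁻¹ * (ψ / ‖y‖ ^ 3) * ψ) + (ψ / ‖y‖ ^ 3) ^ 2 * ‖y‖ ^ 2 := by
    rw [hη, norm_sub_sq_real, norm_smul, norm_smul, inner_smul_left, inner_smul_right, he, mul_pow, mul_pow,
      Real.norm_eq_abs, Real.norm_eq_abs, sq_abs, sq_abs, hξ]
    simp only [conj_trivial]
    ring
  have e2 : ‖y‖ ^ 2 * ‖η‖ ^ 2 = 1 - (ψ / ‖y‖) ^ 2 := by
    rw [e1]
    field_simp
    ring
  have e3 : ⟪η, q⟫ = 0 := by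
    rw [hη, inner_sub_left, inner_smul_left, inner_smul_left, real_inner_comm q ξ, real_inner_comm q y, h1, h2]
    simp
  rw [norm_sub_sq_real, norm_smul, norm_smul, inner_smul_left, inner_smul_right, e3, mul_pow, mul_pow,
    Real.norm_eq_abs, Real.norm_eq_abs, sq_abs, sq_abs]
  simp only [conj_trivial]
  linear_combination κ ^ 2 * e2 + hκ2

/-- **EXIT (a2)**: `|y|² |∇w|² = 1 + σ² |y|² |∇et(z)|²`, `w = θ_v - β - σ et(z_v)`. -/
theorem facg_main {K : ℝ} {u : E n → ℝ} (hK : FaSd K u) {v : E n} (hv : ‖v‖ < 1) {y N : E n} (hy : y ≠ 0)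
    (hu : HasGradientAt u N (faZy u v y)) (hN : ‖N‖ = 1) {et : E n → ℝ} (het : DifferentiableAt ℝ et (faZy u v y))
    (h1 : ⟪gradient et (faZy u v y), N⟫ = 0) (h2 : ⟪gradient et (faZy u v y), faZy u v y⟫ = 0) (β σ : ℝ) :
    DifferentiableAt ℝ (faW u et v β σ) y ∧
      ‖y‖ ^ 2 * ‖fderiv ℝ (faW u et v β σ) y‖ ^ 2 = 1 + σ ^ 2 * ‖y‖ ^ 2 * ‖gradient et (faZy u v y)‖ ^ 2 := by
  have hy0 : 0 < ‖y‖ := norm_pos_iff.2 hy
  have hD := fa_D_pos' hv hN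
  obtain ⟨w, hw⟩ : ∃ w : E n, w = gradient et (faZy u v y) := ⟨_, rfl⟩
  have hψ := facg_psi_grad hK hv hu hN
  have hlt : |faPsi u v y| < ‖y‖ := by
    obtain ⟨κ, -, hκ1, hκ⟩ := fa_psi_lt hK hv
    calc |faPsi u v y| ≤ κ * ‖y‖ := hκ y
      _ < 1 * ‖y‖ := mul_lt_mul_of_pos_right hκ1 hy0
      _ = ‖y‖ := one_mul _
  have hθ := facg_th_grad hψ hy hlt
  have hq := facg_et_grad hK hv hu hN het
  rw [← hw] at hq h1 h2 ⊢
  obtain ⟨q, hqd⟩ : ∃ q : E n, q = faB v w + (faC v * ⟪v, w⟫) • faNp v N := ⟨_, rfl⟩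
  rw [← hqd] at hq
  have hq' : q = faB v w + (faC v * ⟪v, w⟫ / (faC v * (1 - ⟪v, N⟫))) • (faB v N - faC v • v) := by
    rw [hqd, faNp, smul_smul, div_eq_mul_inv]
  have hqn : ‖q‖ = ‖w‖ := by rw [hq']; exact fa_O_norm hv hN h1
  have hqξ : ⟪q, faNp v N⟫ = 0 := by
    rw [faNp, inner_smul_right, hq', fa_O_perp hv hN h1, mul_zero]
  have he : ⟪faNp v N, y⟫ = faPsi u v y := by
    have h := fa_euler (ψ := faPsi u v) (fun t ht y => fa_psi_hom hK v ht y) hψ.differentiableAt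
    rw [hψ.hasFDerivAt.fderiv] at h
    exact h
  have hqy : ⟪q, y⟫ = 0 := by
    rw [hqd, inner_add_left, inner_smul_left, he, fa_B_symm]
    have : ⟪w, faZy u v y⟫ = ⟪w, faB v y⟫ + faC v * faPsi u v y * ⟪v, w⟫ := by
      unfold faZy faZ
      rw [inner_add_right, inner_smul_right, real_inner_comm v w]
    rw [h2] at this
    simp only [conj_trivial]
    linarith
  have hg : HasFDerivAt (faW u et v β σ)
      (InnerProductSpace.toDual ℝ (E n) ((1 / Real.sqrt (1 - (faPsi u v y / ‖y‖) ^ 2)) •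
        (‖y‖⁻¹ • faNp v N - (faPsi u v y / ‖y‖ ^ 3) • y) - σ • q)) y := by
    have h3 := (hθ.hasFDerivAt.sub_const β).sub (hq.hasFDerivAt.const_mul σ)
    rw [map_sub, map_smul (InnerProductSpace.toDual ℝ (E n)) σ q]
    exact h3
  refine ⟨hg.differentiableAt, ?_⟩
  rw [hg.fderiv, LinearIsometryEquiv.norm_map, facg_alg hy hlt (facg_Np_norm hv hN) he hqξ hqy, hqn]

end Claimed.Agent.R323
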