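import Claimed.Agent.R323.Fa.CenDefs

/-!
# Row 323, block E4 (centre), C4: BOUNDS AND MODULI.   Architect: helper56.   Prefix `fac`.   Mathlib + `Fa/Defs`, `Fa/Lor` only.
-/

set_option autoImplicit false
open scoped ContDiff ENNReal NNReal RealInnerProductSpace Topology
open MeasureTheory Metric Set Filter

namespace Claimed.Agent.R323

open Claimed.Agent.Gmt

variable {n : ℕ}

/-- **L-FAC-MOD-A**: compactness of the unit sphere, `G x = G (‖x‖⁻¹ • x)`. -/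
theorem fac_hom_bdd {G : E n → ℝ} (hc : ContinuousOn G {0}ᶜ) (hom : ∀ t : ℝ, 0 < t → ∀ x, G (t • x) = G x) :
    ∃ M : ℝ, 0 ≤ M ∧ ∀ x, x ≠ 0 → |G x| ≤ M := by
  have hK : IsCompact (sphere (0 : E n) 1) := isCompact_sphere _ _
  have hsub : sphere (0 : E n) 1 ⊆ {0}ᶜ := by
    intro x hx h0
    rw [mem_singleton_iff] at h0
    rw [h0] at hx
    simp at hx
  obtain ⟨C, hC⟩ := hK.exists_bound_of_continuousOn (hc.mono hsub)
  refine ⟨max C 0, le_max_right _ _, fun x hx => ?_⟩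
  have hn : 0 < ‖x‖ := norm_pos_iff.2 hx
  have h1 := hom ‖x‖⁻¹ (inv_pos.2 hn) x
  have h2 : ‖x‖⁻¹ • x ∈ sphere (0 : E n) 1 := by
    rw [mem_sphere_zero_iff_norm, norm_smul, norm_inv, norm_norm, inv_mul_cancel₀ hn.ne']
  have h3 := hC _ h2
  rw [h1, Real.norm_eq_abs] at h3
  exact h3.trans (le_max_left _ _)

/-- **L-FAC-MOD-A**: uniform continuity on the compact annulus `{1/2 ≤ ‖x‖ ≤ 2}` (`IsCompact.uniformContinuousOn_of_continuous`, `Metric.uniformContinuousOn_iff`): `δ` for `om`; `κ = min (δ/2) (1/2)`;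
scale by `‖p‖⁻¹`: `p' = ‖p‖⁻¹ • p`, `z' = ‖p‖⁻¹ • z`, `‖z' - p'‖ ≤ κ`, `‖p'‖ = 1`, `1/2 ≤ ‖z'‖ ≤ 3/2`. -/
theorem fac_hom_mod {G : E n → ℝ} (hc : ContinuousOn G {0}ᶜ) (hom : ∀ t : ℝ, 0 < t → ∀ x, G (t • x) = G x)
    {om : ℝ} (ho : 0 < om) : ∃ κ : ℝ, 0 < κ ∧ ∀ p z : E n, p ≠ 0 → ‖z - p‖ ≤ κ * ‖p‖ → |G z - G p| ≤ om := by
  set A : Set (E n) := closedBall (0 : E n) 2 ∩ {x | (1 / 2 : ℝ) ≤ ‖x‖} with hA
  have hK : IsCompact A :=
    (isCompact_closedBall _ _).inter_right (isClosed_le continuous_const continuous_norm)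
  have hsub : A ⊆ {0}ᶜ := by
    intro x hx h0
    rw [mem_singleton_iff] at h0
    have := hx.2
    rw [h0] at this
    simp only [mem_setOf_eq, norm_zero] at this
    norm_num at this
  have hu := hK.uniformContinuousOn_of_continuous (hc.mono hsub)
  rw [Metric.uniformContinuousOn_iff] at hu
  obtain ⟨δ, hδ, hu⟩ := hu om ho
  refine ⟨min (δ / 2) (1 / 2), lt_min (by linarith) (by norm_num), fun p z hp hz => ?_⟩
  have hn : 0 < ‖p‖ := norm_pos_iff.2 hp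
  have e1 := hom ‖p‖⁻¹ (inv_pos.2 hn) p
  have e2 := hom ‖p‖⁻¹ (inv_pos.2 hn) z
  have n1 : ‖‖p‖⁻¹ • p‖ = 1 := by
    rw [norm_smul, norm_inv, norm_norm, inv_mul_cancel₀ hn.ne']
  have d1 : ‖‖p‖⁻¹ • z - ‖p‖⁻¹ • p‖ ≤ min (δ / 2) (1 / 2) := by
    rw [← smul_sub, norm_smul, norm_inv, norm_norm, inv_mul_le_iff₀ hn, mul_comm]
    exact hz
  have d2 : ‖‖p‖⁻¹ • z - ‖p‖⁻¹ • p‖ ≤ δ / 2 := d1.trans (min_le_left _ _)
  have d3 : ‖‖p‖⁻¹ • z - ‖p‖⁻¹ • p‖ ≤ 1 / 2 := d1.trans (min_le_right _ _)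
  have u1 : ‖‖p‖⁻¹ • z‖ ≤ 2 := by
    have := norm_le_norm_add_norm_sub' (‖p‖⁻¹ • z) (‖p‖⁻¹ • p)
    linarith
  have l1 : (1 / 2 : ℝ) ≤ ‖‖p‖⁻¹ • z‖ := by
    have := norm_le_norm_add_norm_sub (‖p‖⁻¹ • z) (‖p‖⁻¹ • p)
    linarith
  have mz : ‖p‖⁻¹ • z ∈ A := ⟨by rw [mem_closedBall_zero_iff]; exact u1, l1⟩
  have mp : ‖p‖⁻¹ • p ∈ A := ⟨by rw [mem_closedBall_zero_iff, n1]; norm_num, by
    simp only [mem_setOf_eq, n1]; norm_num⟩
  have := hu _ mz _ mp (by rw [dist_eq_norm]; linarith)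
  rw [e1, e2, Real.dist_eq] at this
  exact this.le

/-- **L-FAC-MOD-B**: `faS u v p t = (‖p‖ tan t + C ⟪v,p⟫)/(C (1 - ⟪v,N⟫))`, `C ≥ 1` (`fa_C_ge_one`), `|⟪v,N⟫| ≤ ‖v‖ ≤ 1/2`, `|tan t| ≤ 2 |t|` for `|t| ≤ 1/2`
(`tan t = sin t / cos t`, `|sin t| ≤ |t|`, `cos t ≥ 1 - t²/2 ≥ 1/2`): `|faS| ≤ 6 r₁ ‖p‖`; `r₁ = min (κ/6) (1/2)`. -/
theorem fac_S_small {κ : ℝ} (hκ : 0 < κ) : ∃ r₁ : ℝ, 0 < r₁ ∧ r₁ ≤ 1 / 2 ∧ ∀ (u : E n → ℝ) (v p : E n) (t : ℝ),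
    ‖gradient u p‖ = 1 → ‖v‖ ≤ r₁ → |t| ≤ r₁ → |faS u v p t| ≤ κ * ‖p‖ := by
  refine ⟨min (κ / 6) (1 / 2), lt_min (by linarith) (by norm_num), min_le_right _ _, ?_⟩
  intro u v p t hN hv ht
  set r : ℝ := min (κ / 6) (1 / 2) with hr
  have hr1 : r ≤ κ / 6 := min_le_left _ _
  have hr2 : r ≤ 1 / 2 := min_le_right _ _
  have hr0 : 0 ≤ r := (norm_nonneg v).trans hv
  have hC : 1 ≤ faC v := fa_C_ge_one (by linarith)
  have hvN : |⟪v, gradient u p⟫| ≤ ‖v‖ := by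
    have := abs_real_inner_le_norm v (gradient u p)
    rwa [hN, mul_one] at this
  have hvp : |⟪v, p⟫| ≤ r * ‖p‖ :=
    (abs_real_inner_le_norm v p).trans (mul_le_mul_of_nonneg_right hv (norm_nonneg _))
  have hden : (1 / 2 : ℝ) ≤ 1 - ⟪v, gradient u p⟫ := by
    have := (abs_le.1 hvN).2
    linarith
  have hcos : (1 / 2 : ℝ) ≤ Real.cos t := by
    have h1 := Real.one_sub_sq_div_two_le_cos (x := t)
    have h2 : t ^ 2 ≤ (1 / 2 : ℝ) ^ 2 := by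
      rw [← sq_abs]
      exact pow_le_pow_left₀ (abs_nonneg _) (ht.trans hr2) 2
    nlinarith
  have htan : |Real.tan t| ≤ 2 * r := by
    rw [Real.tan_eq_sin_div_cos, abs_div, abs_of_pos (by linarith : (0 : ℝ) < Real.cos t),
      div_le_iff₀ (by linarith)]
    have h1 : |Real.sin t| ≤ |t| := Real.abs_sin_le_abs
    nlinarith
  have hD : faC v / 2 ≤ faD u v p := by
    unfold faD
    nlinarith
  have hD0 : 0 < faD u v p := by linarith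
  unfold faS
  rw [abs_div, abs_of_pos hD0, div_le_iff₀ hD0]
  have hp0 := norm_nonneg p
  have n1 : |‖p‖ * Real.tan t + faC v * ⟪v, p⟫| ≤ ‖p‖ * (2 * r) + faC v * (r * ‖p‖) := by
    refine (abs_add_le _ _).trans ?_
    rw [abs_mul, abs_mul, abs_of_nonneg hp0, abs_of_nonneg (by linarith : (0 : ℝ) ≤ faC v)]
    exact add_le_add (mul_le_mul_of_nonneg_left htan hp0)
      (mul_le_mul_of_nonneg_left hvp (by linarith))
  have n2 : ‖p‖ * (2 * r) + faC v * (r * ‖p‖) ≤ 3 * r * ‖p‖ * faC v := by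
    have : 0 ≤ r * ‖p‖ := mul_nonneg hr0 hp0
    nlinarith
  have n3 : 3 * r * ‖p‖ * faC v ≤ κ * ‖p‖ * faD u v p := by
    have h1 : 6 * r * ‖p‖ ≤ κ * ‖p‖ := mul_le_mul_of_nonneg_right (by linarith) hp0
    have h2 : 0 ≤ κ * ‖p‖ := by positivity
    have h3 : κ * ‖p‖ * (faC v / 2) ≤ κ * ‖p‖ * faD u v p := mul_le_mul_of_nonneg_left hD h2
    have h4 : 6 * r * ‖p‖ * (faC v / 2) ≤ κ * ‖p‖ * (faC v / 2) :=
      mul_le_mul_of_nonneg_right h1 (by linarith)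
    nlinarith
  linarith

/-- **L-FAC-MOD-C**: outside the transition layer the energy density vanishes, WITHOUT ANY HYPOTHESIS ON `w`: `Ψ(w y) = ±1` (`fa_prof_one`, `fa_prof_neg_one`) is a global extremum of `Ψ ∘ w` (`fa_prof_abs_le`),
so `fderiv = 0` (`IsLocalMax.fderiv_eq_zero`, `IsLocalMin.fderiv_eq_zero`); `acW (±1) = 0`. -/
theorem fac_prof_out {ε lam : ℝ} (hε : 0 < ε) (hl : 0 < lam) (w : E n → ℝ) {y : E n} (hw : faT ε lam ≤ |w y|) :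
    ε / 2 * ‖y‖ ^ 2 * ‖fderiv ℝ (fun x => faProf ε lam (w x)) y‖ ^ 2 + acW (faProf ε lam (w y)) / ε = 0 := by
  rw [le_abs] at hw
  have hz : fderiv ℝ (fun x => faProf ε lam (w x)) y = 0 ∧ acW (faProf ε lam (w y)) = 0 := by
    rcases hw with h | h
    · have h1 := fa_prof_one hε hl h
      constructor
      · apply IsLocalMax.fderiv_eq_zero
        refine Eventually.of_forall fun x => ?_
        simp only [h1]
        exact (abs_le.1 (fa_prof_abs_le ε lam (w x))).2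
      · rw [h1]
        simp [acW]
    · have h1 := fa_prof_neg_one hε hl (t := w y) (by linarith)
      constructor
      · apply IsLocalMin.fderiv_eq_zero
        refine Eventually.of_forall fun x => ?_
        simp only [h1]
        exact (abs_le.1 (fa_prof_abs_le ε lam (w x))).1
      · rw [h1]
        simp [acW]
  rw [hz.1, hz.2]
  simp

end Claimed.Agent.R323
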