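import Claimed.Agent.R323.Fa.CenEta
import Claimed.Agent.R323.Fa.CenGrad
import Claimed.Agent.R323.Fa.CenMod
import Claimed.Agent.R323.Fa.Area

/-!
# Row 323, block E4 (centre), C3: THE ENERGY DENSITY AT A CONTACT.   Architect: helper56.   Prefix `fac`.

`u = gmtSimSd S`.   `p ∈ gmtBd S \ 0`, `N = ∇u(p)`, `s = faS u v p t`, contact `u (p + s N) = s`, `y = faYs u v p s`, `z = p + s N`.
-/

set_option autoImplicit false
open scoped ContDiff ENNReal NNReal RealInnerProductSpace Topology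
open MeasureTheory Metric Set Filter

namespace Claimed.Agent.R323

open Claimed.Agent.Gmt

variable {n : ℕ}

/-- **L-FAC-DENS-A** (geometry of a contact in the conic neighbourhood).   `⟪p,N⟫ = u p = 0` (`hC.tube.cone.hom`, `zero_iff`), `‖N‖ = 1`: `‖z‖² = ‖p‖² + s²`, so `z ≠ 0`, `|u z| = |s| < s₂ ‖p‖ ≤ s₂ ‖z‖`: `z ∈ V`.
`∇u(z) = N` (`faa_proj`), so `π z = z - s N = p`; `et z = et (π z)`. -/
theorem fac_ct_geom {S U : Set (E n)} {K s₂ : ℝ} {et : E n → ℝ} (hC : FacCtx n S U K s₂ et) {p : E n}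
    (hp : p ∈ gmtBd S) (hp0 : p ≠ 0) {s : ℝ} (hc : FaCt (gmtSimSd S) p s) (hs : |s| < s₂ * ‖p‖) :
    p + s • gradient (gmtSimSd S) p ∈ facV S s₂ ∧ et (p + s • gradient (gmtSimSd S) p) = et p ∧
      ‖p‖ ≤ ‖p + s • gradient (gmtSimSd S) p‖ := by
  have hT := hC.tube.cone
  have hpU : p ∈ U := hT.bd p hp hp0
  have hN : ‖gradient (gmtSimSd S) p‖ = 1 := hT.eik p hpU
  have hu0 : gmtSimSd S p = 0 := (hT.zero_iff p hpU).2 hp
  have hpN : ⟪p, gradient (gmtSimSd S) p⟫ = 0 := (hT.hom p hpU).trans hu0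
  have hpn : 0 < ‖p‖ := norm_pos_iff.2 hp0
  have h2 : ‖p + s • gradient (gmtSimSd S) p‖ ^ 2 = ‖p‖ ^ 2 + s ^ 2 := by
    rw [norm_add_sq_real, inner_smul_right, hpN, norm_smul, hN, Real.norm_eq_abs, mul_one, sq_abs]
    ring
  have h3 : ‖p‖ ≤ ‖p + s • gradient (gmtSimSd S) p‖ := by
    refine (pow_le_pow_iff_left₀ hpn.le (norm_nonneg _) (by norm_num : (2 : ℕ) ≠ 0)).1 ?_
    rw [h2]
    nlinarith [sq_nonneg s]
  have hz0 : p + s • gradient (gmtSimSd S) p ≠ 0 := norm_pos_iff.1 (hpn.trans_le h3)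
  have hV : p + s • gradient (gmtSimSd S) p ∈ facV S s₂ := by
    refine ⟨hz0, ?_⟩
    rw [hc]
    exact hs.trans_le (mul_le_mul_of_nonneg_left h3 hC.ext.pos.le)
  refine ⟨hV, ?_, h3⟩
  have hzU := hC.ext.sub hV
  have hπ : gmtSimPi (gmtSimSd S) (p + s • gradient (gmtSimSd S) p) = p := by
    unfold gmtSimPi
    rw [faa_proj hT.toGmtSimTube hC.sd hp hp0 hc hzU, hc]
    abel
  rw [hC.ext.proj _ hV, hπ]

/-- `G z = |z|² |∇et(z)|²`. -/
theorem fac_G_cont {et : E n → ℝ} (h : Hom0 et) : ContinuousOn (fun z : E n => ‖z‖ ^ 2 * ‖gradient et z‖ ^ 2) {0}ᶜ :=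
  ((continuous_norm.pow 2).continuousOn).mul
    (((gmtSim_contDiffOn_gradient isOpen_compl_singleton h.smooth).continuousOn.norm).pow 2)

theorem fac_G_hom {et : E n → ℝ} (h : Hom0 et) (t : ℝ) (ht : 0 < t) (x : E n) :
    ‖t • x‖ ^ 2 * ‖gradient et (t • x)‖ ^ 2 = ‖x‖ ^ 2 * ‖gradient et x‖ ^ 2 := by
  by_cases hx : x = 0
  · rw [hx, smul_zero]
  · rw [kit_hom_grad (U := {0}ᶜ) isOpen_compl_singleton (fun y _ r hr => h.hom r hr y) ht hx, norm_smul, norm_smul,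
      norm_inv, Real.norm_of_nonneg ht.le]
    field_simp

theorem fac_dens_arith {a A om c2 t ρ : ℝ} (ho : 0 < om) (ha0 : 0 ≤ a) (ha : a ≤ A) (hρ1 : ρ ≤ 1) (hρ0 : 0 ≤ ρ)
    (hρ : ρ * (A + om) ≤ om / 2) (ht : |t| ≤ ρ) (hc : c2 = 1 - Real.sin t ^ 2) :
    a + om / 2 ≤ (a + om) * c2 := by
  have h1 : Real.sin t ^ 2 ≤ ρ := by
    have h2 : Real.sin t ^ 2 ≤ t ^ 2 := Real.sin_sq_le_sq
    have h3 : t ^ 2 ≤ ρ ^ 2 := by rw [← sq_abs]; exact pow_le_pow_left₀ (abs_nonneg t) ht 2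
    nlinarith
  have h4 : (a + om) * Real.sin t ^ 2 ≤ (A + om) * ρ :=
    mul_le_mul (by linarith) h1 (sq_nonneg _) (by linarith)
  rw [hc]
  nlinarith

set_option maxHeartbeats 400000 in
/-- **L-FAC-DENS-B** (the main pointwise estimate).   `Me` = bound of `|et|` (`fac_hom_bdd`), `Mg` = bound of `G z = ‖z‖² ‖∇et(z)‖²` (continuous on `{0}ᶜ`, `0`-homogeneous: `kit_hom_grad` / `kit_fun_grad_smul`),
`κ` = modulus of `G` for `om/2` (`fac_hom_mod`), `r'` = `fac_S_small` for `min κ (s₂/2)`.   Choose `r₁` with `r₁ (2 + Me) ≤ r'` and `tan² ≤ ...`: precisely `(Mg + om/2) (1/cos² t - 1) ≤ om/2` for `|t| ≤ r₁ (2 + Me)`.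
CASE `faT ≤ |w y|`: `fac_prof_out`; `facF ≥ 0` (`fa_cut_nonneg`, `fa_E_nonneg`, `facGr = ‖p‖²‖∇et p‖² ≥ 0` by `fac_ext_Tg`).
CASE `|w y| < faT`: `θ_v(y) = t` (`fa_th_ct`), `z_v(y) = z` (`fa_Zy_ct`), so `|t| ≤ faT + |β| + |σ| Me ≤ r₁ (2 + Me)`; `|s| ≤ min κ (s₂/2) ‖p‖`; `fac_ct_geom`: `w y = t - β - σ et p`;
`fac_ext_normal`, Euler `⟪∇et z, z⟫ = 0` (`kit_hom_euler`), `facg_main` (`Fa/CenGrad.lean`, helper201): `‖y‖² ‖Dw‖² = 1 + σ² ‖y‖² ‖∇et z‖²`, `‖y‖ = ‖p‖/cos t` (`fa_Ys_norm_ct`),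
`‖y‖² ‖∇et z‖² = (‖y‖²/‖z‖²) G z ≤ G z / cos² t ≤ (G p + om/2)/cos² t ≤ G p + om`; `G p = facGr S et p` (`fac_ext_Tg`);
`fa_prof_energy`; `faCut (2T) τ = 1` for `|τ| ≤ T` (`fa_cut_one`). -/
theorem fac_dens {S U : Set (E n)} {K s₂ : ℝ} {et : E n → ℝ} (hC : FacCtx n S U K s₂ et) {om : ℝ} (ho : 0 < om) :
    ∃ r₁ : ℝ, 0 < r₁ ∧ ∀ ε lam : ℝ, 0 < ε → 0 < lam → faT ε lam ≤ r₁ → ∀ (v : E n) (β σ : ℝ), ‖v‖ ≤ r₁ → |β| ≤ r₁ → |σ| ≤ r₁ →
      ∀ p ∈ gmtBd S, p ≠ 0 → ∀ t ∈ Ioo (-(Real.pi / 2)) (Real.pi / 2), FaCt (gmtSimSd S) p (faS (gmtSimSd S) v p t) →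
        ε / 2 * ‖faYs (gmtSimSd S) v p (faS (gmtSimSd S) v p t)‖ ^ 2 *
            ‖fderiv ℝ (faU (gmtSimSd S) et ε lam v β σ) (faYs (gmtSimSd S) v p (faS (gmtSimSd S) v p t))‖ ^ 2
          + acW (faU (gmtSimSd S) et ε lam v β σ (faYs (gmtSimSd S) v p (faS (gmtSimSd S) v p t))) / ε
          ≤ facF S et ε lam om β σ p t := by
  have hE := hC.ext
  have hT := hC.tube.cone
  have hK := hC.sd
  obtain ⟨Me, hMe0, hMe⟩ := fac_hom_bdd hE.hom0.smooth.continuousOn hE.hom0.hom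
  obtain ⟨Mg, hMg0, hMg⟩ := fac_hom_bdd (fac_G_cont hE.hom0) (fac_G_hom hE.hom0)
  obtain ⟨κ, hκ0, hκ⟩ := fac_hom_mod (fac_G_cont hE.hom0) (fac_G_hom hE.hom0) (half_pos ho)
  obtain ⟨r', hr'0, hr'2, hr'⟩ := fac_S_small (n := n) (lt_min hκ0 (half_pos hE.pos))
  set ρ : ℝ := min r' (om / 2 / (Mg + om)) with hρdef
  have hMo : 0 < Mg + om := by linarith
  have hρ0 : 0 < ρ := lt_min hr'0 (by positivity)
  have hρr : ρ ≤ r' := min_le_left _ _
  have hρ1 : ρ ≤ 1 := by linarith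
  have hρ2 : ρ * (Mg + om) ≤ om / 2 := by
    have : ρ ≤ om / 2 / (Mg + om) := min_le_right _ _
    rwa [le_div_iff₀ hMo] at this
  have hM2 : 0 < 2 + Me := by linarith
  refine ⟨ρ / (2 + Me), by positivity, ?_⟩
  intro ε lam hε hl hTr v β σ hv hβ hσ p hp hp0 t ht hc
  set r₁ : ℝ := ρ / (2 + Me) with hr₁
  have hr₁0 : 0 < r₁ := by positivity
  have hr₁M : r₁ * (2 + Me) = ρ := by rw [hr₁]; field_simp
  have hr₁ρ : r₁ ≤ ρ := by
    rw [← hr₁M]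
    nlinarith
  have hv1 : ‖v‖ < 1 := by linarith
  have hpU : p ∈ U := hT.bd p hp hp0
  have hN : ‖gradient (gmtSimSd S) p‖ = 1 := hT.eik p hpU
  have hu0 : gmtSimSd S p = 0 := (hT.zero_iff p hpU).2 hp
  have hpN : ⟪p, gradient (gmtSimSd S) p⟫ = 0 := (hT.hom p hpU).trans hu0
  have hpn : 0 < ‖p‖ := norm_pos_iff.2 hp0
  have hGr : facGr S et p = ‖p‖ ^ 2 * ‖gradient et p‖ ^ 2 := by
    unfold facGr
    rw [fac_ext_Tg hC.tube hE hp hp0]
  have hGr0 : 0 ≤ facGr S et p := by rw [hGr]; positivity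
  have hT0 := fa_T_pos hε hl
  have hF0 : 0 ≤ facF S et ε lam om β σ p t := by
    unfold facF
    have := fa_cut_nonneg (2 * faT ε lam) (t - β - σ * et p)
    have := fa_E_nonneg hε (t - β - σ * et p)
    positivity
  set s := faS (gmtSimSd S) v p t with hs
  set y := faYs (gmtSimSd S) v p s with hy
  have hUfun : faU (gmtSimSd S) et ε lam v β σ = fun x => faProf ε lam (faW (gmtSimSd S) et v β σ x) := rfl
  rw [hUfun]
  by_cases hw : faT ε lam ≤ |faW (gmtSimSd S) et v β σ y|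
  · rw [fac_prof_out hε hl _ hw]
    exact hF0
  rw [not_le] at hw
  have hth : faTh (gmtSimSd S) v y = t := fa_th_ct hK hv1 hp0 hN hpN ht hc
  have hzy : faZy (gmtSimSd S) v y = p + s • gradient (gmtSimSd S) p := fa_Zy_ct hK hv1 hc
  have hz2 : ‖p + s • gradient (gmtSimSd S) p‖ ^ 2 = ‖p‖ ^ 2 + s ^ 2 := by
    rw [norm_add_sq_real, inner_smul_right, hpN, norm_smul, hN, Real.norm_eq_abs, mul_one, sq_abs]
    ring
  have hz0 : p + s • gradient (gmtSimSd S) p ≠ 0 := by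
    intro h0
    rw [h0, norm_zero] at hz2
    nlinarith [sq_nonneg s]
  have hwy : faW (gmtSimSd S) et v β σ y = t - β - σ * et (p + s • gradient (gmtSimSd S) p) := by
    unfold faW
    rw [hth, hzy]
  -- `|t|` is small
  have htρ : |t| ≤ ρ := by
    have h1 : t = faW (gmtSimSd S) et v β σ y + β + σ * et (p + s • gradient (gmtSimSd S) p) := by rw [hwy]; ring
    have h2 : |σ * et (p + s • gradient (gmtSimSd S) p)| ≤ r₁ * Me := by
      rw [abs_mul]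
      exact mul_le_mul hσ (hMe _ hz0) (abs_nonneg _) hr₁0.le
    calc |t| = |faW (gmtSimSd S) et v β σ y + β + σ * et (p + s • gradient (gmtSimSd S) p)| := by rw [← h1]
      _ ≤ |faW (gmtSimSd S) et v β σ y| + |β| + |σ * et (p + s • gradient (gmtSimSd S) p)| := abs_add_three _ _ _
      _ ≤ r₁ + r₁ + r₁ * Me := by linarith
      _ = r₁ * (2 + Me) := by ring
      _ = ρ := hr₁M
  have hsm : |s| ≤ min κ (s₂ / 2) * ‖p‖ := hr' (gmtSimSd S) v p t hN (by linarith) (htρ.trans hρr)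
  have hs1 : |s| ≤ κ * ‖p‖ := hsm.trans (mul_le_mul_of_nonneg_right (min_le_left _ _) hpn.le)
  have hs2 : |s| < s₂ * ‖p‖ := by
    have h1 : |s| ≤ s₂ / 2 * ‖p‖ := hsm.trans (mul_le_mul_of_nonneg_right (min_le_right _ _) hpn.le)
    have h2 : 0 < s₂ * ‖p‖ := mul_pos hE.pos hpn
    linarith
  obtain ⟨hzV, hetz, hpz⟩ := fac_ct_geom hC hp hp0 hc hs2
  rw [hetz] at hwy
  have hzU := hE.sub hzV
  set z := p + s • gradient (gmtSimSd S) p with hz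
  have hdu : DifferentiableAt ℝ (gmtSimSd S) z :=
    (hT.smooth.contDiffAt (hT.opn.mem_nhds hzU)).differentiableAt (by simp)
  have hde : DifferentiableAt ℝ et z :=
    (hE.hom0.smooth.contDiffAt (isOpen_compl_singleton.mem_nhds hz0)).differentiableAt (by simp)
  have hy0 : y ≠ 0 := by
    intro h0
    have h1 := fa_Ys_norm (gmtSimSd S) hv1 hN hpN s
    rw [← hy, h0, norm_zero] at h1
    nlinarith [sq_nonneg (faBs (gmtSimSd S) v p s)]
  have heul : ⟪gradient et z, z⟫ = 0 := by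
    rw [real_inner_comm]
    exact kit_hom_euler (U := {0}ᶜ) (fun x _ r hr => hE.hom0.hom r hr x) hz0 hde
  obtain ⟨hdw, hgw⟩ := facg_main hK hv1 (y := y) (N := gradient (gmtSimSd S) z) hy0 (by rw [hzy]; exact hdu.hasGradientAt)
    (hT.eik z hzU) (et := et) (by rw [hzy]; exact hde) (by rw [hzy]; exact fac_ext_normal hC.tube hE hzV)
    (by rw [hzy]; exact heul) β σ
  rw [hzy] at hgw
  have hcos : 0 < Real.cos t := Real.cos_pos_of_mem_Ioo ht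
  have hyn : ‖y‖ = ‖p‖ / Real.cos t := fa_Ys_norm_ct (gmtSimSd S) hv1 hN hpN ht
  -- the key estimate
  have hkey : ‖y‖ ^ 2 * ‖gradient et z‖ ^ 2 ≤ facGr S et p + om := by
    have h1 : |‖z‖ ^ 2 * ‖gradient et z‖ ^ 2 - ‖p‖ ^ 2 * ‖gradient et p‖ ^ 2| ≤ om / 2 := by
      refine hκ p z hp0 ?_
      rw [hz, add_sub_cancel_left, norm_smul, hN, mul_one, Real.norm_eq_abs]
      exact hs1
    have h2 : ‖z‖ ^ 2 * ‖gradient et z‖ ^ 2 ≤ facGr S et p + om / 2 := by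
      rw [hGr]
      linarith [(abs_le.1 h1).2]
    have h3 : ‖p‖ ^ 2 * ‖gradient et z‖ ^ 2 ≤ facGr S et p + om / 2 :=
      (mul_le_mul_of_nonneg_right (pow_le_pow_left₀ hpn.le hpz 2) (sq_nonneg _)).trans h2
    have h4 : facGr S et p ≤ Mg := by
      rw [hGr]
      exact (le_abs_self _).trans (hMg p hp0)
    have h5 := fac_dens_arith ho hGr0 h4 hρ1 hρ0.le hρ2 htρ (Real.cos_sq' t)
    rw [hyn, div_pow, div_mul_eq_mul_div, div_le_iff₀ (by positivity)]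
    linarith
  have hen := fa_prof_energy hε hl hdw
  rw [if_pos hw, hgw] at hen
  refine hen.trans ?_
  unfold facF
  rw [hwy] at hw ⊢
  rw [fa_cut_one (by positivity) (by linarith : |t - β - σ * et p| ≤ 2 * faT ε lam / 2), one_mul]
  refine mul_le_mul_of_nonneg_left ?_ (fa_E_nonneg hε _)
  have h6 : σ ^ 2 * ‖y‖ ^ 2 * ‖gradient et z‖ ^ 2 ≤ σ ^ 2 * (facGr S et p + om) := by
    rw [mul_assoc]
    exact mul_le_mul_of_nonneg_left hkey (sq_nonneg _)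
  have h7 : 0 ≤ (1 + lam) ^ 2 := sq_nonneg _
  have h8 := mul_le_mul_of_nonneg_left (add_le_add_right h6 1) h7
  linarith

end Claimed.Agent.R323
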