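import Claimed.Agent.R323.Fa.Defs
import Claimed.Agent.R323.Kit.LinkE
import Claimed.Agent.R323.Kit.LinkIbp

/-!
# Row 323, block E, CENTRE, piece (a3): the extension `et = ζ · (η ∘ π)` of the extra direction.   Author: helper137.   Prefix `face_`.

`u = gmtSimSd S`, `π = gmtSimPi u`, `U` = the conic tube.     EXIT: `face_exists : ∃ et δ M L, FacEt S U η et δ M L` and the corollaries `FacEt.*`:
`ev` (`et = η ∘ π` near every point of the conic region `|u z| < δ |z|`), `diff`, `normal` (`⟪∇et, ∇u⟫ = 0` in the region), `euler` (`⟪∇et z, z⟫ = 0`),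
`on_cone`, `lip` (Lipschitz in `z/|z|`).      The formula `(1 + s H(p)) ∇et(p + s N) = ∇^T η(p)` is `fat_et` of helper257 (`Fa/Tub*.lean`).
-/

set_option autoImplicit false
open scoped ContDiff ENNReal NNReal RealInnerProductSpace Topology
open MeasureTheory Metric Set Filter

namespace Claimed.Agent.R323

open Claimed.Agent.Gmt

variable {n : ℕ}

/-- the extension package: `et` is `Hom0`, equals `η ∘ π` on the conic region `|u z| < δ |z|` (which lies in the tube), with bounds. -/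
structure FacEt (S U : Set (E n)) (η et : E n → ℝ) (δ M L : ℝ) : Prop where
  hom0 : Hom0 et
  pos : 0 < δ
  inU : ∀ z : E n, z ≠ 0 → |gmtSimSd S z| < δ * ‖z‖ → z ∈ U
  eq : ∀ z : E n, z ≠ 0 → |gmtSimSd S z| < δ * ‖z‖ → et z = η (gmtSimPi (gmtSimSd S) z)
  bdd : ∀ z, |et z| ≤ M
  grad : ∀ z : E n, z ≠ 0 → ‖z‖ * ‖gradient et z‖ ≤ L

/-- uniform width of an arbitrary open neighbourhood of the link (same proof as `kit_width`). -/
theorem face_width {S V : Set (E n)} (hS : MinCone n S) (hV : IsOpen V) (hlk : kitLk S ⊆ V) :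
    ∃ δ : ℝ, 0 < δ ∧ ∀ z : E n, ‖z‖ = 1 → |gmtSimSd S z| < δ → z ∈ V := by
  obtain ⟨δ₀, hδ₀, hsub⟩ := (kit_lk_compact S).exists_thickening_subset_open hV hlk
  have hne : (gmtBd S).Nonempty := ⟨0, hS.vert⟩
  refine ⟨min (δ₀ / 2) (1 / 2), by positivity, ?_⟩
  intro z hz hlt
  rw [gmtSim_abs_sd, Metric.infDist_lt_iff hne] at hlt
  obtain ⟨p, hp, hd⟩ := hlt
  have hd1 : dist z p < δ₀ / 2 := lt_of_lt_of_le hd (min_le_left _ _)
  have hd2 : dist z p < 1 / 2 := lt_of_lt_of_le hd (min_le_right _ _)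
  have hn : |‖z‖ - ‖p‖| ≤ dist z p := by
    rw [dist_eq_norm]
    exact abs_norm_sub_norm_le z p
  rw [hz] at hn
  have hn' := abs_le.1 hn
  have hp0 : 0 < ‖p‖ := by linarith [hn'.2]
  have hp0' : p ≠ 0 := norm_pos_iff.1 hp0
  have hq : kitRp p ∈ kitLk S := kit_rp_mem hS.cone hp hp0'
  have hpq : dist p (kitRp p) = |‖p‖ - 1| := by
    have : p - kitRp p = (‖p‖ - 1) • kitRp p := by rw [sub_smul, one_smul, kit_norm_smul_rp]
    rw [dist_eq_norm, this, norm_smul, kit_rp_norm hp0', mul_one, Real.norm_eq_abs]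
  have hzq : dist z (kitRp p) < δ₀ := by
    have h1 := dist_triangle z p (kitRp p)
    rw [hpq] at h1
    have h2 : |‖p‖ - 1| ≤ dist z p := by rw [abs_sub_comm]; exact hn
    linarith
  exact hsub (Metric.mem_thickening_iff.2 ⟨_, hq, hzq⟩)

/-- `η ∘ π` is a smooth `0`-homogeneous function on the tube. -/
theorem face_pi_fun {S U : Set (E n)} (hS : MinCone n S) (hU : KitTube S U) {η : E n → ℝ} (hη : Hom0 η) :
    KitFun U (fun z => η (gmtSimPi (gmtSimSd S) z)) := by
  constructor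
  · have hπ : ContDiffOn ℝ ∞ (gmtSimPi (gmtSimSd S)) U :=
      contDiffOn_id.sub (hU.cone.smooth.smul (gmtSim_contDiffOn_gradient hU.cone.opn hU.cone.smooth))
    refine hη.smooth.comp hπ ?_
    intro z hz h0
    have h1 := (hU.cone.proj z hz).1
    rw [mem_singleton_iff.1 h0] at h1
    exact hU.cone.zero h1
  · intro x _ t ht
    rw [kit_pi_smul ht (fun y => gmtSim_sd_smul hS.cone ht y), hη.hom t ht]

theorem face_hom0_rp {f : E n → ℝ} (hf : Hom0 f) {z : E n} (hz : z ≠ 0) : f (kitRp z) = f z :=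
  hf.hom _ (inv_pos.2 (norm_pos_iff.2 hz)) z

/-- a `Hom0` function is bounded. -/
theorem face_hom0_bdd {f : E n → ℝ} (hf : Hom0 f) : ∃ M : ℝ, ∀ z, |f z| ≤ M := by
  have hc : ContinuousOn f (sphere (0 : E n) 1) := hf.smooth.continuousOn.mono fun x hx h0 => by
    rw [mem_singleton_iff.1 h0] at hx
    simp at hx
  obtain ⟨C, hC⟩ := (isCompact_sphere (0 : E n) 1).exists_bound_of_continuousOn hc
  refine ⟨max C |f 0|, fun z => ?_⟩
  by_cases hz : z = 0
  · rw [hz]; exact le_max_right _ _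
  · rw [← face_hom0_rp hf hz]
    exact (hC _ (by simpa using kit_rp_norm hz)).trans (le_max_left _ _)

/-- the gradient of a `Hom0` function is `O(1/|z|)`. -/
theorem face_hom0_grad {f : E n → ℝ} (hf : Hom0 f) : ∃ L : ℝ, ∀ z : E n, z ≠ 0 → ‖z‖ * ‖gradient f z‖ ≤ L := by
  have hg : ContDiffOn ℝ ∞ (gradient f) {0}ᶜ := gmtSim_contDiffOn_gradient isOpen_compl_singleton hf.smooth
  have hc : ContinuousOn (gradient f) (sphere (0 : E n) 1) := hg.continuousOn.mono fun x hx h0 => by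
    rw [mem_singleton_iff.1 h0] at hx
    simp at hx
  obtain ⟨C, hC⟩ := (isCompact_sphere (0 : E n) 1).exists_bound_of_continuousOn hc
  refine ⟨C, fun z hz => ?_⟩
  have hzn : 0 < ‖z‖ := norm_pos_iff.2 hz
  have h1 : gradient f (kitRp z) = ‖z‖ • gradient f z := by
    have := kit_hom_grad (U := {0}ᶜ) isOpen_compl_singleton (fun x _ t ht => hf.hom t ht x) (inv_pos.2 hzn) (x := z) hz
    rw [inv_inv] at this
    exact this
  have h2 := hC _ (by simpa using kit_rp_norm hz : kitRp z ∈ sphere (0 : E n) 1)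
  rw [h1, norm_smul, Real.norm_eq_abs, abs_of_pos hzn] at h2
  exact h2

/-- **existence of the extension.** -/
theorem face_exists {S U : Set (E n)} (hS : MinCone n S) (hU : KitTube S U) {η : E n → ℝ} (hη : Hom0 η) :
    ∃ et : E n → ℝ, ∃ δ M L : ℝ, FacEt S U η et δ M L := by
  obtain ⟨et, het, hev⟩ := kit_extend hS hU (face_pi_fun hS hU hη)
  obtain ⟨δ₁, hδ₁, hw₁⟩ := kit_width hS hU
  obtain ⟨δ₂, hδ₂, hw₂⟩ := face_width (V := {z | ∀ᶠ y in 𝓝 z, et y = η (gmtSimPi (gmtSimSd S) y)}) hS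
    isOpen_setOfPred_eventually_nhds (fun x hx => hev x hx.1 (fun h0 => by
      have := hx.2
      rw [h0] at this
      simp at this))
  obtain ⟨M, hM⟩ := face_hom0_bdd het
  obtain ⟨L, hL⟩ := face_hom0_grad het
  refine ⟨et, min δ₁ δ₂, M, L, het, lt_min hδ₁ hδ₂, ?_, ?_, hM, hL⟩
  · intro z hz hlt
    exact hw₁ z hz (hlt.trans_le (mul_le_mul_of_nonneg_right (min_le_left _ _) (norm_nonneg _)))
  · intro z hz hlt
    have hzn : 0 < ‖z‖ := norm_pos_iff.2 hz
    have h1 : |gmtSimSd S (kitRp z)| < δ₂ := by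
      unfold kitRp
      rw [gmtSim_sd_smul hS.cone (inv_pos.2 hzn), abs_mul, abs_of_pos (inv_pos.2 hzn), inv_mul_lt_iff₀ hzn, mul_comm]
      exact hlt.trans_le (mul_le_mul_of_nonneg_right (min_le_right _ _) (norm_nonneg _))
    have h2 : et (kitRp z) = η (gmtSimPi (gmtSimSd S) (kitRp z)) := (hw₂ _ (kit_rp_norm hz) h1).self_of_nhds
    rw [face_hom0_rp het hz] at h2
    rw [h2]
    unfold kitRp
    rw [kit_pi_smul (inv_pos.2 hzn) (fun y => gmtSim_sd_smul hS.cone (inv_pos.2 hzn) y), hη.hom _ (inv_pos.2 hzn)]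

/-! ### corollaries -/

/-- the conic region is open. -/
theorem face_region_isOpen (S : Set (E n)) (δ : ℝ) : IsOpen {z : E n | z ≠ 0 ∧ |gmtSimSd S z| < δ * ‖z‖} := by
  have hc : Continuous (gmtSimSd S) := (kit_sd_lip S).continuous
  exact isOpen_ne.inter (isOpen_lt hc.abs (continuous_const.mul continuous_norm))

variable {S U : Set (E n)} {η et : E n → ℝ} {δ M L : ℝ}

theorem FacEt.ev (h : FacEt S U η et δ M L) {z : E n} (hz : z ≠ 0) (hlt : |gmtSimSd S z| < δ * ‖z‖) :
    et =ᶠ[𝓝 z] fun x => η (gmtSimPi (gmtSimSd S) x) := by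
  filter_upwards [(face_region_isOpen S δ).mem_nhds ⟨hz, hlt⟩] with x hx
  exact h.eq x hx.1 hx.2

theorem FacEt.contDiffAt (h : FacEt S U η et δ M L) {z : E n} (hz : z ≠ 0) : ContDiffAt ℝ ∞ et z :=
  h.hom0.smooth.contDiffAt (isOpen_compl_singleton.mem_nhds hz)

theorem FacEt.diff (h : FacEt S U η et δ M L) {z : E n} (hz : z ≠ 0) : DifferentiableAt ℝ et z :=
  (h.contDiffAt hz).differentiableAt (by simp)

theorem FacEt.euler (h : FacEt S U η et δ M L) {z : E n} (hz : z ≠ 0) : ⟪gradient et z, z⟫ = 0 := by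
  rw [real_inner_comm]
  exact kit_hom_euler (U := {0}ᶜ) (fun x _ t ht => h.hom0.hom t ht x) hz (h.diff hz)

/-- the derivative of the projection `π = id - u ∇u` in the tube. -/
theorem face_pi_hasFDerivAt {u : E n → ℝ} (hT : GmtSimTube S U u) {z : E n} (hz : z ∈ U) :
    HasFDerivAt (gmtSimPi u) (ContinuousLinearMap.id ℝ (E n) -
        (u z • gmtSimH u z + (fderiv ℝ u z).smulRight (gradient u z))) z := by
  have hdu : HasFDerivAt u (fderiv ℝ u z) z :=
    ((hT.smooth.contDiffAt (hT.opn.mem_nhds hz)).differentiableAt (by simp)).hasFDerivAt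
  have hdN : HasFDerivAt (gradient u) (gmtSimH u z) z :=
    (((gmtSim_contDiffOn_gradient hT.opn hT.smooth).contDiffAt
      (hT.opn.mem_nhds hz)).differentiableAt (by simp)).hasFDerivAt
  exact (hasFDerivAt_id (𝕜 := ℝ) z).sub (hdu.smul hdN)

/-- `Dπ(z) N(z) = 0`. -/
theorem face_pi_normal {u : E n → ℝ} (hT : GmtSimTube S U u) {z : E n} (hz : z ∈ U) :
    (ContinuousLinearMap.id ℝ (E n) - (u z • gmtSimH u z + (fderiv ℝ u z).smulRight (gradient u z))) (gradient u z) = 0 := by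
  have h1 : gmtSimH u z (gradient u z) = 0 := gmtSim_H_gradient hT.opn hT.smooth hT.eik hz
  have h2 : fderiv ℝ u z (gradient u z) = 1 := by
    rw [← gmtSim_inner_gradient, real_inner_self_eq_norm_sq, hT.eik z hz, one_pow]
  simp [h1, h2]

theorem FacEt.normal (h : FacEt S U η et δ M L) (hU : KitTube S U) (hη : Hom0 η) {z : E n} (hz : z ≠ 0)
    (hlt : |gmtSimSd S z| < δ * ‖z‖) : ⟪gradient et z, gradient (gmtSimSd S) z⟫ = 0 := by
  have hzU : z ∈ U := h.inU z hz hlt
  have hT : GmtSimTube S U (gmtSimSd S) := hU.cone.toGmtSimTube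
  have hp0 : gmtSimPi (gmtSimSd S) z ≠ 0 := fun h0 => hT.zero (h0 ▸ (hT.proj z hzU).1)
  have hdη : HasFDerivAt η (fderiv ℝ η (gmtSimPi (gmtSimSd S) z)) (gmtSimPi (gmtSimSd S) z) :=
    ((hη.smooth.contDiffAt (isOpen_compl_singleton.mem_nhds hp0)).differentiableAt (by simp)).hasFDerivAt
  have h1 := hdη.comp z (face_pi_hasFDerivAt hT hzU)
  have h2 : fderiv ℝ et z = _ := ((h.ev hz hlt).fderiv_eq).trans h1.fderiv
  rw [gmtSim_inner_gradient, h2, ContinuousLinearMap.comp_apply, face_pi_normal hT hzU, map_zero]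

theorem FacEt.on_cone (h : FacEt S U η et δ M L) {p : E n} (hp : p ∈ gmtBd S) (hp0 : p ≠ 0) : et p = η p := by
  have h0 : gmtSimSd S p = 0 := by
    have := gmtSim_abs_sd S p
    rw [Metric.infDist_zero_of_mem hp] at this
    exact abs_eq_zero.1 this
  have h1 := h.eq p hp0 (by rw [h0, abs_zero]; exact mul_pos h.pos (norm_pos_iff.2 hp0))
  rw [h1]
  unfold gmtSimPi
  rw [h0, zero_smul, sub_zero]

/-- Lipschitz bound on the unit sphere. -/
theorem FacEt.lip_sphere (h : FacEt S U η et δ M L) {a b : E n} (ha : ‖a‖ = 1) (hb : ‖b‖ = 1) :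
    |et a - et b| ≤ max (2 * L) (2 * M) * ‖a - b‖ := by
  have hM : 0 ≤ M := (abs_nonneg _).trans (h.bdd 0)
  rcases le_or_gt 1 ‖a - b‖ with h1 | h1
  · have h2 : |et a - et b| ≤ 2 * M := by
      have := abs_sub (et a) (et b)
      linarith [h.bdd a, h.bdd b]
    calc |et a - et b| ≤ 2 * M := h2
      _ ≤ 2 * M * ‖a - b‖ := le_mul_of_one_le_right (by positivity) h1
      _ ≤ _ := mul_le_mul_of_nonneg_right (le_max_right _ _) (norm_nonneg _)
  · have hseg : ∀ x ∈ segment ℝ a b, 1 / 2 ≤ ‖x‖ := by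
      intro x hx
      rw [segment_eq_image_lineMap] at hx
      obtain ⟨t, ht, rfl⟩ := hx
      rw [AffineMap.lineMap_apply_module']
      rcases le_total t (1 / 2) with ht2 | ht2
      · have e1 : ‖t • (b - a)‖ ≤ 1 / 2 := by
          rw [norm_smul, Real.norm_eq_abs, abs_of_nonneg ht.1, norm_sub_rev]
          nlinarith [norm_nonneg (a - b), ht.1]
        have e2 := norm_sub_le_norm_add a (t • (b - a))
        have e3 : ‖a‖ - ‖t • (b - a)‖ ≤ ‖t • (b - a) + a‖ := by
          have := norm_sub_norm_le a (-(t • (b - a)))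
          rw [norm_neg, sub_neg_eq_add, add_comm] at this
          exact this
        rw [ha] at e3
        linarith
      · have e0 : t • (b - a) + a = b - (1 - t) • (b - a) := by
          rw [sub_smul, one_smul]; abel
        have e1 : ‖(1 - t) • (b - a)‖ ≤ 1 / 2 := by
          rw [norm_smul, Real.norm_eq_abs, abs_of_nonneg (by linarith [ht.2]), norm_sub_rev]
          nlinarith [norm_nonneg (a - b), ht.2]
        have e3 := norm_sub_norm_le b ((1 - t) • (b - a))
        rw [hb] at e3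
        rw [e0]
        linarith
    have hne : ∀ x ∈ segment ℝ a b, x ≠ 0 := by
      intro x hx h0
      have := hseg x hx
      rw [h0, norm_zero] at this
      linarith
    have hbound : ∀ x ∈ segment ℝ a b, ‖fderiv ℝ et x‖ ≤ 2 * L := by
      intro x hx
      have e1 : ‖gradient et x‖ = ‖fderiv ℝ et x‖ := by
        unfold gradient
        exact LinearIsometryEquiv.norm_map _ _
      have e2 := h.grad x (hne x hx)
      rw [e1] at e2
      nlinarith [hseg x hx, norm_nonneg (fderiv ℝ et x)]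
    have := Convex.norm_image_sub_le_of_norm_fderiv_le (𝕜 := ℝ) (fun x hx => h.diff (hne x hx)) hbound
      (convex_segment a b) (right_mem_segment ℝ a b) (left_mem_segment ℝ a b)
    rw [Real.norm_eq_abs] at this
    exact this.trans (mul_le_mul_of_nonneg_right (le_max_left _ _) (norm_nonneg _))

theorem FacEt.lip (h : FacEt S U η et δ M L) {z z' : E n} (hz : z ≠ 0) (hz' : z' ≠ 0) :
    |et z - et z'| ≤ max (2 * L) (2 * M) * ‖kitRp z - kitRp z'‖ := by
  rw [← face_hom0_rp h.hom0 hz, ← face_hom0_rp h.hom0 hz']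
  exact h.lip_sphere (kit_rp_norm hz) (kit_rp_norm hz')

end Claimed.Agent.R323
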