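import Claimed.Agent.R323.Fa.CenDefs
import Claimed.Agent.R323.Fa.CenEt

/-!
# Row 323, block E4 (centre), C1: THE EXTENSION `et` OF THE EXTRA INDEX DIRECTION.   Architect: helper56.   Prefix `fac`.

`u = gmtSimSd S`, `N = ∇u`, `π = gmtSimPi u`, `π z = z - u z N z`, conic tube `U` (`KitTube S U`).
-/

set_option autoImplicit false
open scoped ContDiff ENNReal NNReal RealInnerProductSpace Topology
open MeasureTheory Metric Set Filter

namespace Claimed.Agent.R323

open Claimed.Agent.Gmt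

variable {n : ℕ}

/-- **L-FAC-ETA-A** (uniform width of an arbitrary conic neighbourhood of the link).   COPY the proof of `kit_width` (`Kit/Link.lean`): it only uses that `U` is open, conic and contains `kitLk S`. -/
theorem fac_width {S W : Set (E n)} (hS : MinCone n S) (hW : IsOpen W) (hsub : kitLk S ⊆ W)
    (hcon : ∀ x ∈ W, ∀ t : ℝ, 0 < t → t • x ∈ W) :
    ∃ δ : ℝ, 0 < δ ∧ ∀ z : E n, z ≠ 0 → |gmtSimSd S z| < δ * ‖z‖ → z ∈ W := by
  obtain ⟨δ, hδ, h⟩ := face_width hS hW hsub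
  refine ⟨δ, hδ, fun z hz hlt => ?_⟩
  have hzn : 0 < ‖z‖ := norm_pos_iff.2 hz
  have h1 : |gmtSimSd S (kitRp z)| < δ := by
    unfold kitRp
    rw [gmtSim_sd_smul hS.cone (inv_pos.2 hzn), abs_mul, abs_of_pos (inv_pos.2 hzn), inv_mul_lt_iff₀ hzn, mul_comm]
    exact hlt
  have := hcon _ (h _ (kit_rp_norm hz) h1) ‖z‖ hzn
  rwa [kit_norm_smul_rp] at this

theorem fac_V_isOpen (S : Set (E n)) (s₂ : ℝ) : IsOpen (facV S s₂) := by
  have h1 : Continuous (gmtSimSd S) := (kit_sd_lip S).continuous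
  exact isOpen_ne.inter (isOpen_lt h1.abs (continuous_const.mul continuous_norm))

/-- **L-FAC-ETA-B**: `Dπ(z) = 1 - N⊗N - u(z) H(z)`.   (`HasFDerivAt u (innerSL ℝ (∇u z)) z`, `HasFDerivAt (gradient u) (gmtSimH u z) z` from `gmtSim_contDiffOn_gradient`; `HasFDerivAt.smul`.) -/
theorem fac_pi_hasFDerivAt {U : Set (E n)} {u : E n → ℝ} (hU : IsOpen U) (hu : ContDiffOn ℝ ∞ u U) {z : E n} (hz : z ∈ U) :
    HasFDerivAt (gmtSimPi u) (1 - gmtSimR1 (gradient u z) (gradient u z) - u z • gmtSimH u z) z := by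
  have hdu : HasFDerivAt u (fderiv ℝ u z) z :=
    ((hu.contDiffAt (hU.mem_nhds hz)).differentiableAt (by simp)).hasFDerivAt
  have hdN : HasFDerivAt (gradient u) (gmtSimH u z) z :=
    (((gmtSim_contDiffOn_gradient hU hu).contDiffAt (hU.mem_nhds hz)).differentiableAt (by simp)).hasFDerivAt
  have h := (hasFDerivAt_id (𝕜 := ℝ) z).sub (hdu.smul hdN)
  have e : ContinuousLinearMap.id ℝ (E n) - (u z • gmtSimH u z + (fderiv ℝ u z).smulRight (gradient u z))
      = 1 - gmtSimR1 (gradient u z) (gradient u z) - u z • gmtSimH u z := by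
    ext1 w
    simp only [gmtSimR1, _root_.sub_apply, _root_.add_apply, ContinuousLinearMap.smulRight_apply,
      ContinuousLinearMap.id_apply, one_apply_eq_self, innerSL_apply_apply, gmtSim_inner_gradient]
    abel
  rw [← e]
  exact h

/-- **L-FAC-ETA-C**: `et = et ∘ π` on the open set `V` ⟹ `⟪∇et(z), N(z)⟫ = D et(z) N(z) = D et(π z) (Dπ(z) N(z)) = 0` (`gmtSim_inner_gradient`), because `Dπ(z) N = N - |N|² N - u H N = 0` (`gmtSim_H_gradient`, `eik`).
(`et` is differentiable at `π z ≠ 0`: `π z ∈ U`, `0 ∉ U`.   `Filter.EventuallyEq.fderiv_eq`, `fderiv_comp`.) -/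
theorem fac_ext_normal {S U : Set (E n)} {et : E n → ℝ} {s₂ : ℝ} (hU : KitTube S U) (hE : FacExt S U et s₂) {z : E n}
    (hz : z ∈ facV S s₂) : ⟪gradient et z, gradient (gmtSimSd S) z⟫ = 0 := by
  have hzU : z ∈ U := hE.sub hz
  have hT : GmtSimTube S U (gmtSimSd S) := hU.cone.toGmtSimTube
  have hp0 : gmtSimPi (gmtSimSd S) z ≠ 0 := fun h0 => hT.zero (h0 ▸ (hT.proj z hzU).1)
  have hd : HasFDerivAt et (fderiv ℝ et (gmtSimPi (gmtSimSd S) z)) (gmtSimPi (gmtSimSd S) z) :=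
    ((hE.hom0.smooth.contDiffAt (isOpen_compl_singleton.mem_nhds hp0)).differentiableAt (by simp)).hasFDerivAt
  have h1 := hd.comp z (face_pi_hasFDerivAt hT hzU)
  have hev : et =ᶠ[𝓝 z] et ∘ gmtSimPi (gmtSimSd S) := by
    filter_upwards [(fac_V_isOpen S s₂).mem_nhds hz] with x hx
    exact hE.proj x hx
  have h2 : fderiv ℝ et z = _ := hev.fderiv_eq.trans h1.fderiv
  rw [gmtSim_inner_gradient, h2, ContinuousLinearMap.comp_apply, face_pi_normal hT hzU, map_zero]

/-- consequence on the cone: the full gradient is tangential. -/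
theorem fac_ext_Tg {S U : Set (E n)} {et : E n → ℝ} {s₂ : ℝ} (hU : KitTube S U) (hE : FacExt S U et s₂) {p : E n}
    (hp : p ∈ gmtBd S) (hp0 : p ≠ 0) : gmtSimTg (gmtSimSd S) et et p = ‖gradient et p‖ ^ 2 := by
  have h0 : gmtSimSd S p = 0 := by
    have := gmtSim_abs_sd S p
    rw [Metric.infDist_zero_of_mem hp] at this
    exact abs_eq_zero.1 this
  have hV : p ∈ facV S s₂ := ⟨hp0, by rw [h0, abs_zero]; exact mul_pos hE.pos (norm_pos_iff.2 hp0)⟩
  unfold gmtSimTg
  rw [fac_ext_normal hU hE hV, real_inner_self_eq_norm_sq]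
  ring

/-- on the cone the gradient of `η ∘ π` is the tangential part of `∇η`. -/
theorem fac_eta_grad {S U : Set (E n)} {η et : E n → ℝ} {δ M L : ℝ} (hU : KitTube S U) (hη : Hom0 η)
    (he : FacEt S U η et δ M L) {p : E n} (hp : p ∈ gmtBd S) (hp0 : p ≠ 0) :
    gradient et p = gradient η p - ⟪gradient η p, gradient (gmtSimSd S) p⟫ • gradient (gmtSimSd S) p := by
  have h0 : gmtSimSd S p = 0 := by
    have := gmtSim_abs_sd S p
    rw [Metric.infDist_zero_of_mem hp] at this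
    exact abs_eq_zero.1 this
  have hlt : |gmtSimSd S p| < δ * ‖p‖ := by rw [h0, abs_zero]; exact mul_pos he.pos (norm_pos_iff.2 hp0)
  have hpU : p ∈ U := hU.cone.bd p hp hp0
  have hT : GmtSimTube S U (gmtSimSd S) := hU.cone.toGmtSimTube
  have hπ : gmtSimPi (gmtSimSd S) p = p := by
    unfold gmtSimPi
    rw [h0, zero_smul, sub_zero]
  have hd : HasFDerivAt η (fderiv ℝ η p) (gmtSimPi (gmtSimSd S) p) := by
    rw [hπ]
    exact ((hη.smooth.contDiffAt (isOpen_compl_singleton.mem_nhds hp0)).differentiableAt (by simp)).hasFDerivAt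
  have h1 := hd.comp p (face_pi_hasFDerivAt hT hpU)
  have h2 : fderiv ℝ et p = _ := ((he.ev hp0 hlt).fderiv_eq).trans h1.fderiv
  refine ext_inner_right ℝ fun w => ?_
  rw [gmtSim_inner_gradient, h2, inner_sub_left, inner_smul_left, gmtSim_inner_gradient, gmtSim_inner_gradient,
    gmtSim_inner_gradient]
  simp only [ContinuousLinearMap.comp_apply, _root_.sub_apply, _root_.add_apply, _root_.smul_apply,
    ContinuousLinearMap.smulRight_apply, ContinuousLinearMap.id_apply, h0, zero_smul, map_sub, map_smul, smul_eq_mul,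
    conj_trivial, zero_add]
  ring

/-- `gmtSimTg u et χ = gmtSimTg u η χ` on the cone, for every `χ`. -/
theorem fac_eta_Tg {S U : Set (E n)} {η et : E n → ℝ} {δ M L : ℝ} (hU : KitTube S U) (hη : Hom0 η)
    (he : FacEt S U η et δ M L) {p : E n} (hp : p ∈ gmtBd S) (hp0 : p ≠ 0) (χ : E n → ℝ) :
    gmtSimTg (gmtSimSd S) et χ p = gmtSimTg (gmtSimSd S) η χ p := by
  have hN : ‖gradient (gmtSimSd S) p‖ = 1 := hU.cone.eik p (hU.cone.bd p hp hp0)
  unfold gmtSimTg
  rw [fac_eta_grad hU hη he hp hp0]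
  simp only [inner_sub_left, inner_smul_left, conj_trivial, real_inner_self_eq_norm_sq, hN]
  rw [real_inner_comm (gradient χ p) (gradient (gmtSimSd S) p)]
  ring

theorem fac_Tg_comm (u f g : E n → ℝ) (p : E n) : gmtSimTg u f g p = gmtSimTg u g f p := by
  unfold gmtSimTg
  rw [real_inner_comm]
  ring

/-- `jacB S et χ = jacB S η χ'` if `χ = χ'` and `gmtSimTg u η χ = gmtSimTg u η χ'` on the cone. -/
theorem fac_eta_jacB {S U : Set (E n)} {η et : E n → ℝ} {δ M L : ℝ} (hn : 2 ≤ n) (hS : MinCone n S) (hU : KitTube S U) (hη : Hom0 η)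
    (he : FacEt S U η et δ M L) (χ : E n → ℝ) : jacB S et χ = jacB S η χ := by
  unfold jacB
  congr 1
  refine integral_congr_ae (ae_restrict_of_ae ?_)
  filter_upwards [kit_ae_bd hn hS] with x hx
  simp only [fac_eta_Tg hU hη he hx.1 hx.2 χ, he.on_cone hx.1 hx.2]

/-- **L-FAC-ETA-D** (the construction).   `η` from `hx`.   `f = η ∘ π` is `KitFun U` (`π` smooth on `U`, `π z ∈ U ⊆ {0}ᶜ`, `kit_pi_smul`); `kit_extend` gives `et`, `Hom0`, with `et =ᶠ[𝓝 x] f` along the cone.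
`W = {z ∈ U | et =ᶠ[𝓝 z] f}` is open (`isOpen_setOf_eventually_nhds`), conic (both functions are `0`-homogeneous on the conic `U`; push the germ by the homeomorphism `t • ·`), contains the link: `fac_width` gives `s₂`.
`proj`: for `z ∈ V`: `et z = η (π z)`; `π z ∈ gmtBd S \ 0` (`hU.cone.proj`, `zero_iff`), so `et (π z) = f (π z) = η (π (π z)) = η (π z)` (`u (π z) = 0`).
INDEX: at `p ∈ gmtBd S \ 0`: `et p = η p`, `∇et(p) = ∇f(p) = (1 - N⊗N) ∇η(p)` (`fac_pi_hasFDerivAt`, `u p = 0`), so `gmtSimTg u et χ p = gmtSimTg u η χ p` for EVERY `χ` and (symmetry) `gmtSimTg u et et p = gmtSimTg u η η p`;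
the integrands of `jacB` agree `μ`-a.e. (`kit_ae_bd`, `setIntegral_congr_ae` / `integral_congr_ae` + `ae_restrict_of_ae`). -/
theorem fac_eta {S U : Set (E n)} (hn : 2 ≤ n) (hS : MinCone n S) (hU : KitTube S U) (hx : ExtraIndex S) :
    ∃ (et : E n → ℝ) (s₂ : ℝ), FacExt S U et s₂ ∧ jacB S et (fun _ => 1) = 0 ∧
      (∀ a : E n, jacB S et (fun x => ⟪a, x⟫ / ‖x‖) = 0) ∧ 0 < jacB S et et := by
  obtain ⟨η, hη, h1, h2, h3⟩ := hx
  obtain ⟨et, δ, M, L, he⟩ := face_exists hS hU hη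
  refine ⟨et, δ, ⟨he.hom0, he.pos, fun z hz => he.inU z hz.1 hz.2, fun z hz => ?_⟩, ?_, fun a => ?_, ?_⟩
  · have hzU : z ∈ U := he.inU z hz.1 hz.2
    have hpr := hU.cone.proj z hzU
    have hp0 : gmtSimPi (gmtSimSd S) z ≠ 0 := fun h0 => hU.cone.zero (h0 ▸ hpr.1)
    rw [he.eq z hz.1 hz.2, he.on_cone ((hU.cone.zero_iff _ hpr.1).1 hpr.2) hp0]
  · rw [fac_eta_jacB hn hS hU hη he, h1]
  · rw [fac_eta_jacB hn hS hU hη he, h2 a]
  · have e : jacB S η et = jacB S η η := by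
      unfold jacB
      congr 1
      refine integral_congr_ae (ae_restrict_of_ae ?_)
      filter_upwards [kit_ae_bd hn hS] with x hx
      simp only [fac_Tg_comm (gmtSimSd S) η et x, fac_eta_Tg hU hη he hx.1 hx.2 η, he.on_cone hx.1 hx.2]
    rw [fac_eta_jacB hn hS hU hη he, e]
    exact h3

end Claimed.Agent.R323
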