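import Claimed.Agent.R323.Fa.CenDefs

/-!
# Row 323, block E4 (centre): continuity and homogeneity of `facGr`, `facP`, `facq` on the conic tube.   helper56.   Prefix `fac`.
-/

set_option autoImplicit false
open scoped ContDiff ENNReal NNReal RealInnerProductSpace Topology
open MeasureTheory Metric Set Filter

namespace Claimed.Agent.R323

open Claimed.Agent.Gmt

variable {n : ℕ} {S U : Set (E n)} {et : E n → ℝ}

theorem fac_sub_compl (hU : KitTube S U) : U ⊆ ({0}ᶜ : Set (E n)) := fun x hx h0 => by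
  rw [mem_singleton_iff] at h0
  exact hU.cone.zero (h0 ▸ hx)

theorem fac_et_cont (hU : KitTube S U) (het : Hom0 et) : ContinuousOn et U :=
  het.smooth.continuousOn.mono (fac_sub_compl hU)

theorem fac_grad_et_cont (hU : KitTube S U) (het : Hom0 et) : ContinuousOn (gradient et) U :=
  (gmtSim_contDiffOn_gradient hU.cone.opn (het.smooth.mono (fac_sub_compl hU))).continuousOn

theorem fac_grad_u_cont (hU : KitTube S U) : ContinuousOn (gradient (gmtSimSd S)) U :=
  (gmtSim_contDiffOn_gradient hU.cone.opn hU.cone.smooth).continuousOn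

theorem fac_Gr_cont (hU : KitTube S U) (het : Hom0 et) : ContinuousOn (facGr S et) U := by
  unfold facGr gmtSimTg
  have h1 := fac_grad_et_cont hU het
  have h2 := fac_grad_u_cont hU
  exact (continuous_norm.pow 2).continuousOn.mul
    ((h1.inner h1).sub ((h1.inner h2).mul (h1.inner h2)))

theorem fac_P_cont (hU : KitTube S U) : ContinuousOn (facP S) U := by
  unfold facP
  exact (continuous_norm.pow 2).continuousOn.mul (gmtSim_contDiffOn_A hU.cone.opn hU.cone.smooth).continuousOn

theorem fac_lin_cont (hU : KitTube S U) (v : E n) : ContinuousOn (fun p : E n => ⟪v, p⟫ / ‖p‖) U := by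
  refine ContinuousOn.div (by fun_prop) continuous_norm.continuousOn fun p hp => ?_
  exact norm_ne_zero_iff.2 (fac_sub_compl hU hp)

theorem fac_q_cont (hU : KitTube S U) (het : Hom0 et) (v : E n) (β σ : ℝ) : ContinuousOn (facq S et v β σ) U := by
  unfold facq
  have h1 := fac_et_cont hU het
  have h2 := fac_P_cont hU
  have h3 := fac_Gr_cont hU het
  have h4 := fac_lin_cont hU v
  have h5 : ContinuousOn (fun p => β + σ * et p) U := continuousOn_const.add (continuousOn_const.mul h1)
  exact ((continuousOn_const.mul (h5.pow 2)).add (h2.mul ((h5.add h4).pow 2))).sub (continuousOn_const.mul h3)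

theorem fac_Gr_hom (hS : GmtCone S) (hU : KitTube S U) (het : Hom0 et) {p : E n} (hp : p ∈ U) {t : ℝ} (ht : 0 < t) :
    facGr S et (t • p) = facGr S et p := by
  unfold facGr
  rw [kit_Tg_smul hU.cone.opn (Hom0.kitFun hU.cone.zero het) (Hom0.kitFun hU.cone.zero het) hp ht
    (fun y => gmtSim_sd_smul hS ht y), norm_smul, Real.norm_of_nonneg ht.le]
  field_simp

theorem fac_P_hom (hS : GmtCone S) {t : ℝ} (ht : 0 < t) (p : E n) : facP S (t • p) = facP S p := by
  unfold facP
  rw [gmtSim_A_smul ht (fun y => gmtSim_sd_smul hS ht y), norm_smul, Real.norm_of_nonneg ht.le]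
  field_simp

theorem fac_lin_hom (v : E n) {t : ℝ} (ht : 0 < t) (p : E n) : ⟪v, t • p⟫ / ‖t • p‖ = ⟪v, p⟫ / ‖p‖ := by
  rw [inner_smul_right, norm_smul, Real.norm_of_nonneg ht.le, mul_div_mul_left _ _ ht.ne']

theorem fac_q_hom (hS : GmtCone S) (hU : KitTube S U) (het : Hom0 et) (v : E n) (β σ : ℝ) {p : E n} (hp : p ∈ U)
    {t : ℝ} (ht : 0 < t) : facq S et v β σ (t • p) = facq S et v β σ p := by
  unfold facq
  rw [fac_Gr_hom hS hU het hp ht, fac_P_hom hS ht, fac_lin_hom v ht, het.hom t ht]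

theorem fac_P_nonneg (S : Set (E n)) (p : E n) : 0 ≤ facP S p := by
  unfold facP gmtSimA
  positivity

/-- Cauchy-Schwarz: the tangential part of `|∇et|²` is nonnegative in the tube. -/
theorem fac_Gr_nonneg (hU : KitTube S U) (et : E n → ℝ) {p : E n} (hp : p ∈ U) : 0 ≤ facGr S et p := by
  unfold facGr gmtSimTg
  have h1 := hU.cone.eik p hp
  have h2 := abs_real_inner_le_norm (gradient et p) (gradient (gmtSimSd S) p)
  rw [h1, mul_one] at h2
  have h3 : ⟪gradient et p, gradient (gmtSimSd S) p⟫ ^ 2 ≤ ‖gradient et p‖ ^ 2 := by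
    rw [← sq_abs]
    exact pow_le_pow_left₀ (abs_nonneg _) h2 2
  rw [real_inner_self_eq_norm_sq]
  have : 0 ≤ ‖gradient et p‖ ^ 2 - ⟪gradient et p, gradient (gmtSimSd S) p⟫ * ⟪gradient et p, gradient (gmtSimSd S) p⟫ := by
    nlinarith
  positivity

/-- common bound on the cone. -/
theorem fac_bounds (hS : MinCone n S) (hU : KitTube S U) (het : Hom0 et) :
    ∃ M : ℝ, 0 ≤ M ∧ ∀ p ∈ gmtBd S, p ≠ 0 → |et p| ≤ M ∧ facGr S et p ≤ M ∧ facP S p ≤ M := by
  obtain ⟨M₁, h1⟩ := kit_bdd hS hU (fac_et_cont hU het) (fun x _ t ht => het.hom t ht x)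
  obtain ⟨M₂, h2⟩ := kit_bdd hS hU (fac_Gr_cont hU het) (fun x hx t ht => fac_Gr_hom hS.cone hU het hx ht)
  obtain ⟨M₃, h3⟩ := kit_bdd hS hU (fac_P_cont hU) (fun x _ t ht => fac_P_hom hS.cone ht x)
  refine ⟨max 0 (max M₁ (max M₂ M₃)), le_max_left _ _, fun p hp hp0 => ⟨?_, ?_, ?_⟩⟩
  · exact (h1 p hp hp0).trans ((le_max_left _ _).trans (le_max_right _ _))
  · exact (le_abs_self _).trans ((h2 p hp hp0).trans
      ((le_max_left _ _).trans ((le_max_right _ _).trans (le_max_right _ _))))
  · exact (le_abs_self _).trans ((h3 p hp hp0).trans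
      ((le_max_right _ _).trans ((le_max_right _ _).trans (le_max_right _ _))))

theorem fac_q_integrableOn (hn : 2 ≤ n) (hS : MinCone n S) (hU : KitTube S U) (het : Hom0 et) (v : E n) (β σ : ℝ) :
    IntegrableOn (facq S et v β σ) (ball 0 1) (gmtMu S) :=
  kit_integrableOn hn hS hU (fac_q_cont hU het v β σ) (fun x hx t ht => fac_q_hom hS.cone hU het v β σ hx ht) 1

end Claimed.Agent.R323
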