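import Claimed.Agent.R323.Fa.CenEta

/-!
# Row 323, block E4 (centre), C6: THE SECOND ORDER EXPANSION.   Architect: helper56.   Prefix `fac`.

`fac_cos_le`, `fac_real_k`, `fac_real`: REAL VARIABLES ONLY (Mathlib).   `fac_point`: the geometric form.
-/

set_option autoImplicit false
open scoped ContDiff ENNReal NNReal RealInnerProductSpace Topology
open MeasureTheory Metric Set Filter

namespace Claimed.Agent.R323

open Claimed.Agent.Gmt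

variable {n : ℕ}

/-- **L-FAC-REAL-A**.   `Real.cos_bound`: `cos t ≤ 1 - t²/2 + (5/96) t⁴`; `Real.exp_bound` (`n = 3`, `x = -t²/2`): `exp x ≥ 1 + x + x²/2 - (2/9)|x|³`; `7 t⁴/96 ≥ t⁶/36`. -/
theorem fac_cos_le {t : ℝ} (ht : |t| ≤ 1) : Real.cos t ≤ Real.exp (-(t ^ 2 / 2)) := by
  have h1 := (abs_le.1 (Real.cos_bound ht)).2
  have hsq : t ^ 2 ≤ 1 := by rw [← sq_abs]; exact pow_le_one₀ (abs_nonneg _) ht
  have hx : |-(t ^ 2 / 2)| ≤ 1 := by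
    rw [abs_neg, abs_of_nonneg (by positivity)]
    linarith
  have h2 := (abs_le.1 (Real.exp_bound hx (n := 3) (by norm_num))).1
  rw [abs_neg, abs_of_nonneg (by positivity : (0 : ℝ) ≤ t ^ 2 / 2)] at h2
  simp only [Finset.sum_range_succ, Finset.sum_range_zero, Nat.factorial] at h2
  norm_num at h2
  have e4 : |t| ^ 4 = (t ^ 2) ^ 2 := by rw [← sq_abs t]; ring
  rw [e4] at h1
  have h0 : 0 ≤ t ^ 2 := sq_nonneg t
  nlinarith [mul_nonneg (mul_nonneg h0 h0) (sub_nonneg.2 hsq)]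

/-- `tan` near `0`. -/
theorem fac_real_tan {t : ℝ} (ht : |t| ≤ 1 / 2) : |Real.tan t - t| ≤ 2 * |t| ^ 3 ∧ |Real.tan t| ≤ 2 * |t| := by
  have ht1 : |t| ≤ 1 := by linarith
  have h0 := abs_nonneg t
  have hsq : t ^ 2 = |t| ^ 2 := (sq_abs t).symm
  have hc : 7 / 8 ≤ Real.cos t := by
    have := Real.one_sub_sq_div_two_le_cos (x := t)
    nlinarith
  have hc1 : Real.cos t ≤ 1 := Real.cos_le_one t
  have hs := Real.sin_bound ht1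
  have hcpos : 0 < Real.cos t := by linarith
  have h1 : |Real.sin t - t * Real.cos t| ≤ |t| ^ 3 := by
    have e : Real.sin t - t * Real.cos t = (Real.sin t - (t - t ^ 3 / 6)) + (t * (1 - Real.cos t) - t ^ 3 / 6) := by ring
    rw [e]
    refine (abs_add_le _ _).trans ?_
    have h2 : |t * (1 - Real.cos t) - t ^ 3 / 6| ≤ |t| * (|t| ^ 2 / 2) + |t| ^ 3 / 6 := by
      refine (abs_sub _ _).trans ?_
      rw [abs_mul, abs_div, abs_pow, abs_of_nonneg (by linarith : 0 ≤ 1 - Real.cos t)]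
      have := Real.one_sub_sq_div_two_le_cos (x := t)
      have h3 : 1 - Real.cos t ≤ |t| ^ 2 / 2 := by rw [← hsq]; linarith
      have h4 : |(6 : ℝ)| = 6 := by norm_num
      rw [h4]
      have := mul_le_mul_of_nonneg_left h3 h0
      linarith
    have h5 : |t| ^ 5 ≤ |t| ^ 3 := pow_le_pow_of_le_one h0 ht1 (by norm_num)
    have h6 : 0 ≤ |t| ^ 3 := by positivity
    nlinarith
  have h2 : |Real.tan t - t| ≤ 2 * |t| ^ 3 := by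
    have e : Real.tan t - t = (Real.sin t - t * Real.cos t) / Real.cos t := by
      rw [Real.tan_eq_sin_div_cos]
      field_simp
    rw [e, abs_div, abs_of_pos hcpos, div_le_iff₀ hcpos]
    have h6 : 0 ≤ |t| ^ 3 := by positivity
    nlinarith
  refine ⟨h2, ?_⟩
  have h3 : |Real.tan t| ≤ |Real.tan t - t| + |t| := by
    have := abs_add_le (Real.tan t - t) t
    simpa using this
  have h4 : |t| ^ 3 ≤ |t| * (1 / 4) := by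
    have : |t| ^ 2 ≤ 1 / 4 := by nlinarith
    calc |t| ^ 3 = |t| * |t| ^ 2 := by ring
      _ ≤ _ := mul_le_mul_of_nonneg_left this h0
  linarith

/-- **L-FAC-REAL-B**.   `a = β + σ e`, `r² = ν² + β² + σ²`, `|a| ≤ (1+M) r`, `|t| ≤ |a| + 2T`.
`k - (a+f) = (tan t √(1-ν²) - a + (a+f) g)/(1-g)`, `1 - g ≥ 1/2`;  `|tan t - t| ≤ 2|t|³` for `|t| ≤ 1/2` (any constant),  `0 ≤ 1 - √(1-ν²) ≤ ν²`,  `|tan t| ≤ 2|t|`,  `|(a+f) g| ≤ (2+M) r²`. -/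
theorem fac_real_k (M : ℝ) (hM : 0 ≤ M) : ∃ C₁ : ℝ, 0 ≤ C₁ ∧ ∀ ν β σ e f g t T k : ℝ, 0 ≤ ν → ν ≤ 1 / 2 → |e| ≤ M → |f| ≤ ν → |g| ≤ ν →
    0 ≤ T → T ≤ 1 → |t - (β + σ * e)| ≤ 2 * T → |t| ≤ 1 / 2 → k = (Real.tan t * Real.sqrt (1 - ν ^ 2) + f) / (1 - g) →
      |k - (β + σ * e + f)| ≤ C₁ * (ν ^ 2 + β ^ 2 + σ ^ 2 + T) := by
  refine ⟨20 + 10 * M ^ 2, by positivity, ?_⟩
  intro ν β σ e f g t T k hν0 hν he hf hg hT0 hT hta ht hk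
  set a := β + σ * e with ha
  obtain ⟨htan1, htan2⟩ := fac_real_tan ht
  have hg1 : 1 / 2 ≤ 1 - g := by linarith [(abs_le.1 hg).2]
  have hgpos : 0 < 1 - g := by linarith
  have hsq1 : Real.sqrt (1 - ν ^ 2) ≤ 1 := Real.sqrt_le_one.2 (by nlinarith) 
  have hsq2 : 1 - ν ^ 2 ≤ Real.sqrt (1 - ν ^ 2) := by
    refine Real.le_sqrt_of_sq_le ?_
    have h1 : 0 ≤ ν ^ 2 := sq_nonneg ν
    have h2 : ν ^ 2 ≤ 1 := by nlinarith
    nlinarith [mul_nonneg h1 (sub_nonneg.2 h2)]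
  have e2 : e ^ 2 ≤ M ^ 2 := by rw [← sq_abs e]; exact pow_le_pow_left₀ (abs_nonneg _) he 2
  have ha2 : a ^ 2 ≤ 2 * β ^ 2 + 2 * M ^ 2 * σ ^ 2 := by
    have h1 : a ^ 2 ≤ 2 * β ^ 2 + 2 * (σ ^ 2 * e ^ 2) := by rw [ha]; nlinarith [sq_nonneg (β - σ * e)]
    have h2 : σ ^ 2 * e ^ 2 ≤ σ ^ 2 * M ^ 2 := mul_le_mul_of_nonneg_left e2 (sq_nonneg _)
    linarith
  have hta2 : (t - a) ^ 2 ≤ 4 * T := by
    have h1 : (t - a) ^ 2 ≤ (2 * T) ^ 2 := by rw [← sq_abs (t - a)]; exact pow_le_pow_left₀ (abs_nonneg _) hta 2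
    nlinarith
  have ht2 : t ^ 2 ≤ 2 * a ^ 2 + 8 * T := by nlinarith [sq_nonneg (t - 2 * a)]
  have h1 : |Real.tan t * (Real.sqrt (1 - ν ^ 2) - 1)| ≤ ν ^ 2 := by
    rw [abs_mul, abs_of_nonpos (by linarith : Real.sqrt (1 - ν ^ 2) - 1 ≤ 0)]
    have h3 : |Real.tan t| ≤ 1 := by linarith
    have h4 : 0 ≤ -(Real.sqrt (1 - ν ^ 2) - 1) := by linarith
    calc |Real.tan t| * -(Real.sqrt (1 - ν ^ 2) - 1) ≤ 1 * -(Real.sqrt (1 - ν ^ 2) - 1) := mul_le_mul_of_nonneg_right h3 h4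
      _ ≤ ν ^ 2 := by linarith
  have h2 : |Real.tan t - t| ≤ t ^ 2 := by
    refine htan1.trans ?_
    rw [← sq_abs t]
    nlinarith [abs_nonneg t, sq_nonneg (|t|)]
  have h3 : |(a + f) * g| ≤ a ^ 2 / 2 + 3 / 2 * ν ^ 2 := by
    rw [abs_mul]
    have h4 : |a + f| ≤ |a| + ν := (abs_add_le _ _).trans (by linarith)
    have h5 : |a + f| * |g| ≤ (|a| + ν) * ν := mul_le_mul h4 hg (abs_nonneg _) (by positivity)
    have h6 : a ^ 2 = |a| ^ 2 := (sq_abs a).symm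
    nlinarith [sq_nonneg (|a| - ν)]
  have hnum : |Real.tan t * Real.sqrt (1 - ν ^ 2) - a + (a + f) * g| ≤ 5 / 2 * ν ^ 2 + 5 / 2 * a ^ 2 + 10 * T := by
    have e : Real.tan t * Real.sqrt (1 - ν ^ 2) - a + (a + f) * g
        = Real.tan t * (Real.sqrt (1 - ν ^ 2) - 1) + (Real.tan t - t) + (t - a) + (a + f) * g := by ring
    rw [e]
    have := abs_add_le (Real.tan t * (Real.sqrt (1 - ν ^ 2) - 1) + (Real.tan t - t) + (t - a)) ((a + f) * g)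
    have := abs_add_le (Real.tan t * (Real.sqrt (1 - ν ^ 2) - 1) + (Real.tan t - t)) (t - a)
    have := abs_add_le (Real.tan t * (Real.sqrt (1 - ν ^ 2) - 1)) (Real.tan t - t)
    linarith
  have ek : k - (a + f) = (Real.tan t * Real.sqrt (1 - ν ^ 2) - a + (a + f) * g) / (1 - g) := by
    rw [hk]
    field_simp
    ring
  rw [ek, abs_div, abs_of_pos hgpos, div_le_iff₀ hgpos]
  have h7 : 0 ≤ (20 + 10 * M ^ 2) * (ν ^ 2 + β ^ 2 + σ ^ 2 + T) := by positivity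
  have h8 : 5 / 2 * ν ^ 2 + 5 / 2 * a ^ 2 + 10 * T ≤ (20 + 10 * M ^ 2) * (ν ^ 2 + β ^ 2 + σ ^ 2 + T) * (1 / 2) := by
    have : 0 ≤ M ^ 2 * (ν ^ 2 + β ^ 2 + T) := by positivity
    nlinarith [sq_nonneg ν, sq_nonneg β, sq_nonneg σ]
  exact hnum.trans (h8.trans (mul_le_mul_of_nonneg_left hg1 h7))

theorem fac_real_sq (x y : ℝ) : (x + y) ^ 2 ≤ 2 * x ^ 2 + 2 * y ^ 2 := by nlinarith [sq_nonneg (x - y)]

/-- the algebraic core of `fac_real`: all the constants are variables. -/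
theorem fac_real_core {M C₁ om r₀ mm c₂ c₃ c₄ c₇ c₈ : ℝ} (hM : 0 ≤ M) (hC₁ : 0 ≤ C₁) (ho : 0 < om) (hm : 0 ≤ mm) (hr0 : 0 < r₀)
    (hc₂ : c₂ = 2 * (2 + M) * C₁ + 5 / 2 * C₁ ^ 2) (hc₃ : c₃ = 2 * (2 * (2 + 2 * M ^ 2) + 2) + 5 / 2 * C₁ ^ 2)
    (hc₄ : c₄ = 2 + M + 5 / 2 * C₁) (hc₇ : c₇ = (M + om) / 2 + mm * (2 + 2 * M ^ 2 + 2) + M * c₃)
    (hc₈ : c₈ = M * c₂ / 2 + M * c₃ * (c₄ * (1 + M)) + 5 / 2 * c₇ ^ 2)
    (h1 : r₀ ≤ 1 / 2) (h2 : (3 + M) * r₀ ≤ 1 / 2) (h3 : c₄ * (1 + M) * r₀ ≤ 1 / 2) (h4 : 5 / 2 * c₇ * r₀ ≤ 1) (h5 : c₈ * r₀ ≤ om / 2)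
    {ν β σ e G P f t T k : ℝ} (hν0 : 0 ≤ ν) (hν : ν ≤ r₀) (hβ : |β| ≤ r₀) (hσ : |σ| ≤ r₀) (he : |e| ≤ M)
    (hG0 : 0 ≤ G) (hG : G ≤ M) (hP0 : 0 ≤ P) (hP : P ≤ M) (hf : |f| ≤ ν) (hT0 : 0 ≤ T) (hT : T ≤ r₀)
    (hta : |t - (β + σ * e)| ≤ 2 * T) (hk : |k - (β + σ * e + f)| ≤ C₁ * (ν ^ 2 + β ^ 2 + σ ^ 2 + T)) :
    k ^ 2 * P ≤ 1 / 4 ∧
      Real.exp (σ ^ 2 * (G + om) / 2 - mm * t ^ 2 / 2 - k ^ 2 * P / 2 + k ^ 2 * P * Real.sqrt (k ^ 2 * P))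
        ≤ 1 - (mm * (β + σ * e) ^ 2 + P * (β + σ * e + f) ^ 2 - σ ^ 2 * G) / 2 + om * (ν ^ 2 + β ^ 2 + σ ^ 2)
          + (mm * (2 + M) + c₈) * T := by
  obtain ⟨a, ha⟩ : ∃ a, a = β + σ * e := ⟨_, rfl⟩
  obtain ⟨b, hb⟩ : ∃ b, b = a + f := ⟨_, rfl⟩
  obtain ⟨r2, hr2⟩ : ∃ r2, r2 = ν ^ 2 + β ^ 2 + σ ^ 2 := ⟨_, rfl⟩
  obtain ⟨s, hs⟩ : ∃ s, s = r2 + T := ⟨_, rfl⟩
  obtain ⟨d, hd⟩ : ∃ d, d = k - b := ⟨_, rfl⟩
  rw [← ha] at hta hk ⊢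
  rw [← hb] at hk ⊢
  rw [← hr2] at hk ⊢
  rw [← hs, ← hd] at hk
  have hc₂0 : 0 ≤ c₂ := by rw [hc₂]; positivity
  have hc₃0 : 0 ≤ c₃ := by rw [hc₃]; positivity
  have hc₄0 : 0 ≤ c₄ := by rw [hc₄]; positivity
  have hc₇0 : 0 ≤ c₇ := by rw [hc₇]; positivity
  have hc₈0 : 0 ≤ c₈ := by rw [hc₈]; positivity
  have hβ2 : β ^ 2 ≤ r₀ ^ 2 := by rw [← sq_abs β]; exact pow_le_pow_left₀ (abs_nonneg _) hβ 2
  have hσ2 : σ ^ 2 ≤ r₀ ^ 2 := by rw [← sq_abs σ]; exact pow_le_pow_left₀ (abs_nonneg _) hσ 2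
  have hν2 : ν ^ 2 ≤ r₀ ^ 2 := pow_le_pow_left₀ hν0 hν 2
  have hr20 : 0 ≤ r2 := by rw [hr2]; positivity
  have hs0 : 0 ≤ s := by rw [hs]; positivity
  have hr2s : r2 ≤ s := by rw [hs]; linarith
  have hTs : T ≤ s := by rw [hs]; linarith
  have hs1 : s ≤ 5 / 2 * r₀ := by
    have h6 : r₀ ^ 2 = r₀ * r₀ := sq r₀
    have h7 := mul_le_mul_of_nonneg_left h1 hr0.le
    rw [hs, hr2]; linarith
  have e2 : e ^ 2 ≤ M ^ 2 := by rw [← sq_abs e]; exact pow_le_pow_left₀ (abs_nonneg _) he 2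
  -- bounds for `a`
  have ha1 : |a| ≤ (1 + M) * r₀ := by
    rw [ha]
    refine (abs_add_le _ _).trans ?_
    rw [abs_mul]
    have : |σ| * |e| ≤ r₀ * M := mul_le_mul hσ he (abs_nonneg _) hr0.le
    linarith
  have ha2 : a ^ 2 ≤ (2 + 2 * M ^ 2) * r2 := by
    have h6 : a ^ 2 ≤ 2 * β ^ 2 + 2 * (σ ^ 2 * e ^ 2) := by
      rw [ha]; have := fac_real_sq β (σ * e); linarith
    have h7 : σ ^ 2 * e ^ 2 ≤ σ ^ 2 * M ^ 2 := mul_le_mul_of_nonneg_left e2 (sq_nonneg _)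
    have h8 : 0 ≤ M ^ 2 * (ν ^ 2 + β ^ 2) := by positivity
    rw [hr2]
    linarith [sq_nonneg ν, sq_nonneg σ]
  -- bounds for `b`
  have hb1 : |b| ≤ (2 + M) * r₀ := by
    rw [hb]
    refine (abs_add_le _ _).trans ?_
    linarith
  have hf2 : f ^ 2 ≤ ν ^ 2 := by rw [← sq_abs f]; exact pow_le_pow_left₀ (abs_nonneg _) hf 2
  have hb2 : b ^ 2 ≤ (2 * (2 + 2 * M ^ 2) + 2) * r2 := by
    have h6 : b ^ 2 ≤ 2 * a ^ 2 + 2 * f ^ 2 := by rw [hb]; exact fac_real_sq a f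
    have h7 : ν ^ 2 ≤ r2 := by rw [hr2]; linarith [sq_nonneg β, sq_nonneg σ]
    linarith
  -- bounds for `d`, `k`
  have hd1 : |d| ≤ 5 / 2 * C₁ * r₀ := hk.trans (by have := mul_le_mul_of_nonneg_left hs1 hC₁; linarith)
  have hkk : k = b + d := by rw [hd]; ring
  have hk1 : |k| ≤ c₄ * r₀ := by
    rw [hkk, hc₄]
    refine (abs_add_le _ _).trans ?_
    linarith
  have hd2 : d ^ 2 ≤ 5 / 4 * C₁ ^ 2 * s := by
    have h6 : d ^ 2 = |d| * |d| := by rw [← sq_abs d]; ring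
    have h7 : |d| * |d| ≤ (C₁ * s) * (5 / 2 * C₁ * r₀) := mul_le_mul hk hd1 (abs_nonneg _) (by positivity)
    have h8 : (C₁ * s) * (5 / 2 * C₁ * r₀) = 5 / 2 * C₁ ^ 2 * s * r₀ := by ring
    have h9 : 5 / 2 * C₁ ^ 2 * s * r₀ ≤ 5 / 2 * C₁ ^ 2 * s * (1 / 2) := mul_le_mul_of_nonneg_left h1 (by positivity)
    linarith
  have hk2 : k ^ 2 ≤ c₃ * s := by
    have h6 : k ^ 2 ≤ 2 * b ^ 2 + 2 * d ^ 2 := by rw [hkk]; exact fac_real_sq b d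
    have h7 : (2 * (2 + 2 * M ^ 2) + 2) * r2 ≤ (2 * (2 + 2 * M ^ 2) + 2) * s := mul_le_mul_of_nonneg_left hr2s (by positivity)
    rw [hc₃]
    linarith
  have hkb : |b ^ 2 - k ^ 2| ≤ c₂ * r₀ * s := by
    have h6 : b ^ 2 - k ^ 2 = -(d * (2 * b + d)) := by rw [hkk]; ring
    rw [h6, abs_neg, abs_mul]
    have h7 : |2 * b + d| ≤ 2 * ((2 + M) * r₀) + 5 / 2 * C₁ * r₀ := by
      refine (abs_add_le _ _).trans ?_
      rw [abs_mul, abs_of_pos (by norm_num : (0 : ℝ) < 2)]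
      linarith
    have h8 : |d| * |2 * b + d| ≤ (C₁ * s) * (2 * ((2 + M) * r₀) + 5 / 2 * C₁ * r₀) :=
      mul_le_mul hk h7 (abs_nonneg _) (by positivity)
    rw [hc₂]
    linarith
  -- the cubic term
  obtain ⟨x, hx⟩ : ∃ x, x = k ^ 2 * P := ⟨_, rfl⟩
  obtain ⟨y, hy⟩ : ∃ y, y = c₄ * (1 + M) * r₀ := ⟨_, rfl⟩
  rw [← hx]
  rw [← hy] at h3
  have hy0 : 0 ≤ y := by rw [hy]; positivity
  have hx0 : 0 ≤ x := by rw [hx]; positivity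
  have hx1 : x ≤ M * c₃ * s := by
    rw [hx]
    calc k ^ 2 * P ≤ (c₃ * s) * M := mul_le_mul hk2 hP hP0 (by positivity)
      _ = M * c₃ * s := by ring
  have hx2 : x ≤ y ^ 2 := by
    have h6 : k ^ 2 ≤ (c₄ * r₀) ^ 2 := by rw [← sq_abs k]; exact pow_le_pow_left₀ (abs_nonneg _) hk1 2
    have h7 : P ≤ (1 + M) ^ 2 := by linarith [sq_nonneg M]
    rw [hx, hy]
    calc k ^ 2 * P ≤ (c₄ * r₀) ^ 2 * (1 + M) ^ 2 := mul_le_mul h6 h7 hP0 (by positivity)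
      _ = _ := by ring
  have hsx : Real.sqrt x ≤ y := Real.sqrt_le_iff.2 ⟨hy0, hx2⟩
  have hsx0 : 0 ≤ Real.sqrt x := Real.sqrt_nonneg x
  have hE3 : x * Real.sqrt x ≤ M * c₃ * s * y := mul_le_mul hx1 hsx hsx0 (by positivity)
  have hE30 : 0 ≤ x * Real.sqrt x := by positivity
  have hx3 : x ≤ 1 / 4 := by
    have := pow_le_pow_left₀ hy0 h3 2
    linarith
  refine ⟨hx3, ?_⟩
  -- `a² - t²`
  have hat : |a ^ 2 - t ^ 2| ≤ 2 * (2 + M) * T := by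
    have h6 : a ^ 2 - t ^ 2 = -((t - a) * (2 * a + (t - a))) := by ring
    rw [h6, abs_neg, abs_mul]
    have h7 : |2 * a + (t - a)| ≤ 2 + M := by
      refine (abs_add_le _ _).trans ?_
      rw [abs_mul, abs_of_pos (by norm_num : (0 : ℝ) < 2)]
      have := mul_le_mul_of_nonneg_left h1 (by positivity : 0 ≤ 4 + 2 * M)
      linarith
    calc |t - a| * |2 * a + (t - a)| ≤ (2 * T) * (2 + M) := mul_le_mul hta h7 (abs_nonneg _) (by positivity)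
      _ = _ := by ring
  have ht2 : t ^ 2 ≤ (2 * (2 + 2 * M ^ 2) + 4) * s := by
    have h6 : (t - a) ^ 2 ≤ (2 * T) ^ 2 := by rw [← sq_abs (t - a)]; exact pow_le_pow_left₀ (abs_nonneg _) hta 2
    have h7 : t ^ 2 ≤ 2 * a ^ 2 + 2 * (t - a) ^ 2 := by
      have := fac_real_sq a (t - a)
      have e : a + (t - a) = t := by ring
      rwa [e] at this
    have h8 : T * T ≤ T * (1 / 2) := mul_le_mul_of_nonneg_left (hT.trans h1) hT0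
    have h9 : (2 + 2 * M ^ 2) * r2 ≤ (2 + 2 * M ^ 2) * s := mul_le_mul_of_nonneg_left hr2s (by positivity)
    linarith
  -- the exponent
  obtain ⟨Ex, hEx⟩ : ∃ Ex, Ex = σ ^ 2 * (G + om) / 2 - mm * t ^ 2 / 2 - x / 2 + x * Real.sqrt x := ⟨_, rfl⟩
  rw [← hEx]
  have hσs : σ ^ 2 ≤ r2 := by rw [hr2]; linarith [sq_nonneg β, sq_nonneg ν]
  have hA1 : σ ^ 2 * (G + om) ≤ s * (M + om) := mul_le_mul (hσs.trans hr2s) (by linarith) (by linarith) hs0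
  have hA10 : 0 ≤ σ ^ 2 * (G + om) := by positivity
  have hA2 : mm * t ^ 2 ≤ mm * ((2 * (2 + 2 * M ^ 2) + 4) * s) := mul_le_mul_of_nonneg_left ht2 hm
  have hA20 : 0 ≤ mm * t ^ 2 := by positivity
  have hA3 : M * c₃ * s * y ≤ M * c₃ * s * (1 / 2) := mul_le_mul_of_nonneg_left h3 (by positivity)
  have hExabs : |Ex| ≤ c₇ * s := by
    have p1 : 0 ≤ mm * ((2 * (2 + 2 * M ^ 2) + 4) * s) := by positivity
    have p2 : 0 ≤ M * c₃ * s := by positivity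
    have p3 : 0 ≤ s * (M + om) := by positivity
    rw [hEx, hc₇, abs_le]
    constructor <;> linarith
  have hEx1 : |Ex| ≤ 1 := by
    refine hExabs.trans ?_
    have : c₇ * s ≤ c₇ * (5 / 2 * r₀) := mul_le_mul_of_nonneg_left hs1 hc₇0
    linarith
  have hEx2 : Ex ^ 2 ≤ 5 / 2 * c₇ ^ 2 * r₀ * s := by
    have h6 : Ex ^ 2 = |Ex| * |Ex| := by rw [← sq_abs Ex]; ring
    have h7 : |Ex| * |Ex| ≤ (c₇ * s) * (c₇ * (5 / 2 * r₀)) :=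
      mul_le_mul hExabs (hExabs.trans (mul_le_mul_of_nonneg_left hs1 hc₇0)) (abs_nonneg _) (by positivity)
    rw [h6]
    linarith
  have hexp := (abs_le.1 (Real.abs_exp_sub_one_sub_id_le hEx1)).2
  have hid : Ex = -(mm * a ^ 2 + P * b ^ 2 - σ ^ 2 * G) / 2 + σ ^ 2 * om / 2 + mm * (a ^ 2 - t ^ 2) / 2 + P * (b ^ 2 - k ^ 2) / 2
      + x * Real.sqrt x := by rw [hEx, hx]; ring
  have hB1 : mm * (a ^ 2 - t ^ 2) ≤ mm * (2 * (2 + M) * T) := mul_le_mul_of_nonneg_left ((le_abs_self _).trans hat) hm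
  have hB2 : P * (b ^ 2 - k ^ 2) ≤ M * (c₂ * r₀ * s) := by
    calc P * (b ^ 2 - k ^ 2) ≤ P * |b ^ 2 - k ^ 2| := mul_le_mul_of_nonneg_left (le_abs_self _) hP0
      _ ≤ M * (c₂ * r₀ * s) := mul_le_mul hP hkb (abs_nonneg _) hM
  have hB3 : σ ^ 2 * om ≤ r2 * om := mul_le_mul_of_nonneg_right hσs ho.le
  have hsum : M * (c₂ * r₀ * s) / 2 + M * c₃ * s * y + 5 / 2 * c₇ ^ 2 * r₀ * s = c₈ * r₀ * s := by rw [hc₈, hy]; ring
  have hfin : c₈ * r₀ * s ≤ om / 2 * r2 + c₈ * T := by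
    have h6 : c₈ * r₀ * s = c₈ * r₀ * r2 + c₈ * r₀ * T := by rw [hs]; ring
    have h7 : c₈ * r₀ * r2 ≤ om / 2 * r2 := mul_le_mul_of_nonneg_right h5 hr20
    have h8 : c₈ * r₀ * T ≤ c₈ * 1 * T := by
      refine mul_le_mul_of_nonneg_right (mul_le_mul_of_nonneg_left (by linarith) hc₈0) hT0
    linarith
  linarith

/-- **L-FAC-REAL-C** (the expansion).   `a = β + σ e`, `q = m a² + P (a+f)² - σ² G`, `Ex` = the exponent.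
`Ex + q/2 = σ² om/2 + m (a² - t²)/2 + P ((a+f)² - k²)/2 + (k²P)^{3/2}`;   `|a² - t²| ≤ 2T (2|a| + 2T)`;   `|(a+f)² - k²| ≤ |k - (a+f)| (|k| + |a+f|)` with `fac_real_k`;   `r³ ≤ 2 r₀ r²`;
`|Ex| ≤ C (r² + T) ≤ 1`;   `exp Ex ≤ 1 + Ex + Ex²` (`Real.abs_exp_sub_one_sub_id_le`).   All errors are `≤ C (r₀ r² + T)`: choose `r₀` with `C r₀ ≤ om/2`. -/
theorem fac_real (M : ℝ) (hM : 0 ≤ M) (m : ℕ) {om : ℝ} (ho : 0 < om) :
    ∃ r₀ : ℝ, 0 < r₀ ∧ r₀ ≤ 1 / 2 ∧ ∃ C₀ : ℝ, 0 ≤ C₀ ∧ ∀ ν β σ e G P f g t T k : ℝ, 0 ≤ ν → ν ≤ r₀ → |β| ≤ r₀ → |σ| ≤ r₀ → |e| ≤ M →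
      0 ≤ G → G ≤ M → 0 ≤ P → P ≤ M → |f| ≤ ν → |g| ≤ ν → 0 ≤ T → T ≤ r₀ → |t - (β + σ * e)| ≤ 2 * T →
      k = (Real.tan t * Real.sqrt (1 - ν ^ 2) + f) / (1 - g) →
        |t| ≤ 1 ∧ k ^ 2 * P ≤ 1 / 4 ∧
        Real.exp (σ ^ 2 * (G + om) / 2 - m * t ^ 2 / 2 - k ^ 2 * P / 2 + k ^ 2 * P * Real.sqrt (k ^ 2 * P))
          ≤ 1 - (m * (β + σ * e) ^ 2 + P * (β + σ * e + f) ^ 2 - σ ^ 2 * G) / 2 + om * (ν ^ 2 + β ^ 2 + σ ^ 2) + C₀ * T := by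
  obtain ⟨C₁, hC₁, hk1⟩ := fac_real_k M hM
  have hm : (0 : ℝ) ≤ (m : ℝ) := Nat.cast_nonneg m
  obtain ⟨c₂, hc₂⟩ : ∃ c, c = 2 * (2 + M) * C₁ + 5 / 2 * C₁ ^ 2 := ⟨_, rfl⟩
  obtain ⟨c₃, hc₃⟩ : ∃ c, c = 2 * (2 * (2 + 2 * M ^ 2) + 2) + 5 / 2 * C₁ ^ 2 := ⟨_, rfl⟩
  obtain ⟨c₄, hc₄⟩ : ∃ c, c = 2 + M + 5 / 2 * C₁ := ⟨_, rfl⟩
  obtain ⟨c₇, hc₇⟩ : ∃ c, c = (M + om) / 2 + (m : ℝ) * (2 + 2 * M ^ 2 + 2) + M * c₃ := ⟨_, rfl⟩
  obtain ⟨c₈, hc₈⟩ : ∃ c, c = M * c₂ / 2 + M * c₃ * (c₄ * (1 + M)) + 5 / 2 * c₇ ^ 2 := ⟨_, rfl⟩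
  have hc₂0 : 0 ≤ c₂ := by rw [hc₂]; positivity
  have hc₃0 : 0 ≤ c₃ := by rw [hc₃]; positivity
  have hc₄0 : 0 ≤ c₄ := by rw [hc₄]; positivity
  have hc₇0 : 0 ≤ c₇ := by rw [hc₇]; positivity
  have hc₈0 : 0 ≤ c₈ := by rw [hc₈]; positivity
  obtain ⟨Λ, hΛ⟩ : ∃ Λ, Λ = 2 + 2 * (3 + M) + 2 * (c₄ * (1 + M)) + 5 / 2 * c₇ + 2 * c₈ / om := ⟨_, rfl⟩
  have q1 : 0 ≤ 2 * (3 + M) := by positivity
  have q2 : 0 ≤ 2 * (c₄ * (1 + M)) := by positivity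
  have q3 : 0 ≤ 5 / 2 * c₇ := by positivity
  have q4 : 0 ≤ 2 * c₈ / om := by positivity
  have hΛ0 : 0 < Λ := by rw [hΛ]; linarith
  have h1 : Λ⁻¹ ≤ 1 / 2 := by
    rw [inv_le_comm₀ hΛ0 (by norm_num)]
    rw [hΛ]; norm_num; linarith
  have key : ∀ x y : ℝ, x ≤ y * Λ → x * Λ⁻¹ ≤ y := fun x y h => by
    rw [← div_eq_mul_inv, div_le_iff₀ hΛ0]; exact h
  have h2 : (3 + M) * Λ⁻¹ ≤ 1 / 2 := key _ _ (by rw [hΛ]; linarith)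
  have h3 : c₄ * (1 + M) * Λ⁻¹ ≤ 1 / 2 := key _ _ (by rw [hΛ]; linarith)
  have h4 : 5 / 2 * c₇ * Λ⁻¹ ≤ 1 := key _ _ (by rw [hΛ]; linarith)
  have h5 : c₈ * Λ⁻¹ ≤ om / 2 := key _ _ (by
    have e : om / 2 * (2 * c₈ / om) = c₈ := by field_simp
    have : om / 2 * Λ = om / 2 * (2 + 2 * (3 + M) + 2 * (c₄ * (1 + M)) + 5 / 2 * c₇) + om / 2 * (2 * c₈ / om) := by rw [hΛ]; ring
    rw [this, e]
    have : 0 ≤ om / 2 * (2 + 2 * (3 + M) + 2 * (c₄ * (1 + M)) + 5 / 2 * c₇) := by positivity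
    linarith)
  refine ⟨Λ⁻¹, inv_pos.2 hΛ0, h1, (m : ℝ) * (2 + M) + c₈, by positivity, ?_⟩
  intro ν β σ e G P f g t T k hν0 hν hβ hσ he hG0 hG hP0 hP hf hg hT0 hT hta hk
  have hr0 : 0 < Λ⁻¹ := inv_pos.2 hΛ0
  have ht : |t| ≤ 1 / 2 := by
    have h6 : |β + σ * e| ≤ (1 + M) * Λ⁻¹ := by
      refine (abs_add_le _ _).trans ?_
      rw [abs_mul]
      have : |σ| * |e| ≤ Λ⁻¹ * M := mul_le_mul hσ he (abs_nonneg _) hr0.le
      linarith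
    have h7 : |t| ≤ |t - (β + σ * e)| + |β + σ * e| := by
      have := abs_add_le (t - (β + σ * e)) (β + σ * e)
      simpa using this
    linarith
  have hkk := hk1 ν β σ e f g t T k hν0 (hν.trans h1) he hf hg hT0 (by linarith) hta ht hk
  obtain ⟨r1, r2⟩ := fac_real_core hM hC₁ ho hm hr0 hc₂ hc₃ hc₄ hc₇ hc₈ h1 h2 h3 h4 h5 hν0 hν hβ hσ he hG0 hG hP0 hP hf hT0 hT hta hkk
  exact ⟨by linarith, r1, r2⟩

/-- `|x|² |A|²` is bounded on the cone. -/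
theorem fac_point_A {S U : Set (E n)} (hS : GmtCone S) (hU : KitTube S U) :
    ∃ C : ℝ, 0 ≤ C ∧ ∀ x ∈ gmtBd S, x ≠ 0 → ‖x‖ ^ 2 * gmtSimA (gmtSimSd S) x ≤ C := by
  have hc := hU.cone
  have hAc : ContinuousOn (gmtSimA (gmtSimSd S)) U := (gmtSim_contDiffOn_A hc.opn hc.smooth).continuousOn
  have hK : IsCompact (gmtBd S ∩ sphere (0 : E n) 1) := (isCompact_sphere (0 : E n) 1).inter_left (isClosed_gmtBd S)
  have hsub : gmtBd S ∩ sphere (0 : E n) 1 ⊆ U := fun x hx => hc.bd x hx.1 fun h => by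
    have h1 := mem_sphere_zero_iff_norm.1 hx.2
    rw [h, norm_zero] at h1
    exact zero_ne_one h1
  obtain ⟨C, hC⟩ := hK.exists_bound_of_continuousOn (hAc.mono hsub)
  refine ⟨max C 0, le_max_right _ _, fun x hx hx0 => ?_⟩
  have hn : 0 < ‖x‖ := norm_pos_iff.2 hx0
  have hy : (‖x‖⁻¹ • x) ∈ gmtBd S ∩ sphere (0 : E n) 1 :=
    ⟨(gmtSim_bd_smul hS (inv_pos.2 hn) x).2 hx, by
      rw [mem_sphere_zero_iff_norm, norm_smul, norm_inv, norm_norm, inv_mul_cancel₀ hn.ne']⟩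
  have h1 := hC _ hy
  rw [hc.homA x hx hx0 _ (inv_pos.2 hn), inv_pow, inv_inv, Real.norm_eq_abs] at h1
  exact ((le_abs_self _).trans h1).trans (le_max_left _ _)

/-- the product of the three exponential bounds. -/
theorem fac_point_mul {c B D l2 A y1 y3 R : ℝ} (hc : c ≤ Real.exp y1) (hl : 1 ≤ l2) (hA : 0 ≤ A)
    (hB : B = l2 * (1 + A) + 1) (hD0 : 0 ≤ D) (hD : D ≤ 1 + y3) (hR : Real.exp (A / 2 + y1 + y3) ≤ R) :
    c * B * D ≤ 2 * (l2 * R) := by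
  have h1 : B ≤ 2 * l2 * Real.exp (A / 2) := by
    have h2 : A / 2 + 1 ≤ Real.exp (A / 2) := Real.add_one_le_exp _
    have h3 : l2 * (A / 2 + 1) ≤ l2 * Real.exp (A / 2) := mul_le_mul_of_nonneg_left h2 (by linarith)
    rw [hB]
    linarith
  have hB0 : 0 ≤ B := by rw [hB]; positivity
  have h4 : D ≤ Real.exp y3 := hD.trans (by linarith [Real.add_one_le_exp y3])
  have h5 : c * B ≤ Real.exp y1 * (2 * l2 * Real.exp (A / 2)) := mul_le_mul hc h1 hB0 (Real.exp_pos _).le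
  have h6 : c * B * D ≤ Real.exp y1 * (2 * l2 * Real.exp (A / 2)) * Real.exp y3 :=
    mul_le_mul h5 h4 hD0 (by positivity)
  have h7 : Real.exp y1 * (2 * l2 * Real.exp (A / 2)) * Real.exp y3 = 2 * (l2 * Real.exp (A / 2 + y1 + y3)) := by
    rw [Real.exp_add, Real.exp_add]; ring
  rw [h7] at h6
  refine h6.trans ?_
  have : l2 * Real.exp (A / 2 + y1 + y3) ≤ l2 * R := mul_le_mul_of_nonneg_left hR (by linarith)
  linarith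

/-- **L-FAC-REAL-D** (geometric form).   `M` = common bound of `|et|`, `facGr`, `facP` on `gmtBd S \ 0` (`kit_bdd`: all three are continuous on `U` and `0`-homogeneous: `kit_Tg_smul`, `hC.tube.cone.homA` / `gmtSim_A_smul`).
`ν = ‖v‖`, `e = et p`, `G = facGr S et p ≥ 0` (`fac_ext_Tg`), `P = facP S p`, `f = ⟪v,p⟫/‖p‖`, `g = ⟪v,∇u p⟫`, `k = faS u v p t/‖p‖` (`faC v = (√(1-ν²))⁻¹`).
`X = faS • H(p)`: symmetric (`gmtSim_H_symm`), `gmtSimTr X = faS * gmtDiv (∇u) p = 0` (`gmtSim_div_eq_tr`, `hC.tube.cone.harm`), `faHS X = faS² gmtSimA u p = k² P` (`fa_HS_smul`, `fa_HS_eq`).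
`faDet (1+X) ≤ 1 - hs/2 + hs √hs ≤ exp(..)` (`fa_det_taylor`, `Real.add_one_le_exp`), `0 ≤ faDet` (`fa_det_nonneg`);   `0 ≤ cos t`, `cos t ^ (n-2) ≤ exp (-(n-2) t²/2)` (`fac_cos_le`, `pow_le_pow_left₀`, `Real.exp_nat_mul`);
`((1+λ)² (1+A) + 1)/2 ≤ (1+λ)² (1 + A/2) ≤ (1+λ)² exp (A/2)`.   Then `fac_real` with `m = n - 2`. -/
theorem fac_point {S U : Set (E n)} {K s₂ : ℝ} {et : E n → ℝ} (hC : FacCtx n S U K s₂ et) {om : ℝ} (ho : 0 < om) :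
    ∃ r₀ : ℝ, 0 < r₀ ∧ r₀ ≤ 1 / 2 ∧ ∃ C₀ : ℝ, 0 ≤ C₀ ∧ ∀ (v : E n) (β σ T lam : ℝ), ‖v‖ ≤ r₀ → |β| ≤ r₀ → |σ| ≤ r₀ → 0 ≤ T → T ≤ r₀ → 0 ≤ lam →
      ∀ p ∈ gmtBd S, p ≠ 0 → ∀ t : ℝ, |t - (β + σ * et p)| < 2 * T →
        Real.cos t ^ (n - 2) * ((1 + lam) ^ 2 * (1 + σ ^ 2 * (facGr S et p + om)) + 1) *
            faDet (1 + faS (gmtSimSd S) v p t • gmtSimH (gmtSimSd S) p)
          ≤ 2 * ((1 + lam) ^ 2 * (1 - facq S et v β σ p / 2 + om * (‖v‖ ^ 2 + β ^ 2 + σ ^ 2) + C₀ * T)) := by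
  obtain ⟨M₁, hM₁⟩ := face_hom0_bdd hC.ext.hom0
  obtain ⟨L, hL⟩ := face_hom0_grad hC.ext.hom0
  obtain ⟨CA, hCA0, hCA⟩ := fac_point_A hC.cone.cone hC.tube
  obtain ⟨M, hMdef⟩ : ∃ M, M = |M₁| + L ^ 2 + CA := ⟨_, rfl⟩
  have hM : 0 ≤ M := by rw [hMdef]; positivity
  obtain ⟨r₀, hr0, hr1, C₀, hC₀, hreal⟩ := fac_real M hM (n - 2) ho
  refine ⟨r₀, hr0, hr1, C₀, hC₀, ?_⟩
  intro v β σ T lam hv hβ hσ hT0 hT hl p hp hp0 t ht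
  have hc := hC.tube.cone
  have hpU : p ∈ U := hc.bd p hp hp0
  have hpn : 0 < ‖p‖ := norm_pos_iff.2 hp0
  have hN : ‖gradient (gmtSimSd S) p‖ = 1 := hc.eik p hpU
  have hu0 : gmtSimSd S p = 0 := (hc.zero_iff p hpU).2 hp
  -- the parameters
  have he : |et p| ≤ M := by
    rw [hMdef]
    have := hM₁ p
    have := le_abs_self M₁
    have : 0 ≤ L ^ 2 := sq_nonneg L
    linarith
  have hGeq : facGr S et p = (‖p‖ * ‖gradient et p‖) ^ 2 := by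
    unfold facGr
    rw [fac_ext_Tg hC.tube hC.ext hp hp0]; ring
  have hG0 : 0 ≤ facGr S et p := by rw [hGeq]; positivity
  have hG : facGr S et p ≤ M := by
    rw [hGeq, hMdef]
    have h1 : (‖p‖ * ‖gradient et p‖) ^ 2 ≤ L ^ 2 := pow_le_pow_left₀ (by positivity) (hL p hp0) 2
    have := abs_nonneg M₁
    linarith
  have hA0 : 0 ≤ gmtSimA (gmtSimSd S) p := by rw [fa_HS_eq]; exact fa_HS_nonneg _
  have hP0 : 0 ≤ facP S p := by unfold facP; positivity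
  have hP : facP S p ≤ M := by
    rw [hMdef]
    have h1 : facP S p ≤ CA := hCA p hp hp0
    have := abs_nonneg M₁
    have : 0 ≤ L ^ 2 := sq_nonneg L
    linarith
  have hf : |⟪v, p⟫ / ‖p‖| ≤ ‖v‖ := by
    rw [abs_div, abs_norm, div_le_iff₀ hpn]
    exact abs_real_inner_le_norm v p
  have hg : |⟪v, gradient (gmtSimSd S) p⟫| ≤ ‖v‖ := by
    have := abs_real_inner_le_norm v (gradient (gmtSimSd S) p)
    rwa [hN, mul_one] at this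
  have hv2 : ‖v‖ ≤ 1 / 2 := hv.trans hr1
  have hw : 0 < Real.sqrt (1 - ‖v‖ ^ 2) := Real.sqrt_pos.2 (by
    have := pow_le_pow_left₀ (norm_nonneg v) hv2 2
    linarith)
  have hg1 : 0 < 1 - ⟪v, gradient (gmtSimSd S) p⟫ := by linarith [(abs_le.1 hg).2]
  have hk : faS (gmtSimSd S) v p t / ‖p‖ = (Real.tan t * Real.sqrt (1 - ‖v‖ ^ 2) + ⟪v, p⟫ / ‖p‖) /
      (1 - ⟪v, gradient (gmtSimSd S) p⟫) := by
    unfold faS faD faC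
    field_simp
  obtain ⟨ht1, hks, hexp⟩ := hreal ‖v‖ β σ (et p) (facGr S et p) (facP S p) (⟪v, p⟫ / ‖p‖) ⟪v, gradient (gmtSimSd S) p⟫ t T
    (faS (gmtSimSd S) v p t / ‖p‖) (norm_nonneg v) hv hβ hσ he hG0 hG hP0 hP hf hg hT0 hT ht.le hk
  -- the operator
  have hXs : ∀ a b, ⟪(faS (gmtSimSd S) v p t • gmtSimH (gmtSimSd S) p) a, b⟫
      = ⟪a, (faS (gmtSimSd S) v p t • gmtSimH (gmtSimSd S) p) b⟫ := by
    intro a b
    rw [smul_apply, smul_apply, inner_smul_left, inner_smul_right, gmtSim_H_symm hc.opn hc.smooth hpU]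
    simp
  have hXt : gmtSimTr (faS (gmtSimSd S) v p t • gmtSimH (gmtSimSd S) p) = 0 := by
    have h1 := gmtSimI_tr_add_smul 0 (gmtSimH (gmtSimSd S) p) (faS (gmtSimSd S) v p t)
    rw [zero_add] at h1
    have h2 : gmtSimTr (gmtSimH (gmtSimSd S) p) = 0 := by
      have := gmtSim_div_eq_tr (gradient (gmtSimSd S)) p
      rw [hc.harm p hpU hu0] at this
      exact this.symm
    rw [h1, h2]
    simp [gmtSimTr]
  have hXhs : faHS (faS (gmtSimSd S) v p t • gmtSimH (gmtSimSd S) p) = (faS (gmtSimSd S) v p t / ‖p‖) ^ 2 * facP S p := by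
    rw [fa_HS_smul, ← fa_HS_eq]
    unfold facP
    field_simp
  have hdet := fa_det_taylor hXs hXt (by rw [hXhs]; exact hks)
  have hdet0 := fa_det_nonneg hXs
  rw [hXhs] at hdet
  -- the cosine
  have hcos0 : 0 ≤ Real.cos t := Real.cos_nonneg_of_mem_Icc ⟨by linarith [(abs_le.1 ht1).1, Real.pi_gt_three], by
    linarith [(abs_le.1 ht1).2, Real.pi_gt_three]⟩
  have hcos : Real.cos t ^ (n - 2) ≤ Real.exp (-(((n - 2 : ℕ) : ℝ) * t ^ 2 / 2)) := by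
    have h1 := pow_le_pow_left₀ hcos0 (fac_cos_le ht1) (n - 2)
    rw [← Real.exp_nat_mul] at h1
    refine h1.trans (le_of_eq ?_)
    congr 1
    ring
  have hcast : ((n - 2 : ℕ) : ℝ) = (n : ℝ) - 2 := by
    have := hC.n4
    rw [Nat.cast_sub (by omega)]
    norm_num
  have hl2 : 1 ≤ (1 + lam) ^ 2 := one_le_pow₀ (by linarith)
  refine fac_point_mul hcos hl2 (A := σ ^ 2 * (facGr S et p + om)) (by positivity) rfl hdet0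
    (y3 := -((faS (gmtSimSd S) v p t / ‖p‖) ^ 2 * facP S p / 2) + (faS (gmtSimSd S) v p t / ‖p‖) ^ 2 * facP S p *
      Real.sqrt ((faS (gmtSimSd S) v p t / ‖p‖) ^ 2 * facP S p)) (by linarith) ?_
  have e1 : σ ^ 2 * (facGr S et p + om) / 2 + -(((n - 2 : ℕ) : ℝ) * t ^ 2 / 2) +
      (-((faS (gmtSimSd S) v p t / ‖p‖) ^ 2 * facP S p / 2) + (faS (gmtSimSd S) v p t / ‖p‖) ^ 2 * facP S p *
      Real.sqrt ((faS (gmtSimSd S) v p t / ‖p‖) ^ 2 * facP S p))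
      = σ ^ 2 * (facGr S et p + om) / 2 - ((n - 2 : ℕ) : ℝ) * t ^ 2 / 2 - (faS (gmtSimSd S) v p t / ‖p‖) ^ 2 * facP S p / 2
        + (faS (gmtSimSd S) v p t / ‖p‖) ^ 2 * facP S p * Real.sqrt ((faS (gmtSimSd S) v p t / ‖p‖) ^ 2 * facP S p) := by ring
  rw [e1]
  refine hexp.trans (le_of_eq ?_)
  unfold facq
  rw [hcast]

end Claimed.Agent.R323
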