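import Claimed.Agent.R323.Fa.Defs
import Claimed.Agent.R323.Kit.Polar

/-!
# Row 323, block E: POLAR INTEGRATION for homogeneous measures.   Architect: helper256.

`μ` a measure on `E n` with `μ(r A) = r^d μ(A)`; `J` `0`-homogeneous; then `∫ g(|x|) J(x) dμ = d ∫_0^∞ g(ρ) ρ^{d-1} dρ · ∫_{B_1} J dμ`.
PROOF of `fa_polar`: `μ{0} = 0` (scaling + finiteness).  `μ_J = μ.withDensity J` has the same scaling (`lintegral` change of variables under `x ↦ r x`: from `hμ`, `μ.map (r • ·) = r^{-d} μ`...,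
or directly: `μ_J(B_r) = r^d μ_J(B_1)` via `lintegral_map_equiv`/`Homeomorph.smulOfNeZero`).  `ν = μ_J.map ‖·‖` and `ν' = (c d ρ^{d-1} dρ)|_{(0,∞)}`, `c = μ_J(B_1)`, agree on all `Iio r`: `Measure.ext_of_Iio`-type lemma
(both finite on bounded sets; use `ext_of_Ico`/`ext_of_Ioc` or restrict to `Iio R` and `ext_of_Iic`).  Then `∫ g(|x|) J dμ = ∫ g dν` (`lintegral_map`, `lintegral_withDensity_eq_lintegral_mul`).
`fa_polar_vol`: `Measure.addHaar_smul` / `addHaar_image_homothety`.   `fa_polar_mu`: `gmtMu_gmtDil` + `gmtMu_restrict_congr` (`U = univ`, `GmtCone S`), `gmtMu_compact_ne_top`.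
-/

set_option autoImplicit false
open scoped ContDiff ENNReal NNReal RealInnerProductSpace Topology
open MeasureTheory Metric Set Filter

namespace Claimed.Agent.R323

open Claimed.Agent.Gmt

variable {n : ℕ}

/-- L-FA-POLAR-A -/
theorem fa_polar {μ : Measure (E n)} {d : ℕ} (hd : 0 < d)
    (hμ : ∀ r : ℝ, 0 < r → ∀ A : Set (E n), MeasurableSet A → μ ((fun x => r • x) '' A) = ENNReal.ofReal (r ^ d) * μ A)
    (hfin : μ (ball 0 1) ≠ ⊤) (J : E n → ℝ≥0∞) (hJ : Measurable J) (hJ0 : ∀ t : ℝ, 0 < t → ∀ x, J (t • x) = J x)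
    (hJb : ∫⁻ x in ball (0 : E n) 1, J x ∂μ ≠ ⊤) (g : ℝ → ℝ≥0∞) (hg : Measurable g) :
    ∫⁻ x, g ‖x‖ * J x ∂μ =
      (ENNReal.ofReal d * ∫⁻ ρ in Ioi (0 : ℝ), g ρ * ENNReal.ofReal (ρ ^ (d - 1))) * ∫⁻ x in ball (0 : E n) 1, J x ∂μ := by
  have hsc : KitpScale μ d := by
    intro t ht A hA
    have e : (fun x : E n => t • x) ⁻¹' A = (fun x : E n => t⁻¹ • x) '' A := by
      ext x
      simp only [mem_preimage, mem_image]
      constructor
      · intro hx
        exact ⟨t • x, hx, by rw [smul_smul, inv_mul_cancel₀ ht.ne', one_smul]⟩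
      · rintro ⟨y, hy, rfl⟩
        rw [smul_smul, mul_inv_cancel₀ ht.ne', one_smul]
        exact hy
    rw [e, hμ t⁻¹ (inv_pos.2 ht) A hA, mul_comm, ← mul_assoc, ← ENNReal.ofReal_mul (by positivity), ← mul_pow,
      mul_inv_cancel₀ ht.ne', one_pow, ENNReal.ofReal_one, one_mul]
  exact kitp_polar hd hfin hsc hJ hJ0 hg

/-- L-FA-POLAR-B -/
theorem fa_polar_vol (hn : 0 < n) (J : E n → ℝ≥0∞) (hJ : Measurable J) (hJ0 : ∀ t : ℝ, 0 < t → ∀ x, J (t • x) = J x)
    (hJb : ∫⁻ x in ball (0 : E n) 1, J x ≠ ⊤) (g : ℝ → ℝ≥0∞) (hg : Measurable g) :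
    ∫⁻ x, g ‖x‖ * J x =
      (ENNReal.ofReal n * ∫⁻ ρ in Ioi (0 : ℝ), g ρ * ENNReal.ofReal (ρ ^ (n - 1))) * ∫⁻ x in ball (0 : E n) 1, J x := by
  refine fa_polar hn (fun r hr A _ => ?_) measure_ball_lt_top.ne J hJ hJ0 hJb g hg
  have h := Measure.addHaar_smul (volume : Measure (E n)) r A
  rw [finrank_euclideanSpace, Fintype.card_fin, abs_of_pos (pow_pos hr n)] at h
  rw [← h]
  rfl

/-- L-FA-POLAR-B : scaling of the perimeter measure of a cone. -/
theorem fa_mu_scale (hn : 1 ≤ n) {S : Set (E n)} (hS : MeasurableSet S) (hc : GmtCone S) {r : ℝ} (hr : 0 < r) (A : Set (E n)) :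
    gmtMu S ((fun x => r • x) '' A) = ENNReal.ofReal (r ^ (n - 1)) * gmtMu S A := by
  have h1 := gmtMu_gmtDil hS (0 : E n) hr ((fun x => r • x) '' A)
  have h2 : gmtDil (0 : E n) r ((fun x => r • x) '' A) = A := by
    ext y
    simp only [gmtDil, mem_setOf_eq, zero_add, mem_image]
    constructor
    · rintro ⟨x, hx, hxy⟩
      have : x = y := smul_right_injective (E n) hr.ne' hxy
      exact this ▸ hx
    · intro hy
      exact ⟨y, hy, rfl⟩
  have h3 : gmtMu (gmtDil (0 : E n) r S) = gmtMu S := by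
    have := gmtMu_restrict_congr isOpen_univ (measurableSet_gmtDil hS (0 : E n) r) hS
      (by simpa only [inter_univ] using hc r hr)
    simpa only [Measure.restrict_univ] using this
  rw [h2, h3] at h1
  have h4 : ENNReal.ofReal (r ^ n) = ENNReal.ofReal r * ENNReal.ofReal (r ^ (n - 1)) := by
    rw [← ENNReal.ofReal_mul hr.le, ← pow_succ', Nat.sub_add_cancel hn]
  rw [h4, mul_comm, mul_assoc] at h1
  have h5 : ENNReal.ofReal r ≠ 0 := by simpa using hr
  exact ((ENNReal.mul_right_inj h5 ENNReal.ofReal_ne_top).1 h1).symm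

/-- L-FA-POLAR-B -/
theorem fa_polar_mu (hn : 2 ≤ n) {S : Set (E n)} (hS : MeasurableSet S) (hc : GmtCone S) (hlf : GmtLF S univ)
    (J : E n → ℝ≥0∞) (hJ : Measurable J) (hJ0 : ∀ t : ℝ, 0 < t → ∀ x, J (t • x) = J x)
    (hJb : ∫⁻ x in ball (0 : E n) 1, J x ∂(gmtMu S) ≠ ⊤) (g : ℝ → ℝ≥0∞) (hg : Measurable g) :
    ∫⁻ x, g ‖x‖ * J x ∂(gmtMu S) =
      (∫⁻ ρ in Ioi (0 : ℝ), g ρ * ENNReal.ofReal (ρ ^ (n - 2))) * faLk S J := by
  have hfin : gmtMu S (ball 0 1) ≠ ⊤ :=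
    ne_top_of_le_ne_top (gmtMu_compact_ne_top isOpen_univ hlf (isCompact_closedBall (0 : E n) 1) (subset_univ _))
      (measure_mono ball_subset_closedBall)
  have h := fa_polar (μ := gmtMu S) (d := n - 1) (by omega)
    (fun r hr A _ => fa_mu_scale (by omega) hS hc hr A) hfin J hJ hJ0 hJb g hg
  rw [h, faLk]
  have h1 : n - 1 - 1 = n - 2 := by omega
  have h2 : ((n - 1 : ℕ) : ℝ) = (n : ℝ) - 1 := by
    rw [Nat.cast_sub (by omega)]; simp
  rw [h1, h2]
  ring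

/-- `μ_S` does not charge the vertex, nor the complement of the cone. -/
theorem fa_mu_ae {S : Set (E n)} (hn : 2 ≤ n) (hS : MeasurableSet S) (hc : GmtCone S) (hlf : GmtLF S univ) :
    ∀ᵐ p ∂(gmtMu S), p ∈ gmtBd S ∧ p ≠ 0 := by
  have h0 : gmtMu S {(0 : E n)} = 0 := by
    have h1 := fa_mu_scale (by omega : 1 ≤ n) hS hc (by norm_num : (0 : ℝ) < 2) {(0 : E n)}
    rw [image_singleton, smul_zero] at h1
    have hfin : gmtMu S {(0 : E n)} ≠ ⊤ :=
      gmtMu_compact_ne_top isOpen_univ hlf isCompact_singleton (subset_univ _)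
    by_contra hne
    have h2 : (1 : ℝ≥0∞) * gmtMu S {(0 : E n)} = ENNReal.ofReal (2 ^ (n - 1)) * gmtMu S {(0 : E n)} := by
      rw [one_mul]; exact h1
    have h3 := (ENNReal.mul_left_inj hne hfin).1 h2
    have h4 : (1 : ℝ) < 2 ^ (n - 1) := one_lt_pow₀ (by norm_num) (by omega)
    have h5 : (1 : ℝ≥0∞) < ENNReal.ofReal (2 ^ (n - 1)) := by
      rw [← ENNReal.ofReal_one]
      exact (ENNReal.ofReal_lt_ofReal_iff (by positivity)).2 h4
    exact h5.ne h3
  have hb : ∀ᵐ p ∂(gmtMu S), p ∈ gmtBd S := by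
    rw [ae_iff]
    exact gmtMu_compl_gmtBd hS
  have hz : ∀ᵐ p ∂(gmtMu S), p ≠ 0 := by
    rw [ae_iff]
    simpa using h0
  filter_upwards [hb, hz] with p h1 h2 using ⟨h1, h2⟩

theorem fa_lk_one {S : Set (E n)} (hn : 2 ≤ n) (hlf : GmtLF S univ) :
    faLk S (fun _ => 1) = ENNReal.ofReal (linkArea S) := by
  have hfin : gmtMu S (ball 0 1) ≠ ⊤ :=
    ne_top_of_le_ne_top (gmtMu_compact_ne_top isOpen_univ hlf (isCompact_closedBall (0 : E n) 1) (subset_univ _))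
      (measure_mono ball_subset_closedBall)
  have h1 : (0 : ℝ) ≤ (n : ℝ) - 1 := by
    have : (2 : ℝ) ≤ n := by exact_mod_cast hn
    linarith
  rw [faLk, linkArea, ENNReal.ofReal_mul h1, ENNReal.ofReal_toReal hfin, lintegral_one,
    Measure.restrict_apply MeasurableSet.univ, univ_inter]

end Claimed.Agent.R323
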