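import Claimed.Agent.R323.Fa.Area
import Claimed.Agent.R323.Fa.Polar
import Claimed.Agent.R323.Fa.Det
import Claimed.Agent.R323.Fa.Psi

/-!
# Row 323, block E5: THE MASTER INEQUALITY (polar / tan step: from `faa_main` to the link form).   Architect: helper33.   Prefix `fae_`.

`u = gmtSimSd S`, `N = ∇u`, `H = gmtSimH u`, `μ = gmtMu S`, `U` the conic tube, `|v| < 1`, `b = faBs u v p s = D s - C⟨v,p⟩`, `D = faD u v p > 0`.
EXIT `fae_master`: `f` measurable `0`-homogeneous, `F(p,t)` continuous on `U × ℝ`, `≥ 0`, `0`-homogeneous in `p`, `= 0` for `|t| ≥ t₁`, `t₁ < π/2`,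
`f(𝒴_v(p,s)) ≤ F(p, arctan(b/|p|))` at all contacts.  Then `n ∫_{B_1} f ≤ ∫_{-π/2}^{π/2} cos^{n-2} t ∫_Σ F(p,t) 𝒟(1 + s_v(p,t) H(p)) dt`.

PROOF.  `g = faeR` = the tent on `[1,2]`, `I = faeI n = ∫_0^∞ g ρ^{n-1} dρ ∈ (0,∞)`.
(1) `faa_main` with `Φ(y) = g(|y|) f(y)`, `Φb(p,s) = faeB = 1_U(p) g(√(|p|²+b²)) F(p, arctan(b/|p|))` (at a contact `|𝒴|² = |p|² + b²`).
(2) LHS `= n I ∫_{B_1} f` (polar for the volume).
(3) for fixed `p`: `s = faS u v p t`, `b = |p| tan t`, `√(|p|²+b²) = |p|/cos t`, `D ds = |p|/cos² t dt`.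
(4) Tonelli, and for fixed `t` polar for `μ` with `G(ρ) = g(ρ/cos t) ρ/cos² t`: `∫_0^∞ G ρ^{n-2} dρ = cos^{n-2} t · I`.
(5) cancel `I`.
-/

set_option autoImplicit false
open scoped ContDiff ENNReal NNReal RealInnerProductSpace Topology
open MeasureTheory Metric Set Filter

namespace Claimed.Agent.R323

open Claimed.Agent.Gmt

variable {n : ℕ}

/-- the radial weight: the tent on `[1,2]`. -/
noncomputable def faeR (r : ℝ) : ℝ := max 0 (min (r - 1) (2 - r))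

/-- `I = ∫_0^∞ g(ρ) ρ^{n-1} dρ`. -/
noncomputable def faeI (n : ℕ) : ℝ≥0∞ :=
  ∫⁻ ρ in Ioi (0 : ℝ), ENNReal.ofReal (faeR ρ) * ENNReal.ofReal (ρ ^ (n - 1))

open Classical in
/-- the density in the source coordinates `(p,s)`. -/
noncomputable def faeB (U : Set (E n)) (u : E n → ℝ) (v : E n) (F : E n → ℝ → ℝ) (p : E n) (s : ℝ) : ℝ :=
  if p ∈ U then faeR (Real.sqrt (‖p‖ ^ 2 + faBs u v p s ^ 2)) * F p (Real.arctan (faBs u v p s / ‖p‖)) else 0

open Classical in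
/-- the density on the link at the level `t`. -/
noncomputable def faeJ (U : Set (E n)) (u : E n → ℝ) (v : E n) (F : E n → ℝ → ℝ) (p : E n) (t : ℝ) : ℝ≥0∞ :=
  if p ∈ U then ENNReal.ofReal (F p t * faDet (1 + faS u v p t • gmtSimH u p)) else 0

/-- the radial factor at the level `t`. -/
noncomputable def faeG (t ρ : ℝ) : ℝ≥0∞ := ENNReal.ofReal (faeR (ρ / Real.cos t) * ρ / Real.cos t ^ 2)

/-! ### L-EN-R : the radial weight (Mathlib only) -/

theorem fae_R_cont : Continuous faeR := by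
  unfold faeR
  exact continuous_const.max ((continuous_id.sub continuous_const).min (continuous_const.sub continuous_id))

theorem fae_R_nonneg (r : ℝ) : 0 ≤ faeR r := by
  exact le_max_left _ _

theorem fae_R_supp {r : ℝ} (h : faeR r ≠ 0) : 1 ≤ r ∧ r ≤ 2 := by
  by_contra hcon
  apply h
  unfold faeR
  apply max_eq_left
  rw [not_and_or, not_le, not_le] at hcon
  rcases hcon with h1 | h1
  · exact (min_le_left _ _).trans (by linarith)
  · exact (min_le_right _ _).trans (by linarith)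

theorem fae_I_ne_zero (n : ℕ) : faeI n ≠ 0 := by
  have h1 : ENNReal.ofReal (1 / 4) * volume (Icc (5 / 4 : ℝ) (7 / 4)) ≤ faeI n := by
    unfold faeI
    calc ENNReal.ofReal (1 / 4) * volume (Icc (5 / 4 : ℝ) (7 / 4))
        = ∫⁻ _ in Icc (5 / 4 : ℝ) (7 / 4), ENNReal.ofReal (1 / 4) := by rw [setLIntegral_const]
      _ ≤ ∫⁻ ρ in Icc (5 / 4 : ℝ) (7 / 4), ENNReal.ofReal (faeR ρ) * ENNReal.ofReal (ρ ^ (n - 1)) := by
          refine setLIntegral_mono' measurableSet_Icc fun ρ hρ => ?_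
          rw [← ENNReal.ofReal_mul (fae_R_nonneg _)]
          apply ENNReal.ofReal_le_ofReal
          have h2 : 1 / 4 ≤ faeR ρ := by
            unfold faeR
            refine le_max_of_le_right (le_min ?_ ?_) <;> linarith [hρ.1, hρ.2]
          have h3 : 1 ≤ ρ ^ (n - 1) := one_le_pow₀ (by linarith [hρ.1])
          nlinarith
      _ ≤ _ := lintegral_mono_set fun ρ hρ => by
          have := hρ.1
          exact mem_Ioi.2 (by linarith)
  intro h0
  rw [h0, nonpos_iff_eq_zero, Real.volume_Icc] at h1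
  norm_num at h1

theorem fae_I_ne_top (n : ℕ) : faeI n ≠ ⊤ := by
  have h1 : faeI n ≤ ∫⁻ ρ in Icc (1 : ℝ) 2, ENNReal.ofReal (2 ^ (n - 1)) := by
    unfold faeI
    rw [← lintegral_indicator measurableSet_Icc]
    refine (setLIntegral_le_lintegral _ _).trans (lintegral_mono fun ρ => ?_)
    by_cases hρ : faeR ρ = 0
    · simp [hρ]
    · have h2 := fae_R_supp hρ
      rw [indicator_of_mem (show ρ ∈ Icc (1 : ℝ) 2 from h2), ← ENNReal.ofReal_mul (fae_R_nonneg _)]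
      apply ENNReal.ofReal_le_ofReal
      have h3 : faeR ρ ≤ 1 := by
        unfold faeR
        exact max_le (by norm_num) ((min_le_left _ _).trans (by linarith [h2.2]))
      have h4 : ρ ^ (n - 1) ≤ 2 ^ (n - 1) := pow_le_pow_left₀ (by linarith [h2.1]) h2.2 _
      have h5 : 0 ≤ ρ ^ (n - 1) := pow_nonneg (by linarith [h2.1]) _
      nlinarith [fae_R_nonneg ρ]
  refine ne_top_of_le_ne_top ?_ h1
  rw [setLIntegral_const, Real.volume_Icc]
  exact ENNReal.mul_ne_top ENNReal.ofReal_ne_top ENNReal.ofReal_ne_top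

/-- `ρ = c σ` (`lintegral_image_eq_lintegral_abs_deriv_mul` on `Ioi 0`, or `lintegral_comp_mul_left`-type lemmas). -/
theorem fae_I_scale (hn : 2 ≤ n) {t : ℝ} (hc : 0 < Real.cos t) :
    ∫⁻ ρ in Ioi (0 : ℝ), faeG t ρ * ENNReal.ofReal (ρ ^ (n - 2)) = ENNReal.ofReal (Real.cos t ^ (n - 2)) * faeI n := by
  obtain ⟨c, hcdef⟩ : ∃ c, c = Real.cos t := ⟨_, rfl⟩
  unfold faeG faeI
  rw [← hcdef] at hc ⊢
  have himg : (fun σ : ℝ => c * σ) '' Ioi 0 = Ioi 0 := by
    rw [Set.image_mul_left_Ioi hc, mul_zero]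
  have h := lintegral_image_eq_lintegral_abs_deriv_mul (s := Ioi (0 : ℝ)) (f := fun σ : ℝ => c * σ) (f' := fun _ => c)
    measurableSet_Ioi (fun x _ => by simpa using ((hasDerivAt_id x).const_mul c).hasDerivWithinAt)
    (fun x _ y _ hxy => mul_left_cancel₀ hc.ne' hxy)
    (fun ρ => ENNReal.ofReal (faeR (ρ / c) * ρ / c ^ 2) * ENNReal.ofReal (ρ ^ (n - 2)))
  rw [himg] at h
  rw [h, ← lintegral_const_mul' _ _ ENNReal.ofReal_ne_top]
  refine setLIntegral_congr_fun measurableSet_Ioi fun σ hσ => ?_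
  have hσ0 : (0 : ℝ) < σ := hσ
  have hR := fae_R_nonneg σ
  have e1 : c * σ / c = σ := by field_simp
  simp only [e1]
  rw [← ENNReal.ofReal_mul (by positivity), ← ENNReal.ofReal_mul (abs_nonneg _), ← ENNReal.ofReal_mul hR,
    ← ENNReal.ofReal_mul (by positivity), abs_of_pos hc]
  congr 1
  obtain ⟨k, rfl⟩ : ∃ k, n = k + 2 := ⟨n - 2, by omega⟩
  have e2 : k + 2 - 2 = k := by omega
  have e3 : k + 2 - 1 = k + 1 := by omega
  rw [e2, e3]
  field_simp
  ring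

theorem fae_G_meas : Measurable (fun q : ℝ × ℝ => faeG q.1 q.2) := by
  unfold faeG
  have h1 : Measurable fun q : ℝ × ℝ => Real.cos q.1 := Real.measurable_cos.comp measurable_fst
  exact ((((fae_R_cont.measurable.comp (measurable_snd.div h1)).mul measurable_snd).div (h1.pow_const 2))).ennreal_ofReal

/-! ### L-EN-T : polar formulas without finiteness hypotheses (truncation `J ⊓ N`, `lintegral_iSup`, `ENNReal.mul_iSup`, `inf_iSup_eq`, `ENNReal.iSup_natCast`) -/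

theorem fae_trunc {X : Type*} [MeasurableSpace X] (μ : Measure X) (B : Set X) (hfin : μ B ≠ ⊤) (c : ℝ≥0∞) (G : X → ℝ≥0∞) (hG : Measurable G)
    (P : (X → ℝ≥0∞) → Prop) (hP : ∀ J, P J → ∀ N : ℕ, P fun x => J x ⊓ (N : ℝ≥0∞))
    (H : ∀ J : X → ℝ≥0∞, Measurable J → P J → ∫⁻ x in B, J x ∂μ ≠ ⊤ → ∫⁻ x, G x * J x ∂μ = c * ∫⁻ x in B, J x ∂μ)
    (J : X → ℝ≥0∞) (hJ : Measurable J) (hPJ : P J) : ∫⁻ x, G x * J x ∂μ = c * ∫⁻ x in B, J x ∂μ := by
  have hsup : ∀ x, J x = ⨆ N : ℕ, J x ⊓ (N : ℝ≥0∞) := by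
    intro x
    rw [← inf_iSup_eq, ENNReal.iSup_natCast, inf_top_eq]
  have hm : ∀ N : ℕ, Measurable fun x => J x ⊓ (N : ℝ≥0∞) := fun N => hJ.inf measurable_const
  have hmono : Monotone fun (N : ℕ) (x : X) => J x ⊓ (N : ℝ≥0∞) := by
    intro N M hNM x
    exact inf_le_inf_left _ (by exact_mod_cast hNM)
  have hN : ∀ N : ℕ, ∫⁻ x, G x * (J x ⊓ (N : ℝ≥0∞)) ∂μ = c * ∫⁻ x in B, J x ⊓ (N : ℝ≥0∞) ∂μ := by
    intro N
    refine H _ (hm N) (hP J hPJ N) ?_
    have : ∫⁻ x in B, J x ⊓ (N : ℝ≥0∞) ∂μ ≤ ∫⁻ _ in B, (N : ℝ≥0∞) ∂μ := lintegral_mono fun x => inf_le_right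
    refine ne_top_of_le_ne_top ?_ this
    rw [setLIntegral_const]
    exact ENNReal.mul_ne_top (ENNReal.natCast_ne_top N) hfin
  have e1 : ∫⁻ x, G x * J x ∂μ = ⨆ N : ℕ, ∫⁻ x, G x * (J x ⊓ (N : ℝ≥0∞)) ∂μ := by
    rw [← lintegral_iSup (f := fun (N : ℕ) (x : X) => G x * (J x ⊓ (N : ℝ≥0∞))) (fun N => hG.mul (hm N))
      (fun N M hNM x => mul_le_mul_right (hmono hNM x) _)]
    refine lintegral_congr fun x => ?_
    rw [← ENNReal.mul_iSup, ← hsup x]
  have e2 : ∫⁻ x in B, J x ∂μ = ⨆ N : ℕ, ∫⁻ x in B, J x ⊓ (N : ℝ≥0∞) ∂μ := by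
    rw [← lintegral_iSup (f := fun (N : ℕ) (x : X) => J x ⊓ (N : ℝ≥0∞)) hm hmono]
    refine lintegral_congr fun x => hsup x
  rw [e1, e2, ENNReal.mul_iSup]
  exact iSup_congr hN

theorem fae_polar_vol (hn : 0 < n) (J : E n → ℝ≥0∞) (hJ : Measurable J) (hJ0 : ∀ t : ℝ, 0 < t → ∀ x, J (t • x) = J x)
    (g : ℝ → ℝ≥0∞) (hg : Measurable g) :
    ∫⁻ x, g ‖x‖ * J x =
      (ENNReal.ofReal n * ∫⁻ ρ in Ioi (0 : ℝ), g ρ * ENNReal.ofReal (ρ ^ (n - 1))) * ∫⁻ x in ball (0 : E n) 1, J x := by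
  refine fae_trunc (volume : Measure (E n)) (ball 0 1) measure_ball_lt_top.ne _ (fun x => g ‖x‖) (hg.comp measurable_norm)
    (fun J => ∀ t : ℝ, 0 < t → ∀ x, J (t • x) = J x) (fun J hJ N t ht x => by simp only [hJ t ht x])
    (fun J hJ hJ0 hJb => fa_polar_vol hn J hJ hJ0 hJb g hg) J hJ hJ0

theorem fae_polar_mu (hn : 2 ≤ n) {S : Set (E n)} (hS : MeasurableSet S) (hc : GmtCone S) (hlf : GmtLF S univ)
    (J : E n → ℝ≥0∞) (hJ : Measurable J) (hJ0 : ∀ t : ℝ, 0 < t → ∀ x, J (t • x) = J x)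
    (g : ℝ → ℝ≥0∞) (hg : Measurable g) :
    ∫⁻ x, g ‖x‖ * J x ∂(gmtMu S) =
      (∫⁻ ρ in Ioi (0 : ℝ), g ρ * ENNReal.ofReal (ρ ^ (n - 2))) * faLk S J := by
  have hfin : gmtMu S (ball 0 1) ≠ ⊤ :=
    ne_top_of_le_ne_top (gmtMu_compact_ne_top isOpen_univ hlf (isCompact_closedBall (0 : E n) 1) (subset_univ _))
      (measure_mono ball_subset_closedBall)
  rw [faLk, ← mul_assoc]
  refine fae_trunc (gmtMu S) (ball 0 1) hfin _ (fun x => g ‖x‖) (hg.comp measurable_norm)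
    (fun J => ∀ t : ℝ, 0 < t → ∀ x, J (t • x) = J x) (fun J hJ N t ht x => by simp only [hJ t ht x])
    (fun J hJ hJ0 hJb => ?_) J hJ hJ0
  rw [fa_polar_mu hn hS hc hlf J hJ hJ0 hJb g hg, faLk, ← mul_assoc]

/-! ### the context -/

/-- the context of the master inequality. -/
structure FaeCtx (n : ℕ) (S U : Set (E n)) (K : ℝ) (v : E n) : Prop where
  n2 : 2 ≤ n
  cone : MinCone n S
  tube : GmtSimCone S U (gmtSimSd S)
  conic : ∀ t : ℝ, 0 < t → ∀ x ∈ U, t • x ∈ U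
  sd : FaSd K (gmtSimSd S)
  v1 : ‖v‖ < 1

/-- admissible densities `F(p,t)`. -/
structure FaeDen (U : Set (E n)) (F : E n → ℝ → ℝ) (t₁ : ℝ) : Prop where
  cont : ContinuousOn (fun q : E n × ℝ => F q.1 q.2) (U ×ˢ univ)
  nonneg : ∀ p ∈ U, ∀ t, 0 ≤ F p t
  hom : ∀ r : ℝ, 0 < r → ∀ p ∈ U, ∀ t, F (r • p) t = F p t
  t1 : t₁ < Real.pi / 2
  supp : ∀ p ∈ U, ∀ t, t₁ ≤ |t| → F p t = 0

variable {S U : Set (E n)} {K : ℝ} {v : E n} {F : E n → ℝ → ℝ} {t₁ : ℝ}

/-! ### L-EN-A : the hypotheses of `faa_main` -/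

/-- `∇u` is continuous on `U` (`gmtSim_contDiffOn_gradient`), `‖p‖ ≠ 0` on `U`; `faBs u v p s = faC v * (s - ⟪v, p + s • ∇u p⟫)` (unfold `faBs`, `faBt`);
`ContinuousOn.congr` removes the `if`. -/
theorem fae_B_cont (hc : FaeCtx n S U K v) (hF : FaeDen U F t₁) :
    ContinuousOn (fun q : E n × ℝ => faeB U (gmtSimSd S) v F q.1 q.2) (U ×ˢ univ) := by
  have hg : ContinuousOn (gradient (gmtSimSd S)) U :=
    (gmtSim_contDiffOn_gradient hc.tube.opn hc.tube.smooth).continuousOn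
  have hg' : ContinuousOn (fun q : E n × ℝ => gradient (gmtSimSd S) q.1) (U ×ˢ univ) :=
    hg.comp continuousOn_fst (fun q hq => hq.1)
  have hb : ContinuousOn (fun q : E n × ℝ => faBs (gmtSimSd S) v q.1 q.2) (U ×ˢ univ) := by
    unfold faBs faBt
    refine continuousOn_const.mul (continuousOn_snd.sub ?_)
    exact continuousOn_const.inner (continuousOn_fst.add (continuousOn_snd.smul hg'))
  have hn : ContinuousOn (fun q : E n × ℝ => ‖q.1‖) (U ×ˢ univ) := continuousOn_fst.norm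
  have hn0 : ∀ q ∈ U ×ˢ (univ : Set ℝ), ‖q.1‖ ≠ 0 := by
    intro q hq h
    rw [norm_eq_zero] at h
    exact hc.tube.zero (h ▸ hq.1)
  have h1 : ContinuousOn (fun q : E n × ℝ =>
      faeR (Real.sqrt (‖q.1‖ ^ 2 + faBs (gmtSimSd S) v q.1 q.2 ^ 2))) (U ×ˢ univ) :=
    fae_R_cont.comp_continuousOn (Real.continuous_sqrt.comp_continuousOn ((hn.pow 2).add (hb.pow 2)))
  have h2 : ContinuousOn (fun q : E n × ℝ =>
      F q.1 (Real.arctan (faBs (gmtSimSd S) v q.1 q.2 / ‖q.1‖))) (U ×ˢ univ) := by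
    have := hF.cont.comp (f := fun q : E n × ℝ => (q.1, Real.arctan (faBs (gmtSimSd S) v q.1 q.2 / ‖q.1‖)))
      (continuousOn_fst.prodMk (Real.continuous_arctan.comp_continuousOn (hb.div hn hn0)))
      (fun q hq => ⟨hq.1, mem_univ _⟩)
    exact this
  refine (h1.mul h2).congr ?_
  intro q hq
  simp only [faeB, if_pos hq.1, Pi.mul_apply]

theorem fae_B_nonneg (hF : FaeDen U F t₁) (u : E n → ℝ) (p : E n) (s : ℝ) : 0 ≤ faeB U u v F p s := by
  unfold faeB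
  split_ifs with h
  · exact mul_nonneg (fae_R_nonneg _) (hF.nonneg p h _)
  · exact le_rfl

/-- `faeB ≠ 0`: `p ∈ U`, `1 ≤ √(|p|²+b²) ≤ 2`, `|arctan(b/|p|)| < t₁`.  WLOG `0 < t₁` (else `F = 0`).  `|b| ≤ |p| tan t₁`, so `1 ≤ |p|²(1+tan² t₁) = |p|²/cos² t₁`: `r₁ = cos t₁`, `r₂ = 2`;
`|b| ≤ 2`, `b = D s - C⟨v,p⟩` (`fa_Bs_eq`), `D = C(1-⟨v,N⟩) ≥ C(1-|v|)` (`|N| = 1` on `U`): `L = (2 + 2C)/(C(1-|v|))`. -/
theorem fae_B_supp (hc : FaeCtx n S U K v) (hF : FaeDen U F t₁) :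
    ∃ r₁ r₂ L : ℝ, 0 < r₁ ∧ ∀ p s, faeB U (gmtSimSd S) v F p s ≠ 0 → r₁ ≤ ‖p‖ ∧ ‖p‖ ≤ r₂ ∧ |s| ≤ L := by
  have hC := fa_C_pos hc.v1
  have hv1 : 0 < 1 - ‖v‖ := by linarith [hc.v1]
  by_cases ht : 0 < t₁
  swap
  · refine ⟨1, 1, 1, one_pos, fun p s h => ?_⟩
    exfalso
    apply h
    unfold faeB
    split_ifs with hp
    · rw [hF.supp p hp _ (le_trans (not_lt.1 ht) (abs_nonneg _)), mul_zero]
    · rfl
  have hcos : 0 < Real.cos t₁ := Real.cos_pos_of_mem_Ioo ⟨by linarith [Real.pi_pos], hF.t1⟩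
  refine ⟨Real.cos t₁, 2, (2 + 2 * faC v) / (faC v * (1 - ‖v‖)), hcos, fun p s h => ?_⟩
  have hp : p ∈ U := by
    by_contra hp
    exact h (by simp only [faeB, if_neg hp])
  simp only [faeB, if_pos hp] at h
  set b := faBs (gmtSimSd S) v p s with hb
  have hR := fae_R_supp (left_ne_zero_of_mul h)
  have hFt : |Real.arctan (b / ‖p‖)| < t₁ := by
    by_contra hcon
    exact right_ne_zero_of_mul h (hF.supp p hp _ (not_lt.1 hcon))
  have hp0 : 0 < ‖p‖ := by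
    rw [norm_pos_iff]
    intro h0
    exact hc.tube.zero (h0 ▸ hp)
  have hsq : 0 ≤ ‖p‖ ^ 2 + b ^ 2 := by positivity
  have h1 : 1 ≤ ‖p‖ ^ 2 + b ^ 2 := by
    have := Real.le_sqrt' (x := 1) (y := ‖p‖ ^ 2 + b ^ 2) one_pos
    have h := this.1 hR.1
    simpa using h
  have h2 : ‖p‖ ^ 2 + b ^ 2 ≤ 4 := by
    have h := (Real.sqrt_le_left (by norm_num : (0 : ℝ) ≤ 2)).1 hR.2
    norm_num at h
    exact h
  have htan : |b / ‖p‖| < Real.tan t₁ := by
    rw [abs_lt] at hFt ⊢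
    constructor
    · have := Real.tan_lt_tan_of_lt_of_lt_pi_div_two (x := -t₁) (y := Real.arctan (b / ‖p‖))
        (by linarith [hF.t1]) (Real.arctan_lt_pi_div_two _) hFt.1
      rwa [Real.tan_arctan, Real.tan_neg] at this
    · have := Real.tan_lt_tan_of_lt_of_lt_pi_div_two (x := Real.arctan (b / ‖p‖)) (y := t₁)
        (Real.neg_pi_div_two_lt_arctan _) hF.t1 hFt.2
      rwa [Real.tan_arctan] at this
  have hb2 : b ^ 2 ≤ ‖p‖ ^ 2 * Real.tan t₁ ^ 2 := by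
    have h3 : (b / ‖p‖) ^ 2 ≤ Real.tan t₁ ^ 2 := by
      rw [← sq_abs (b / ‖p‖)]
      exact pow_le_pow_left₀ (abs_nonneg _) htan.le 2
    rw [div_pow, div_le_iff₀ (by positivity)] at h3
    linarith
  have hpl : Real.cos t₁ ≤ ‖p‖ := by
    have h4 : Real.cos t₁ ^ 2 ≤ ‖p‖ ^ 2 := by
      have h5 : Real.tan t₁ ^ 2 * Real.cos t₁ ^ 2 = Real.sin t₁ ^ 2 := by
        rw [Real.tan_eq_sin_div_cos]
        field_simp
      have h6 := Real.sin_sq_add_cos_sq t₁
      have h7 : Real.cos t₁ ^ 2 * 1 ≤ Real.cos t₁ ^ 2 * (‖p‖ ^ 2 + ‖p‖ ^ 2 * Real.tan t₁ ^ 2) :=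
        mul_le_mul_of_nonneg_left (by linarith) (by positivity)
      have h8 : Real.cos t₁ ^ 2 * (‖p‖ ^ 2 + ‖p‖ ^ 2 * Real.tan t₁ ^ 2) = ‖p‖ ^ 2 := by
        linear_combination ‖p‖ ^ 2 * h5 + ‖p‖ ^ 2 * h6
      linarith
    exact (pow_le_pow_iff_left₀ hcos.le hp0.le (by norm_num)).1 h4
  have hpu : ‖p‖ ≤ 2 := by
    have : ‖p‖ ^ 2 ≤ 2 ^ 2 := by nlinarith [sq_nonneg b]
    exact (pow_le_pow_iff_left₀ hp0.le (by norm_num) (by norm_num)).1 this
  have hbu : |b| ≤ 2 := by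
    have : |b| ^ 2 ≤ 2 ^ 2 := by rw [sq_abs]; nlinarith [sq_nonneg ‖p‖]
    exact (pow_le_pow_iff_left₀ (abs_nonneg _) (by norm_num) (by norm_num)).1 this
  refine ⟨hpl, hpu, ?_⟩
  have hN : ‖gradient (gmtSimSd S) p‖ = 1 := hc.tube.eik p hp
  have hD : faC v * (1 - ‖v‖) ≤ faD (gmtSimSd S) v p := by
    unfold faD
    refine mul_le_mul_of_nonneg_left ?_ hC.le
    have := real_inner_le_norm v (gradient (gmtSimSd S) p)
    rw [hN, mul_one] at this
    linarith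
  have hD0 : 0 < faC v * (1 - ‖v‖) := mul_pos hC hv1
  have hbe : faD (gmtSimSd S) v p * s = b + faC v * ⟪v, p⟫ := by
    rw [hb, fa_Bs_eq]
    ring
  have hvp : |⟪v, p⟫| ≤ 2 := by
    have h9 := abs_real_inner_le_norm v p
    have : ‖v‖ * ‖p‖ ≤ 1 * 2 := mul_le_mul hc.v1.le hpu hp0.le zero_le_one
    linarith
  have h10 : |faD (gmtSimSd S) v p * s| ≤ 2 + 2 * faC v := by
    rw [hbe]
    refine (abs_add_le _ _).trans ?_
    rw [abs_mul, abs_of_pos hC]
    nlinarith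
  rw [le_div_iff₀ hD0]
  rw [abs_mul, abs_of_pos (lt_of_lt_of_le hD0 hD)] at h10
  have h11 : |s| * (faC v * (1 - ‖v‖)) ≤ |s| * faD (gmtSimSd S) v p :=
    mul_le_mul_of_nonneg_left hD (abs_nonneg _)
  linarith

/-- at a contact `‖𝒴‖² = |p|² + b²` (`fa_Ys_norm`; `|N| = 1` by `tube.eik`, `⟪p,N⟫ = u p = 0` by `tube.hom`, `tube.zero_iff`). -/
theorem fae_B_dom (hc : FaeCtx n S U K v) (hF : FaeDen U F t₁) (f : E n → ℝ≥0∞)
    (hdom : ∀ p ∈ gmtBd S, p ≠ 0 → ∀ s, FaCt (gmtSimSd S) p s →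
      f (faYs (gmtSimSd S) v p s) ≤ ENNReal.ofReal (F p (Real.arctan (faBs (gmtSimSd S) v p s / ‖p‖))))
    (p : E n) (hp : p ∈ gmtBd S) (hp0 : p ≠ 0) (s : ℝ) (hs : FaCt (gmtSimSd S) p s) :
    ENNReal.ofReal (faeR ‖faYs (gmtSimSd S) v p s‖) * f (faYs (gmtSimSd S) v p s)
      ≤ ENNReal.ofReal (faeB U (gmtSimSd S) v F p s) := by
  have hpU : p ∈ U := hc.tube.bd p hp hp0
  have hN : ‖gradient (gmtSimSd S) p‖ = 1 := hc.tube.eik p hpU
  have hpN : ⟪p, gradient (gmtSimSd S) p⟫ = 0 := by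
    rw [hc.tube.hom p hpU]
    exact (hc.tube.zero_iff p hpU).2 hp
  have hY := fa_Ys_norm (gmtSimSd S) hc.v1 hN hpN s
  have hY' : ‖faYs (gmtSimSd S) v p s‖ = Real.sqrt (‖p‖ ^ 2 + faBs (gmtSimSd S) v p s ^ 2) := by
    rw [← hY, Real.sqrt_sq (norm_nonneg _)]
  simp only [faeB, if_pos hpU]
  rw [ENNReal.ofReal_mul (fae_R_nonneg _), ← hY']
  exact mul_le_mul_right (hdom p hp hp0 s hs) _

/-! ### L-EN-B : the substitution `s = s_v(p,t)` -/

/-- `lintegral_image_eq_lintegral_abs_deriv_mul` with `f t = faS u v p t`, `f' t = ‖p‖/(D cos² t)` (`Real.hasDerivAt_tan`), injective on `Ioo` (`Real.injOn_tan`), image `= univ` (`Real.surjOn_tan`/`Real.tan_arctan`);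
`faBs u v p (faS u v p t) = ‖p‖ tan t` (`fa_Bs_S`), `arctan (tan t) = t` (`Real.arctan_tan`), `√(|p|² + |p|² tan² t) = |p|/cos t`; `ENNReal.ofReal_mul`. -/
theorem fae_subst (hc : FaeCtx n S U K v) (hF : FaeDen U F t₁) {p : E n} (hp : p ∈ U) :
    ∫⁻ s : ℝ, ENNReal.ofReal (faeB U (gmtSimSd S) v F p s * faD (gmtSimSd S) v p
        * faDet (1 + s • gmtSimH (gmtSimSd S) p))
      = ∫⁻ t in Ioo (-(Real.pi / 2)) (Real.pi / 2), faeG t ‖p‖ * faeJ U (gmtSimSd S) v F p t := by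
  set u := gmtSimSd S with hu
  have hN : ‖gradient u p‖ = 1 := hc.tube.eik p hp
  have hD : 0 < faD u v p := fa_D_pos' hc.v1 hN
  have hp0 : 0 < ‖p‖ := by
    rw [norm_pos_iff]
    intro h0
    exact hc.tube.zero (h0 ▸ hp)
  have hder : ∀ t ∈ Ioo (-(Real.pi / 2)) (Real.pi / 2),
      HasDerivWithinAt (fun t => faS u v p t) (‖p‖ / Real.cos t ^ 2 / faD u v p) (Ioo (-(Real.pi / 2)) (Real.pi / 2)) t := by
    intro t ht
    have hcos : Real.cos t ≠ 0 := (Real.cos_pos_of_mem_Ioo ht).ne'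
    have h1 := (((Real.hasDerivAt_tan hcos).const_mul ‖p‖).add_const (faC v * ⟪v, p⟫)).div_const (faD u v p)
    have h2 : ‖p‖ * (1 / Real.cos t ^ 2) / faD u v p = ‖p‖ / Real.cos t ^ 2 / faD u v p := by ring
    rw [h2] at h1
    exact h1.hasDerivWithinAt
  have hinj : InjOn (fun t => faS u v p t) (Ioo (-(Real.pi / 2)) (Real.pi / 2)) := by
    intro a ha b hb hab
    simp only [faS] at hab
    have h1 : ‖p‖ * Real.tan a + faC v * ⟪v, p⟫ = ‖p‖ * Real.tan b + faC v * ⟪v, p⟫ :=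
      (div_left_inj' hD.ne').1 hab
    have h2 : Real.tan a = Real.tan b := by
      have : ‖p‖ * Real.tan a = ‖p‖ * Real.tan b := by linarith
      exact mul_left_cancel₀ hp0.ne' this
    exact Real.injOn_tan ha hb h2
  have himg : (fun t => faS u v p t) '' Ioo (-(Real.pi / 2)) (Real.pi / 2) = univ := by
    refine eq_univ_of_forall fun s => ?_
    refine ⟨Real.arctan ((faD u v p * s - faC v * ⟪v, p⟫) / ‖p‖),
      ⟨Real.neg_pi_div_two_lt_arctan _, Real.arctan_lt_pi_div_two _⟩, ?_⟩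
    simp only [faS, Real.tan_arctan]
    field_simp
    ring
  have key := lintegral_image_eq_lintegral_abs_deriv_mul measurableSet_Ioo hder hinj
    (fun s => ENNReal.ofReal (faeB U u v F p s * faD u v p * faDet (1 + s • gmtSimH u p)))
  rw [himg, Measure.restrict_univ] at key
  rw [key]
  refine setLIntegral_congr_fun measurableSet_Ioo fun t ht => ?_
  have hcos : 0 < Real.cos t := Real.cos_pos_of_mem_Ioo ht
  have hbs : faBs u v p (faS u v p t) = ‖p‖ * Real.tan t := fa_Bs_S u hD.ne' t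
  have harc : Real.arctan (‖p‖ * Real.tan t / ‖p‖) = t := by
    rw [mul_div_cancel_left₀ _ hp0.ne']
    exact Real.arctan_tan ht.1 ht.2
  have hsq : Real.sqrt (‖p‖ ^ 2 + (‖p‖ * Real.tan t) ^ 2) = ‖p‖ / Real.cos t := by
    have : ‖p‖ ^ 2 + (‖p‖ * Real.tan t) ^ 2 = (‖p‖ / Real.cos t) ^ 2 := by
      rw [Real.tan_eq_sin_div_cos]
      have h6 := Real.sin_sq_add_cos_sq t
      field_simp
      linear_combination h6
    rw [this, Real.sqrt_sq (by positivity)]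
  simp only [faeB, faeJ, faeG, if_pos hp, hbs, harc, hsq]
  rw [abs_of_pos (by positivity), ← ENNReal.ofReal_mul (by positivity),
    ← ENNReal.ofReal_mul (by have := fae_R_nonneg (‖p‖ / Real.cos t); positivity)]
  congr 1
  field_simp

/-! ### L-EN-C : measurability, homogeneity, the measure -/

/-- `F 1_U` is measurable (continuous on the open set `U ×ˢ univ`), `gradient u`, `gmtSimH u` are measurable (`measurable_fderiv`), `fa_det_meas`. -/
theorem fae_J_meas (hU : IsOpen U) (hF : FaeDen U F t₁) (u : E n → ℝ) (v : E n) :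
    Measurable (fun q : E n × ℝ => faeJ U u v F q.1 q.2) := by
  classical
  have hUm : MeasurableSet (U ×ˢ (univ : Set ℝ)) := (hU.prod isOpen_univ).measurableSet
  have hFm : Measurable ((U ×ˢ (univ : Set ℝ)).piecewise (fun q : E n × ℝ => F q.1 q.2) (fun _ => 0)) :=
    hF.cont.measurable_piecewise continuousOn_const hUm
  have hgr : Measurable (gradient u) := by
    unfold gradient
    exact (InnerProductSpace.toDual ℝ (E n)).symm.continuous.measurable.comp (measurable_fderiv ℝ u)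
  have hH : Measurable (gmtSimH u) := measurable_fderiv ℝ (gradient u)
  have htan : Measurable Real.tan := by
    have : Real.tan = fun x => Real.sin x / Real.cos x := funext Real.tan_eq_sin_div_cos
    rw [this]
    exact Real.measurable_sin.div Real.measurable_cos
  have hS : Measurable (fun q : E n × ℝ => faS u v q.1 q.2) := by
    unfold faS faD
    refine Measurable.div ?_ ?_
    · exact ((measurable_norm.comp measurable_fst).mul (htan.comp measurable_snd)).add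
        (measurable_const.mul (measurable_const.inner measurable_fst))
    · exact measurable_const.mul (measurable_const.sub (measurable_const.inner (hgr.comp measurable_fst)))
  have hM : Measurable (fun q : E n × ℝ => faDet (1 + faS u v q.1 q.2 • gmtSimH u q.1)) :=
    fa_det_meas.comp (measurable_const.add (hS.smul (hH.comp measurable_fst)))
  have heq : (fun q : E n × ℝ => faeJ U u v F q.1 q.2) = fun q : E n × ℝ =>
      ENNReal.ofReal ((U ×ˢ (univ : Set ℝ)).piecewise (fun q : E n × ℝ => F q.1 q.2) (fun _ => 0) q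
        * faDet (1 + faS u v q.1 q.2 • gmtSimH u q.1)) := by
    funext q
    by_cases hq : q.1 ∈ U
    · have hq' : q ∈ U ×ˢ (univ : Set ℝ) := ⟨hq, mem_univ _⟩
      simp only [faeJ, if_pos hq, Set.piecewise_eq_of_mem _ _ _ hq']
    · have hq' : q ∉ U ×ˢ (univ : Set ℝ) := fun h => hq h.1
      simp only [faeJ, if_neg hq, Set.piecewise_eq_of_notMem _ _ _ hq', zero_mul, ENNReal.ofReal_zero]
  rw [heq]
  exact ENNReal.measurable_ofReal.comp (hFm.mul hM)

/-- `∇u (r p) = ∇u p` (`kit_grad_smul`), `H (r p) = r⁻¹ H p` (see the proof of `gmtSim_A_smul`), `faS` is `1`-homogeneous, `r p ∈ U ↔ p ∈ U`. -/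
theorem fae_J_hom (hc : FaeCtx n S U K v) (hF : FaeDen U F t₁) {r : ℝ} (hr : 0 < r) (p : E n) (t : ℝ) :
    faeJ U (gmtSimSd S) v F (r • p) t = faeJ U (gmtSimSd S) v F p t := by
  have hu : ∀ x, gmtSimSd S (r • x) = r * gmtSimSd S x := hc.sd.hom r hr
  have hU : r • p ∈ U ↔ p ∈ U := by
    constructor
    · intro h
      have := hc.conic r⁻¹ (inv_pos.2 hr) _ h
      rwa [smul_smul, inv_mul_cancel₀ hr.ne', one_smul] at this
    · exact hc.conic r hr p
  have hg : ∀ y, gradient (gmtSimSd S) (r • y) = gradient (gmtSimSd S) y := by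
    intro y
    have h1 : (fun y => gmtSimSd S (r • y)) = r • gmtSimSd S := by
      funext y
      rw [hu y]
      rfl
    have e1 : fderiv ℝ (fun y => gmtSimSd S (r • y)) y = r • fderiv ℝ (gmtSimSd S) (r • y) := fderiv_comp_smul r
    have e2 : fderiv ℝ (r • gmtSimSd S) y = r • fderiv ℝ (gmtSimSd S) y := by
      rw [fderiv_const_smul_field]
      rfl
    rw [h1, e2] at e1
    unfold gradient
    rw [(smul_right_injective _ hr.ne' e1).symm]
  have hH : gmtSimH (gmtSimSd S) (r • p) = r⁻¹ • gmtSimH (gmtSimSd S) p := by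
    have h3 : (fun y => gradient (gmtSimSd S) (r • y)) = gradient (gmtSimSd S) := funext hg
    have e1 : fderiv ℝ (fun y => gradient (gmtSimSd S) (r • y)) p = r • fderiv ℝ (gradient (gmtSimSd S)) (r • p) :=
      fderiv_comp_smul r
    rw [h3] at e1
    unfold gmtSimH
    rw [e1, smul_smul, inv_mul_cancel₀ hr.ne', one_smul]
  have hS : faS (gmtSimSd S) v (r • p) t = r * faS (gmtSimSd S) v p t := by
    unfold faS faD
    rw [hg, norm_smul, inner_smul_right, Real.norm_eq_abs, abs_of_pos hr]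
    ring
  unfold faeJ
  by_cases hp : p ∈ U
  · rw [if_pos hp, if_pos (hU.2 hp), hF.hom r hr p hp, hS, hH, smul_smul, mul_assoc, mul_comm (faS _ _ _ _),
      ← mul_assoc, mul_inv_cancel₀ hr.ne', one_mul]
  · rw [if_neg hp, if_neg (fun h => hp (hU.1 h))]

theorem fae_mu_sfinite (hlf : GmtLF S univ) : SFinite (gmtMu S) := by
  have : IsFiniteMeasureOnCompacts (gmtMu S) :=
    ⟨fun _ hK => lt_top_iff_ne_top.2 (gmtMu_compact_ne_top isOpen_univ hlf hK (subset_univ _))⟩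
  infer_instance

theorem fae_mu_U (hc : FaeCtx n S U K v) : ∀ᵐ p ∂(gmtMu S), p ∈ U := by
  filter_upwards [fa_mu_ae hc.n2 hc.cone.meas hc.cone.cone hc.cone.lf] with p hp
  exact hc.tube.bd p hp.1 hp.2

/-! ### the master inequality -/

theorem fae_master (hc : FaeCtx n S U K v) (hF : FaeDen U F t₁)
    (f : E n → ℝ≥0∞) (hf : Measurable f) (hf0 : ∀ r : ℝ, 0 < r → ∀ y, f (r • y) = f y)
    (hdom : ∀ p ∈ gmtBd S, p ≠ 0 → ∀ s, FaCt (gmtSimSd S) p s →
      f (faYs (gmtSimSd S) v p s) ≤ ENNReal.ofReal (F p (Real.arctan (faBs (gmtSimSd S) v p s / ‖p‖)))) :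
    ENNReal.ofReal n * ∫⁻ y in ball (0 : E n) 1, f y ≤
      ∫⁻ t in Ioo (-(Real.pi / 2)) (Real.pi / 2), ENNReal.ofReal (Real.cos t ^ (n - 2)) *
        faLk S (fun p => ENNReal.ofReal (F p t * faDet (1 + faS (gmtSimSd S) v p t • gmtSimH (gmtSimSd S) p))) := by
  have hS := hc.cone
  have hn := hc.n2
  have := fae_mu_sfinite hS.lf
  obtain ⟨r₁, r₂, L, hr₁, hsupp⟩ := fae_B_supp hc hF
  -- (1)
  have h1 := faa_main hS.meas hS.vert hc.tube.toGmtSimTube hc.sd hc.v1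
    (fun y => ENNReal.ofReal (faeR ‖y‖) * f y)
    ((ENNReal.measurable_ofReal.comp (fae_R_cont.measurable.comp measurable_norm)).mul hf)
    (faeB U (gmtSimSd S) v F) (fae_B_cont hc hF) (fae_B_nonneg hF _) hr₁ hsupp (fae_B_dom hc hF f hdom)
  -- (2)
  have h2 := fae_polar_vol (by omega : 0 < n) f hf hf0 (fun r => ENNReal.ofReal (faeR r))
    (ENNReal.measurable_ofReal.comp fae_R_cont.measurable)
  -- (3)
  have h3 : ∫⁻ p, (∫⁻ s : ℝ, ENNReal.ofReal (faeB U (gmtSimSd S) v F p s * faD (gmtSimSd S) v p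
        * faDet (1 + s • gmtSimH (gmtSimSd S) p))) ∂(gmtMu S)
      = ∫⁻ p, (∫⁻ t in Ioo (-(Real.pi / 2)) (Real.pi / 2), faeG t ‖p‖ * faeJ U (gmtSimSd S) v F p t) ∂(gmtMu S) := by
    refine lintegral_congr_ae ?_
    filter_upwards [fae_mu_U hc] with p hp
    exact fae_subst hc hF hp
  -- (4)
  have hm : Measurable (fun q : E n × ℝ => faeG q.2 ‖q.1‖ * faeJ U (gmtSimSd S) v F q.1 q.2) :=
    (fae_G_meas.comp (measurable_snd.prodMk (measurable_norm.comp measurable_fst))).mul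
      (fae_J_meas hc.tube.opn hF _ _)
  have h4 : ∫⁻ p, (∫⁻ t in Ioo (-(Real.pi / 2)) (Real.pi / 2), faeG t ‖p‖ * faeJ U (gmtSimSd S) v F p t) ∂(gmtMu S)
      = ∫⁻ t in Ioo (-(Real.pi / 2)) (Real.pi / 2), (∫⁻ p, faeG t ‖p‖ * faeJ U (gmtSimSd S) v F p t ∂(gmtMu S)) :=
    lintegral_lintegral_swap hm.aemeasurable
  have h5' : ∀ t ∈ Ioo (-(Real.pi / 2)) (Real.pi / 2), (∫⁻ p, faeG t ‖p‖ * faeJ U (gmtSimSd S) v F p t ∂(gmtMu S))
      = faeI n * (ENNReal.ofReal (Real.cos t ^ (n - 2)) *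
        faLk S (fun p => ENNReal.ofReal (F p t * faDet (1 + faS (gmtSimSd S) v p t • gmtSimH (gmtSimSd S) p)))) := by
    intro t ht
    have hcos : 0 < Real.cos t := Real.cos_pos_of_mem_Ioo ht
    have hJm : Measurable (fun p => faeJ U (gmtSimSd S) v F p t) := by
      have h := (fae_J_meas hc.tube.opn hF (gmtSimSd S) v).comp
        (measurable_prodMk_right : Measurable fun p : E n => (p, t))
      exact h
    have hGm : Measurable (faeG t) := by
      have h := fae_G_meas.comp (measurable_prodMk_left : Measurable fun ρ : ℝ => (t, ρ))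
      exact h
    have e1 := fae_polar_mu hn hS.meas hS.cone hS.lf (fun p => faeJ U (gmtSimSd S) v F p t) hJm
      (fun r hr p => fae_J_hom hc hF hr p t) (faeG t) hGm
    have e2 : faLk S (fun p => faeJ U (gmtSimSd S) v F p t)
        = faLk S (fun p => ENNReal.ofReal (F p t * faDet (1 + faS (gmtSimSd S) v p t • gmtSimH (gmtSimSd S) p))) := by
      unfold faLk
      congr 1
      refine lintegral_congr_ae (ae_restrict_of_ae ?_)
      filter_upwards [fae_mu_U hc] with p hp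
      simp only [faeJ, if_pos hp]
    rw [e1, fae_I_scale hn hcos, e2]
    ring
  have h5 : ∫⁻ t in Ioo (-(Real.pi / 2)) (Real.pi / 2), (∫⁻ p, faeG t ‖p‖ * faeJ U (gmtSimSd S) v F p t ∂(gmtMu S))
      = ∫⁻ t in Ioo (-(Real.pi / 2)) (Real.pi / 2), faeI n * (ENNReal.ofReal (Real.cos t ^ (n - 2)) *
        faLk S (fun p => ENNReal.ofReal (F p t * faDet (1 + faS (gmtSimSd S) v p t • gmtSimH (gmtSimSd S) p)))) :=
    setLIntegral_congr_fun measurableSet_Ioo h5'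
  rw [h3, h4, h5, lintegral_const_mul' _ _ (fae_I_ne_top n), h2] at h1
  have h6 : (ENNReal.ofReal n * ∫⁻ ρ in Ioi (0 : ℝ), ENNReal.ofReal (faeR ρ) * ENNReal.ofReal (ρ ^ (n - 1)))
        * ∫⁻ x in ball (0 : E n) 1, f x
      = faeI n * (ENNReal.ofReal n * ∫⁻ y in ball (0 : E n) 1, f y) := by
    unfold faeI
    ring
  rw [h6] at h1
  exact (ENNReal.mul_le_mul_iff_right (fae_I_ne_zero n) (fae_I_ne_top n)).1 h1

end Claimed.Agent.R323
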