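import Claimed.Agent.R323.Fa.CenDens
import Claimed.Agent.R323.Fa.CenReal
import Claimed.Agent.R323.Fa.EnLink
import Claimed.Agent.R323.Fa.CenKit

/-!
# Row 323, block E4 (centre), C5: INTEGRATION.   Architect: helper56.   Prefix `fac`.

`fae_master` (helper33) with `f` = the energy density of `faU`, `F = facF`;  Tonelli;  `fa_E_weight` in `t` for fixed `p`;  `fac_point`.
-/

set_option autoImplicit false
open scoped ContDiff ENNReal NNReal RealInnerProductSpace Topology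
open MeasureTheory Metric Set Filter

namespace Claimed.Agent.R323

open Claimed.Agent.Gmt

variable {n : ℕ}

/-- the energy density of a function `W`. -/
noncomputable def facD (ε : ℝ) (W : E n → ℝ) (y : E n) : ℝ≥0∞ :=
  ENNReal.ofReal (ε / 2 * ‖y‖ ^ 2 * ‖fderiv ℝ W y‖ ^ 2 + acW (W y) / ε)

theorem FacCtx.fae {S U : Set (E n)} {K s₂ : ℝ} {et : E n → ℝ} (hC : FacCtx n S U K s₂ et) {v : E n} (hv : ‖v‖ < 1) :
    FaeCtx n S U K v :=
  ⟨by have := hC.n4; omega, hC.cone, hC.tube.cone, fun t ht x hx => hC.tube.conic x hx t ht, hC.sd, hv⟩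

/-- **L-FAC-INT-A** (measurability, homogeneity of the density).   `measurable_fderiv ℝ W` (no hypothesis on `W`), `acW` continuous. -/
theorem fac_D_meas (ε : ℝ) {W : E n → ℝ} (hW : Measurable W) : Measurable (facD ε W) := by
  unfold facD
  have h1 : Measurable fun y => fderiv ℝ W y := measurable_fderiv ℝ W
  have h2 : Measurable fun y => acW (W y) := by
    unfold acW
    exact ((measurable_const.sub (hW.pow_const 2)).pow_const 2).div_const 4
  exact (((measurable_const.mul (measurable_norm.pow_const 2)).mul (h1.norm.pow_const 2)).add (h2.div_const ε)).ennreal_ofReal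

/-- `fderiv ℝ W (r • y) = r⁻¹ • fderiv ℝ W y` for a `0`-homogeneous `W` (`fderiv_comp_smul` applied to `W ∘ (r • ·) = W`, as in `kit_grad_smul`). -/
theorem fac_D_hom (ε : ℝ) {W : E n → ℝ} (hW : ∀ r : ℝ, 0 < r → ∀ y, W (r • y) = W y) {r : ℝ} (hr : 0 < r) (y : E n) :
    facD ε W (r • y) = facD ε W y := by
  have h1 : (fun y => W (r • y)) = W := funext (hW r hr)
  have e1 : fderiv ℝ (fun y => W (r • y)) y = r • fderiv ℝ W (r • y) := fderiv_comp_smul r
  rw [h1] at e1
  have e2 : fderiv ℝ W (r • y) = r⁻¹ • fderiv ℝ W y := by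
    rw [e1, smul_smul, inv_mul_cancel₀ hr.ne', one_smul]
  unfold facD
  rw [e2, hW r hr, norm_smul, norm_smul, norm_inv, Real.norm_eq_abs, abs_of_pos hr]
  congr 2
  field_simp

/-- `faTh` is measurable (continuous off `0`: `fa_th_cont`, `measurable_of_continuousOn_compl_singleton`), `faZy u v` is continuous (`facg_Zy_continuous`), `et` is continuous off `0`, `faProf` is continuous (`fa_prof_lip`). -/
theorem fac_U_meas {K : ℝ} {u : E n → ℝ} (hK : FaSd K u) {et : E n → ℝ} (het : Hom0 et) {ε lam : ℝ} (hε : 0 < ε) (hl : 0 < lam)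
    {v : E n} (hv : ‖v‖ < 1) (β σ : ℝ) : Measurable (faU u et ε lam v β σ) := by
  obtain ⟨L, hL⟩ := fa_prof_lip (ε := ε) (lam := lam) hε hl.le
  have h1 : Measurable (faTh u v) := by
    refine measurable_of_continuousOn_compl_singleton 0 ?_
    have hc : ContinuousOn (fun y : E n => ((v, y) : E n × E n)) {0}ᶜ := by fun_prop
    have hm : MapsTo (fun y : E n => ((v, y) : E n × E n)) {0}ᶜ (closedBall (0 : E n) 1 ×ˢ {0}ᶜ) := by
      intro y hy
      exact ⟨mem_closedBall_zero_iff.2 hv.le, hy⟩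
    have h := (fa_th_cont hK).comp hc hm
    exact h
  have h2 : Measurable et := measurable_of_continuousOn_compl_singleton 0 het.smooth.continuousOn
  have h3 : Measurable (faZy u v) := (facg_Zy_continuous hK hv).measurable
  unfold faU faW
  exact hL.continuous.measurable.comp ((h1.sub_const β).sub ((h2.comp h3).const_mul σ))

/-- `fa_th_hom`, `fa_Zy_hom`, `het.hom`. -/
theorem fac_U_hom {K : ℝ} {u : E n → ℝ} (hK : FaSd K u) {et : E n → ℝ} (het : Hom0 et) (ε lam : ℝ) (v : E n) (β σ : ℝ)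
    {r : ℝ} (hr : 0 < r) (y : E n) : faU u et ε lam v β σ (r • y) = faU u et ε lam v β σ y := by
  unfold faU faW
  rw [fa_th_hom hK v hr, fa_Zy_hom hK v hr, het.hom r hr]

theorem fac_den_Gr_nonneg {S U : Set (E n)} (hU : KitTube S U) (et : E n → ℝ) {p : E n} (hp : p ∈ U) : 0 ≤ facGr S et p := by
  unfold facGr gmtSimTg
  have hN := hU.cone.eik p hp
  have h1 : |⟪gradient et p, gradient (gmtSimSd S) p⟫| ≤ ‖gradient et p‖ := by
    have := abs_real_inner_le_norm (gradient et p) (gradient (gmtSimSd S) p)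
    rwa [hN, mul_one] at this
  have h2 : ⟪gradient et p, gradient (gmtSimSd S) p⟫ * ⟪gradient et p, gradient (gmtSimSd S) p⟫ ≤ ‖gradient et p‖ ^ 2 := by
    rw [← sq, ← sq_abs]
    exact pow_le_pow_left₀ (abs_nonneg _) h1 2
  rw [real_inner_self_eq_norm_sq]
  exact mul_nonneg (by positivity) (by linarith)

theorem fac_den_Gr_hom {S U : Set (E n)} (hS : MinCone n S) (hU : KitTube S U) {et : E n → ℝ} (het : Hom0 et) {p : E n} (hp : p ∈ U)
    {r : ℝ} (hr : 0 < r) : facGr S et (r • p) = facGr S et p := by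
  unfold facGr
  have hf := het.kitFun hU.cone.zero
  rw [kit_Tg_smul hU.cone.opn hf hf hp hr (fun y => gmtSim_sd_smul hS.cone hr y), norm_smul, Real.norm_eq_abs, abs_of_pos hr]
  field_simp

theorem fac_den_Gr_cont {S U : Set (E n)} (hU : KitTube S U) {et : E n → ℝ} (het : Hom0 et) : ContinuousOn (facGr S et) U := by
  have hf := het.kitFun hU.cone.zero
  have hg : ContinuousOn (gradient (gmtSimSd S)) U := (gmtSim_contDiffOn_gradient hU.cone.opn hU.cone.smooth).continuousOn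
  have he : ContinuousOn (gradient et) U := (gmtSim_contDiffOn_gradient hU.cone.opn hf.smooth).continuousOn
  unfold facGr gmtSimTg
  exact (continuous_norm.pow 2).continuousOn.mul ((he.inner he).sub ((he.inner hg).mul (he.inner hg)))

/-- **L-FAC-INT-B** (`facF` is an admissible density).   Continuity on `U × ℝ`: `et`, `∇et` continuous on `{0}ᶜ ⊇ U`, `∇u` continuous on `U` (`gmtSim_contDiffOn_gradient`), `fa_cut_cont`, `fa_E_cont`.
`nonneg`: ON ALL OF `U` one needs `0 ≤ gmtSimTg u et et p`: Cauchy-Schwarz, `‖∇u p‖ = 1`.   `hom`: `kit_Tg_smul` (`Hom0.kitFun`).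
`supp`: `|t| ≥ t₁` ⟹ `|t - β - σ et p| ≥ t₁ - |β| - |σ| Me ≥ 2T` (`fa_cut_zero`). -/
theorem fac_F_den {S U : Set (E n)} {K s₂ : ℝ} {et : E n → ℝ} (hC : FacCtx n S U K s₂ et) {Me : ℝ}
    (hMe : ∀ x, x ≠ 0 → |et x| ≤ Me) {ε lam om β σ t₁ : ℝ} (hε : 0 < ε) (hl : 0 < lam) (ho : 0 ≤ om)
    (ht₁ : t₁ < Real.pi / 2) (h : 2 * faT ε lam + |β| + |σ| * Me ≤ t₁) : FaeDen U (facF S et ε lam om β σ) t₁ := by
  have het := hC.ext.hom0
  have hU := hC.tube
  have hT := fa_T_pos hε hl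
  refine ⟨?_, ?_, ?_, ht₁, ?_⟩
  · have hf := het.kitFun hU.cone.zero
    have h1 : ContinuousOn (fun q : E n × ℝ => et q.1) (U ×ˢ univ) :=
      hf.smooth.continuousOn.comp continuousOn_fst fun q hq => hq.1
    have h2 : ContinuousOn (fun q : E n × ℝ => facGr S et q.1) (U ×ˢ univ) :=
      (fac_den_Gr_cont hU het).comp continuousOn_fst fun q hq => hq.1
    have h3 : ContinuousOn (fun q : E n × ℝ => q.2 - β - σ * et q.1) (U ×ˢ univ) :=
      (continuousOn_snd.sub continuousOn_const).sub (continuousOn_const.mul h1)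
    unfold facF
    exact (((fa_cut_cont _).comp_continuousOn h3).mul ((fa_E_cont hε).comp_continuousOn h3)).mul
      ((continuousOn_const.mul (continuousOn_const.add (continuousOn_const.mul (h2.add continuousOn_const)))).add continuousOn_const)
  · intro p hp t
    unfold facF
    have := fac_den_Gr_nonneg hU et hp
    exact mul_nonneg (mul_nonneg (fa_cut_nonneg _ _) (fa_E_nonneg hε _)) (by positivity)
  · intro r hr p hp t
    unfold facF
    rw [het.hom r hr, fac_den_Gr_hom hC.cone hU het hp hr]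
  · intro p hp t ht
    have hp0 : p ≠ 0 := fun h0 => hU.cone.zero (h0 ▸ hp)
    have h1 : |σ * et p| ≤ |σ| * Me := by
      rw [abs_mul]
      exact mul_le_mul_of_nonneg_left (hMe p hp0) (abs_nonneg _)
    have h2 : 2 * faT ε lam ≤ |t - β - σ * et p| := by
      have e : t = (t - β - σ * et p) + β + σ * et p := by ring
      have h3 : |t| ≤ |t - β - σ * et p| + |β| + |σ * et p| := by
        calc |t| = |(t - β - σ * et p) + β + σ * et p| := by rw [← e]
          _ ≤ |(t - β - σ * et p) + β| + |σ * et p| := abs_add_le _ _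
          _ ≤ _ := by gcongr; exact abs_add_le _ _
      linarith
    unfold facF
    rw [fa_cut_zero (by positivity) h2, zero_mul, zero_mul]

/-- **L-FAC-INT-C** (from the `(p,t)` form to the `(p,s)` form).   `t = arctan (b/‖p‖) ∈ (-π/2,π/2)` (`Real.arctan_mem_Ioo`), `tan t = b/‖p‖`, `b = faBs u v p s = D s - C ⟪v,p⟫` (unfold `faBs faBt faD`), `D > 0` (`fa_D_pos'`): `faS u v p t = s`. -/
theorem fac_S_arctan {u : E n → ℝ} {v p : E n} (hv : ‖v‖ < 1) (hp0 : p ≠ 0) (hN : ‖gradient u p‖ = 1) (s : ℝ) :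
    faS u v p (Real.arctan (faBs u v p s / ‖p‖)) = s := by
  have hD : 0 < faC v * (1 - ⟪v, gradient u p⟫) := fa_D_pos' hv hN
  have hp : ‖p‖ ≠ 0 := norm_ne_zero_iff.2 hp0
  unfold faS faD
  rw [Real.tan_arctan, div_eq_iff hD.ne']
  have e : ‖p‖ * (faBs u v p s / ‖p‖) = faBs u v p s := by field_simp
  rw [e]
  unfold faBs faBt
  rw [inner_add_right, inner_smul_right]
  ring

/-- **L-FAC-INT-D** (the right side of the master inequality).   `a p = β + σ et p`, `T = faT ε lam`.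
`faLk S J = ofReal (n-1) * ∫⁻ p in ball 0 1, J p ∂μ`; pull `ofReal (cos ..)` inside (`lintegral_const_mul'`), Tonelli (`lintegral_lintegral_swap`; measurability: `fae_J_meas`, the integrand agrees with `faeJ` for `p ∈ U`, i.e. `μ`-a.e.: `fae_mu_U`; `fae_mu_sfinite`);
for `p ∈ gmtBd S \ 0` (`μ`-a.e.: `fa_mu_ae` / `kit_ae_bd`): `fa_E_weight` with `s = Ioo (-π/2) (π/2)`, `a = a p`, `X t = cos t ^ (n-2) * ((1+λ)²(1+σ²(facGr+om))+1) * faDet (..)`, `M = hX`'s right side;
finally `∫⁻ ofReal = ofReal ∫` (`ofReal_integral_eq_lintegral_ofReal`; `Mb` integrable on `ball 0 1`, `≥ 0` a.e.). -/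
theorem fac_rhs {S U : Set (E n)} {K s₂ : ℝ} {et : E n → ℝ} (hC : FacCtx n S U K s₂ et) {ε lam om β σ t₁ : ℝ} {v : E n}
    (hv : ‖v‖ < 1) (hε : 0 < ε) (hl : 0 < lam) (hF : FaeDen U (facF S et ε lam om β σ) t₁) (Mb : E n → ℝ)
    (hMi : IntegrableOn Mb (ball 0 1) (gmtMu S)) (hM0 : ∀ p ∈ gmtBd S, p ≠ 0 → 0 ≤ Mb p)
    (hX : ∀ p ∈ gmtBd S, p ≠ 0 → ∀ t : ℝ, |t - (β + σ * et p)| < 2 * faT ε lam →
      Real.cos t ^ (n - 2) * ((1 + lam) ^ 2 * (1 + σ ^ 2 * (facGr S et p + om)) + 1) *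
        faDet (1 + faS (gmtSimSd S) v p t • gmtSimH (gmtSimSd S) p) ≤ 2 * Mb p) :
    ∫⁻ t in Ioo (-(Real.pi / 2)) (Real.pi / 2), ENNReal.ofReal (Real.cos t ^ (n - 2)) *
        faLk S (fun p => ENNReal.ofReal (facF S et ε lam om β σ p t * faDet (1 + faS (gmtSimSd S) v p t • gmtSimH (gmtSimSd S) p)))
      ≤ ENNReal.ofReal (acC * (((n : ℝ) - 1) * ∫ p in ball (0 : E n) 1, Mb p ∂(gmtMu S))) := by
  classical
  have hc : FaeCtx n S U K v := hC.fae hv
  have hsf : SFinite (gmtMu S) := fae_mu_sfinite hC.cone.lf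
  have hT : 0 < faT ε lam := fa_T_pos hε hl
  have hacC : 0 < acC := by unfold acC; positivity
  have hn1 : (0 : ℝ) ≤ (n : ℝ) - 1 := by
    have : (4 : ℝ) ≤ n := by exact_mod_cast hC.n4
    linarith
  set u := gmtSimSd S with hu
  set F := facF S et ε lam om β σ with hFdef
  set I : Set ℝ := Ioo (-(Real.pi / 2)) (Real.pi / 2) with hI
  set B : Set (E n) := ball (0 : E n) 1 with hB
  have hae := fa_mu_ae hc.n2 hC.cone.meas hC.cone.cone hC.cone.lf
  have haeU := fae_mu_U hc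
  -- step 1, 2
  have e1 : ∀ t, ENNReal.ofReal (Real.cos t ^ (n - 2)) *
      faLk S (fun p => ENNReal.ofReal (F p t * faDet (1 + faS u v p t • gmtSimH u p)))
      = ENNReal.ofReal ((n : ℝ) - 1) * ∫⁻ p in B, ENNReal.ofReal (Real.cos t ^ (n - 2)) * faeJ U u v F p t ∂(gmtMu S) := by
    intro t
    have : ∫⁻ p in B, ENNReal.ofReal (F p t * faDet (1 + faS u v p t • gmtSimH u p)) ∂(gmtMu S)
        = ∫⁻ p in B, faeJ U u v F p t ∂(gmtMu S) := by
      refine lintegral_congr_ae (ae_restrict_of_ae ?_)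
      filter_upwards [haeU] with p hp
      simp only [faeJ, if_pos hp]
    rw [faLk, this, lintegral_const_mul' _ _ ENNReal.ofReal_ne_top]
    ring
  simp only [e1]
  rw [lintegral_const_mul' _ _ ENNReal.ofReal_ne_top]
  -- step 3: Tonelli
  have hmeas : Measurable (Function.uncurry fun (t : ℝ) (p : E n) =>
      ENNReal.ofReal (Real.cos t ^ (n - 2)) * faeJ U u v F p t) := by
    have h1 : Measurable fun q : ℝ × E n => ENNReal.ofReal (Real.cos q.1 ^ (n - 2)) :=
      ((Real.measurable_cos.comp measurable_fst).pow_const _).ennreal_ofReal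
    have h2 : Measurable fun q : ℝ × E n => faeJ U u v F q.2 q.1 :=
      (fae_J_meas hc.tube.opn hF u v).comp measurable_swap
    exact h1.mul h2
  rw [lintegral_lintegral_swap hmeas.aemeasurable]
  -- step 4
  have h4 : ∀ᵐ p ∂((gmtMu S).restrict B), ∫⁻ t in I, ENNReal.ofReal (Real.cos t ^ (n - 2)) * faeJ U u v F p t
      ≤ ENNReal.ofReal (acC * Mb p) := by
    refine ae_restrict_of_ae ?_
    filter_upwards [hae, haeU] with p hp hpU
    have hw := fa_E_weight hε hT (β + σ * et p) (2 * Mb p) (by have := hM0 p hp.1 hp.2; linarith) I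
      (fun t => Real.cos t ^ (n - 2) * ((1 + lam) ^ 2 * (1 + σ ^ 2 * (facGr S et p + om)) + 1) *
        faDet (1 + faS u v p t • gmtSimH u p)) (fun t _ ht => hX p hp.1 hp.2 t ht)
    have e : acC / 2 * (2 * Mb p) = acC * Mb p := by ring
    rw [e] at hw
    refine le_trans (le_of_eq ?_) hw
    refine setLIntegral_congr_fun measurableSet_Ioo fun t ht => ?_
    have hcos : 0 < Real.cos t := Real.cos_pos_of_mem_Ioo ht
    simp only [faeJ, if_pos hpU]
    rw [← ENNReal.ofReal_mul (by positivity)]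
    congr 1
    simp only [hFdef, facF]
    have e2 : t - β - σ * et p = t - (β + σ * et p) := by ring
    rw [e2]
    ring
  calc ENNReal.ofReal ((n : ℝ) - 1) * ∫⁻ p in B, (∫⁻ t in I, ENNReal.ofReal (Real.cos t ^ (n - 2)) * faeJ U u v F p t) ∂(gmtMu S)
      ≤ ENNReal.ofReal ((n : ℝ) - 1) * ∫⁻ p in B, ENNReal.ofReal (acC * Mb p) ∂(gmtMu S) := by
        exact mul_le_mul_right (lintegral_mono_ae h4) _
    _ = ENNReal.ofReal ((n : ℝ) - 1) * ENNReal.ofReal (∫ p in B, acC * Mb p ∂(gmtMu S)) := by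
        rw [ofReal_integral_eq_lintegral_ofReal (hMi.const_mul acC)]
        refine ae_restrict_of_ae ?_
        filter_upwards [hae] with p hp
        exact mul_nonneg hacC.le (hM0 p hp.1 hp.2)
    _ = ENNReal.ofReal (acC * (((n : ℝ) - 1) * ∫ p in B, Mb p ∂(gmtMu S))) := by
        rw [← ENNReal.ofReal_mul hn1, integral_const_mul]
        congr 1
        ring

/-- **L-FAC-INT-E** (assembly).   `r₂ = min` of `r₁` (`fac_dens`), `r₀` (`fac_point`), `1/(4 + Me)` (so that `t₁ = 1 < π/2` works in `fac_F_den`).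
`fa_acE_le` with `F = facD ε (faU ..)` (trivial a.e. bound), `fae_master` (`hdom`: `fac_S_arctan` + `fac_dens`), `fac_rhs` with `Mb p = (1+λ)² (1 - facq p/2 + om r² + C₀ T)`:
`(n-1) ∫_{B_1} Mb dμ = (1+λ)² (linkArea S (1 + om r² + C₀ T) - faQ/2)` (`fac_Q_eq`, `linkArea`, `integral_sub`, `integral_const`; `facq` integrable: `kit_integrableOn`, continuous on `U`, `0`-homogeneous);
`0 ≤ Mb p`: `fac_point` at `t = β + σ et p`, the left side is `≥ 0` (`|t| ≤ 1`: `cos t ≥ 0`; `fa_det_nonneg`). -/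
theorem fac_int {S U : Set (E n)} {K s₂ : ℝ} {et : E n → ℝ} (hC : FacCtx n S U K s₂ et) {om : ℝ} (ho : 0 < om) :
    ∃ r₂ : ℝ, 0 < r₂ ∧ r₂ ≤ 1 / 2 ∧ ∃ C₀ : ℝ, 0 ≤ C₀ ∧ ∀ ε lam : ℝ, 0 < ε → 0 < lam → faT ε lam ≤ r₂ →
      ∀ (v : E n) (β σ : ℝ), ‖v‖ ≤ r₂ → |β| ≤ r₂ → |σ| ≤ r₂ →
        acE n ε (faU (gmtSimSd S) et ε lam v β σ) ≤
          (1 + lam) ^ 2 * (linkArea S * (1 + om * (‖v‖ ^ 2 + β ^ 2 + σ ^ 2) + C₀ * faT ε lam) - faQ S et v β σ / 2) := by
  have hn2 : 2 ≤ n := by have := hC.n4; omega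
  have hS := hC.cone
  have hU := hC.tube
  have het := hC.ext.hom0
  obtain ⟨r₁, hr₁, hdens⟩ := fac_dens hC ho
  obtain ⟨r₀, hr₀, hr₀', C₀, hC₀, hpt⟩ := fac_point hC ho
  obtain ⟨Me, hMe0, hMe⟩ := fac_hom_bdd (G := et) het.smooth.continuousOn het.hom
  have hden : 0 < 4 + Me := by linarith
  refine ⟨min (min r₁ r₀) (1 / (4 + Me)), lt_min (lt_min hr₁ hr₀) (by positivity),
    ((min_le_left _ _).trans (min_le_right _ _)).trans hr₀', C₀, hC₀, ?_⟩
  intro ε lam hε hl hT v β σ hv hβ hσ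
  obtain ⟨r₂, hr₂def⟩ : ∃ r₂, r₂ = min (min r₁ r₀) (1 / (4 + Me)) := ⟨_, rfl⟩
  rw [← hr₂def] at hT hv hβ hσ
  have h21 : r₂ ≤ r₁ := by rw [hr₂def]; exact (min_le_left _ _).trans (min_le_left _ _)
  have h20 : r₂ ≤ r₀ := by rw [hr₂def]; exact (min_le_left _ _).trans (min_le_right _ _)
  have h2M : r₂ * (4 + Me) ≤ 1 := by
    have : r₂ ≤ 1 / (4 + Me) := by rw [hr₂def]; exact min_le_right _ _
    rwa [le_div_iff₀ hden] at this
  have hr₂0 : 0 ≤ r₂ := (norm_nonneg v).trans hv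
  have hv1 : ‖v‖ < 1 := by linarith
  obtain ⟨T, hTdef⟩ : ∃ T, T = faT ε lam := ⟨_, rfl⟩
  have hT0 : 0 < T := by rw [hTdef]; exact fa_T_pos hε hl
  obtain ⟨R, hR⟩ : ∃ R, R = ‖v‖ ^ 2 + β ^ 2 + σ ^ 2 := ⟨_, rfl⟩
  rw [← hR, ← hTdef]
  rw [← hTdef] at hT
  have hpi : (1 : ℝ) < Real.pi / 2 := by have := Real.pi_gt_three; linarith
  have hσM : |σ| * Me ≤ r₂ * Me := mul_le_mul_of_nonneg_right hσ hMe0
  have hF : FaeDen U (facF S et ε lam om β σ) 1 :=
    fac_F_den hC hMe hε hl ho.le hpi (by rw [← hTdef]; nlinarith)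
  -- the majorant
  set Mb : E n → ℝ := fun p => (1 + lam) ^ 2 * (1 - facq S et v β σ p / 2 + om * R + C₀ * T) with hMb
  have hX : ∀ p ∈ gmtBd S, p ≠ 0 → ∀ t : ℝ, |t - (β + σ * et p)| < 2 * faT ε lam →
      Real.cos t ^ (n - 2) * ((1 + lam) ^ 2 * (1 + σ ^ 2 * (facGr S et p + om)) + 1) *
        faDet (1 + faS (gmtSimSd S) v p t • gmtSimH (gmtSimSd S) p) ≤ 2 * Mb p := by
    intro p hp hp0 t ht
    rw [← hTdef] at ht
    have := hpt v β σ T lam (hv.trans h20) (hβ.trans h20) (hσ.trans h20) hT0.le (hT.trans h20) hl.le p hp hp0 t ht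
    rw [← hR] at this
    exact this
  have hM0 : ∀ p ∈ gmtBd S, p ≠ 0 → 0 ≤ Mb p := by
    intro p hp hp0
    have hpU : p ∈ U := hU.cone.bd p hp hp0
    have h1 := hX p hp hp0 (β + σ * et p) (by rw [sub_self, abs_zero, ← hTdef]; positivity)
    have ht1 : |β + σ * et p| ≤ 1 := by
      have a1 : |σ * et p| ≤ r₂ * Me := by
        rw [abs_mul]
        exact mul_le_mul hσ (hMe p hp0) (abs_nonneg _) hr₂0
      have a2 := abs_add_le β (σ * et p)
      nlinarith
    have hcos : 0 ≤ Real.cos (β + σ * et p) := by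
      refine Real.cos_nonneg_of_mem_Icc ⟨?_, ?_⟩
      · have := (abs_le.1 ht1).1; linarith
      · have := (abs_le.1 ht1).2; linarith
    have hG := fac_Gr_nonneg hU et hpU
    have hdet : 0 ≤ faDet (1 + faS (gmtSimSd S) v p (β + σ * et p) • gmtSimH (gmtSimSd S) p) := by
      refine fa_det_nonneg fun a b => ?_
      simp only [_root_.smul_apply, inner_smul_left, inner_smul_right, conj_trivial]
      rw [gmtSim_H_symm hU.cone.opn hU.cone.smooth hpU]
    have h2 : 0 ≤ Real.cos (β + σ * et p) ^ (n - 2) * ((1 + lam) ^ 2 * (1 + σ ^ 2 * (facGr S et p + om)) + 1) *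
        faDet (1 + faS (gmtSimSd S) v p (β + σ * et p) • gmtSimH (gmtSimSd S) p) := by positivity
    linarith
  have hqi := fac_q_integrableOn hn2 hS hU het v β σ
  have hfin : gmtMu S (ball 0 1) ≠ ⊤ := kit_mu_ball_ne_top hS.lf 0 1
  have hci : ∀ c : ℝ, IntegrableOn (fun _ : E n => c) (ball 0 1) (gmtMu S) := fun c =>
    integrableOn_const hfin
  have hMi : IntegrableOn Mb (ball 0 1) (gmtMu S) := by
    have : Mb = fun p => (1 + lam) ^ 2 * (1 + om * R + C₀ * T) - (1 + lam) ^ 2 / 2 * facq S et v β σ p := by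
      funext p
      rw [hMb]
      ring
    rw [this]
    exact (hci _).sub (hqi.const_mul _)
  -- the value of the integral
  have hval : ((n : ℝ) - 1) * ∫ p in ball (0 : E n) 1, Mb p ∂(gmtMu S)
      = (1 + lam) ^ 2 * (linkArea S * (1 + om * R + C₀ * T) - faQ S et v β σ / 2) := by
    have e1 : ∫ p in ball (0 : E n) 1, Mb p ∂(gmtMu S)
        = (1 + lam) ^ 2 * (1 + om * R + C₀ * T) * (gmtMu S (ball 0 1)).toReal
          - (1 + lam) ^ 2 / 2 * ∫ p in ball (0 : E n) 1, facq S et v β σ p ∂(gmtMu S) := by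
      have : Mb = fun p => (1 + lam) ^ 2 * (1 + om * R + C₀ * T) - (1 + lam) ^ 2 / 2 * facq S et v β σ p := by
        funext p
        rw [hMb]
        ring
      have e2 : ∫ p in ball (0 : E n) 1, (1 + lam) ^ 2 / 2 * facq S et v β σ p ∂(gmtMu S)
          = (1 + lam) ^ 2 / 2 * ∫ p in ball (0 : E n) 1, facq S et v β σ p ∂(gmtMu S) := integral_const_mul _ _
      rw [this, integral_sub (hci _) (hqi.const_mul _), e2, setIntegral_const]
      simp only [Measure.real, smul_eq_mul]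
      ring
    rw [e1, fac_Q_eq]
    unfold linkArea
    ring
  have hn1 : (0 : ℝ) ≤ (n : ℝ) - 1 := by
    have : (2 : ℝ) ≤ n := by exact_mod_cast hn2
    linarith
  have hc0 : 0 ≤ ((n : ℝ) - 1) * ∫ p in ball (0 : E n) 1, Mb p ∂(gmtMu S) := by
    refine mul_nonneg hn1 (integral_nonneg_of_ae ?_)
    refine ae_restrict_of_ae ?_
    filter_upwards [kit_ae_bd hn2 hS] with p hp
    exact hM0 p hp.1 hp.2
  rw [← hval]
  refine fa_acE_le hε _ (facD ε (faU (gmtSimSd S) et ε lam v β σ)) (Eventually.of_forall fun y => le_rfl) hc0 ?_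
  refine (fae_master (hC.fae hv1) hF (facD ε (faU (gmtSimSd S) et ε lam v β σ))
    (fac_D_meas ε (fac_U_meas hC.sd het hε hl hv1 β σ))
    (fun r hr y => fac_D_hom ε (fun r hr y => fac_U_hom hC.sd het ε lam v β σ hr y) hr y) ?_).trans
    (fac_rhs hC hv1 hε hl hF Mb hMi hM0 hX)
  intro p hp hp0 s hs
  have hpU : p ∈ U := hU.cone.bd p hp hp0
  have hN : ‖gradient (gmtSimSd S) p‖ = 1 := hU.cone.eik p hpU
  have hsa := fac_S_arctan hv1 hp0 hN s
  have h := hdens ε lam hε hl (by rw [← hTdef]; exact hT.trans h21) v β σ (hv.trans h21) (hβ.trans h21) (hσ.trans h21)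
    p hp hp0 (Real.arctan (faBs (gmtSimSd S) v p s / ‖p‖)) (Real.arctan_mem_Ioo _) (by rw [hsa]; exact hs)
  rw [hsa] at h
  exact ENNReal.ofReal_le_ofReal h

end Claimed.Agent.R323
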