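import Claimed.Agent.R323.Fa.EnLink
import Claimed.Agent.R323.Fa.Prof

/-!
# Row 323, block E5: THE ENERGY OF THE UNDEFORMED FAMILY `Ψ(θ_v - β)`.   Architect: helper33.   Prefix `fae_`.

`u = gmtSimSd S`, `T = faT ε lam`, `e = faeE ε lam = ((1+λ)²+1) · faCut (2T) · faE ε` (continuous, `≥ 0`, `= 0` for `|t| ≥ 2T`, `∫ e ≤ ((1+λ)²+1) acC/2`).
* `fae_dens_le` : a.e. the energy density of `Ψ(θ_v - β)` is `≤ e(θ_v - β)`   (`|v| ≤ 1`; `fa_th_grad`, `fa_prof_energy`).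
* `fae_en`      : `n ∫_{B_1} e(θ_v) ≤ ∫ e(t) cos^{n-2} t · faA S v t dt` for every continuous `e ≥ 0`   (`|v| < 1`; `fae_master` with `F(p,t) = e(t) χ(t)`).
* `fae_fatou`   : `|v| = 1`: `∫_{B_1} e(θ_v) ≤ liminf ∫_{B_1} e(θ_{r v})`, `r ↑ 1` (Fatou + `fa_th_cont`).   So NO separate computation on the boundary of the parameter space.
* EXITS `fae_acE_le`, `fae_up`, `fae_out` (all `|v| ≤ 1`).   The exits in the form of the chief (`fae_mi`, `fae_upper`, `fae_outer`) are in `Fa/En.lean`.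
-/

set_option autoImplicit false
open scoped ContDiff ENNReal NNReal RealInnerProductSpace Topology
open MeasureTheory Metric Set Filter

namespace Claimed.Agent.R323

open Claimed.Agent.Gmt

variable {n : ℕ}

/-- the context without the velocity. -/
structure FaeBase (n : ℕ) (S U : Set (E n)) (K : ℝ) : Prop where
  n2 : 2 ≤ n
  cone : MinCone n S
  tube : GmtSimCone S U (gmtSimSd S)
  conic : ∀ t : ℝ, 0 < t → ∀ x ∈ U, t • x ∈ U
  sd : FaSd K (gmtSimSd S)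

theorem FaeBase.ctx {S U : Set (E n)} {K : ℝ} (h : FaeBase n S U K) {v : E n} (hv : ‖v‖ < 1) : FaeCtx n S U K v :=
  ⟨h.n2, h.cone, h.tube, h.conic, h.sd, hv⟩

/-- the continuous majorant of the energy density of the profile. -/
noncomputable def faeE (ε lam t : ℝ) : ℝ := ((1 + lam) ^ 2 + 1) * (faCut (2 * faT ε lam) t * faE ε t)

variable {S U : Set (E n)} {K : ℝ}

/-! ### L-EN-E1 : the majorant (Mathlib + `Fa/Prof`) -/

theorem fae_E_cont {ε : ℝ} (hε : 0 < ε) (lam : ℝ) : Continuous (faeE ε lam) := by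
  unfold faeE
  exact continuous_const.mul ((fa_cut_cont _).mul (fa_E_cont hε))

theorem fae_E_nonneg {ε : ℝ} (hε : 0 < ε) (lam t : ℝ) : 0 ≤ faeE ε lam t := by
  unfold faeE
  exact mul_nonneg (by positivity) (mul_nonneg (fa_cut_nonneg _ _) (fa_E_nonneg hε t))

theorem fae_E_zero {ε lam : ℝ} (hε : 0 < ε) (hl : 0 < lam) {t : ℝ} (ht : 2 * faT ε lam ≤ |t|) : faeE ε lam t = 0 := by
  unfold faeE
  rw [fa_cut_zero (by have := fa_T_pos hε hl; positivity) ht, zero_mul, mul_zero]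

/-- `faCut ≤ 1`, `fa_E_lintegral`, translation invariance (`lintegral_sub_right_eq_self`). -/
theorem fae_E_lintegral {ε : ℝ} (hε : 0 < ε) (lam β : ℝ) :
    ∫⁻ t, ENNReal.ofReal (faeE ε lam (t - β)) ≤ ENNReal.ofReal (acC * (((1 + lam) ^ 2 + 1) / 2)) := by
  rw [lintegral_sub_right_eq_self (fun t => ENNReal.ofReal (faeE ε lam t)) β]
  have hA : (0 : ℝ) ≤ (1 + lam) ^ 2 + 1 := by positivity
  calc ∫⁻ t, ENNReal.ofReal (faeE ε lam t)
      ≤ ∫⁻ t, ENNReal.ofReal ((1 + lam) ^ 2 + 1) * ENNReal.ofReal (faE ε t) := by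
        refine lintegral_mono fun t => ?_
        rw [← ENNReal.ofReal_mul hA]
        apply ENNReal.ofReal_le_ofReal
        unfold faeE
        refine mul_le_mul_of_nonneg_left ?_ hA
        calc faCut (2 * faT ε lam) t * faE ε t ≤ 1 * faE ε t :=
              mul_le_mul_of_nonneg_right (fa_cut_le_one _ _) (fa_E_nonneg hε t)
          _ = faE ε t := one_mul _
    _ = ENNReal.ofReal ((1 + lam) ^ 2 + 1) * ENNReal.ofReal (acC / 2) := by
        rw [lintegral_const_mul' _ _ ENNReal.ofReal_ne_top, fa_E_lintegral hε]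
    _ = ENNReal.ofReal (acC * (((1 + lam) ^ 2 + 1) / 2)) := by
        rw [← ENNReal.ofReal_mul hA]
        congr 1
        ring

/-! ### L-EN-E2 : the density -/

/-- `fa_th_grad` (a.e. differentiable, `‖y‖ ‖Dθ‖ ≤ 1`), `fa_prof_energy` with `w = θ_v - β` (`fderiv_sub_const`), `faCut (2T) = 1` on `|t| < T` (`fa_cut_one`). -/
theorem fae_dens_le (hn : 2 ≤ n) {u : E n → ℝ} (hK : FaSd K u) {v : E n} (hv : ‖v‖ ≤ 1) (β : ℝ) {ε lam : ℝ}
    (hε : 0 < ε) (hl : 0 < lam) :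
    ∀ᵐ y : E n, ENNReal.ofReal (ε / 2 * ‖y‖ ^ 2 * ‖fderiv ℝ (fun x => faProf ε lam (faTh u v x - β)) y‖ ^ 2
        + acW (faProf ε lam (faTh u v y - β)) / ε) ≤ ENNReal.ofReal (faeE ε lam (faTh u v y - β)) := by
  filter_upwards [fa_th_grad hn hK hv] with y hy
  obtain ⟨hd, hg⟩ := hy
  apply ENNReal.ofReal_le_ofReal
  have hw : DifferentiableAt ℝ (fun x => faTh u v x - β) y := hd.sub_const β
  have h1 := fa_prof_energy hε hl hw
  refine le_trans h1 ?_
  have hT := fa_T_pos hε hl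
  split_ifs with h
  · have hfd : fderiv ℝ (fun x => faTh u v x - β) y = fderiv ℝ (faTh u v) y := fderiv_sub_const β
    rw [hfd]
    unfold faeE
    rw [fa_cut_one (by positivity) (by linarith), one_mul]
    have h2 : ‖y‖ ^ 2 * ‖fderiv ℝ (faTh u v) y‖ ^ 2 ≤ 1 := by
      rw [← mul_pow]
      exact pow_le_one₀ (by positivity) hg
    rw [mul_comm]
    refine mul_le_mul_of_nonneg_right ?_ (fa_E_nonneg hε _)
    nlinarith [sq_nonneg (1 + lam)]
  · exact fae_E_nonneg hε lam _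

/-- `θ_v` is continuous off the origin (`fa_th_cont`): `measurable_of_continuousOn_compl_singleton`. -/
theorem fae_th_meas {u : E n → ℝ} (hK : FaSd K u) {v : E n} (hv : ‖v‖ ≤ 1) : Measurable (faTh u v) := by
  refine measurable_of_continuousOn_compl_singleton 0 ?_
  have h := (fa_th_cont hK).comp (f := fun y : E n => (v, y)) (s := {0}ᶜ) (by fun_prop)
    (fun y hy => ⟨by simpa using hv, hy⟩)
  exact h

/-! ### L-EN-E3 : the co-area inequality for `θ_v` -/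

/-- the value of `θ_v` at a contact. -/
theorem fae_th_ct {u : E n → ℝ} (hK : FaSd K u) {v : E n} (hv : ‖v‖ < 1) {p : E n} (hp0 : p ≠ 0)
    (hN : ‖gradient u p‖ = 1) (hp : ⟪p, gradient u p⟫ = 0) {s : ℝ} (hc : FaCt u p s) :
    faTh u v (faYs u v p s) = Real.arctan (faBs u v p s / ‖p‖) := by
  have hp' : 0 < ‖p‖ := norm_pos_iff.2 hp0
  have h1 := fa_Ys_norm u hv hN hp s
  unfold faTh
  rw [fa_psi_ct hK hv hc, Real.arctan_eq_arcsin]
  congr 1
  obtain ⟨b, hb⟩ : ∃ b, b = faBs u v p s := ⟨_, rfl⟩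
  rw [← hb] at h1 ⊢
  have h2 : ‖faYs u v p s‖ = Real.sqrt (‖p‖ ^ 2 + b ^ 2) := by
    rw [← h1, Real.sqrt_sq (norm_nonneg _)]
  have h3 : Real.sqrt (1 + (b / ‖p‖) ^ 2) = Real.sqrt (‖p‖ ^ 2 + b ^ 2) / ‖p‖ := by
    have e : 1 + (b / ‖p‖) ^ 2 = (‖p‖ ^ 2 + b ^ 2) / ‖p‖ ^ 2 := by
      field_simp
    rw [e, Real.sqrt_div' _ (by positivity), Real.sqrt_sq hp'.le]
  rw [h2, h3]
  have h4 : 0 < Real.sqrt (‖p‖ ^ 2 + b ^ 2) := Real.sqrt_pos.2 (by positivity)
  field_simp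

/-- `fae_master` with `f = ofReal (e (θ_v ·))`, `F p t = e t * χ t`, `χ t = max 0 (min 1 ((t₁ - |t|)/(t₁ - t₀)))`, `t₀ = arcsin κ` (`κ` of `fa_psi_lt`: `|θ_v| ≤ t₀`), `t₁ = (t₀ + π/2)/2`.
At a contact `θ_v(𝒴) = arcsin (b/√(|p|²+b²)) = arctan (b/|p|)` (`fa_psi_ct`, `fa_Ys_norm`, `Real.arctan_eq_arcsin`), so `χ = 1` there.
RHS: `faLk S (fun p => ofReal (e t χ t * 𝒟)) = ofReal (e t χ t) * faA S v t` (`ENNReal.ofReal_mul`, `lintegral_const_mul'`), `χ ≤ 1`. -/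
theorem fae_en {v : E n} (hc : FaeCtx n S U K v) (e : ℝ → ℝ) (he : Continuous e) (he0 : ∀ t, 0 ≤ e t) :
    ENNReal.ofReal n * ∫⁻ y in ball (0 : E n) 1, ENNReal.ofReal (e (faTh (gmtSimSd S) v y)) ≤
      ∫⁻ t in Ioo (-(Real.pi / 2)) (Real.pi / 2), ENNReal.ofReal (e t * Real.cos t ^ (n - 2)) * faA S v t := by
  obtain ⟨κ, hκ0, hκ1, hκ⟩ := fa_psi_lt hc.sd hc.v1
  obtain ⟨t₀, ht₀⟩ : ∃ t₀, t₀ = Real.arcsin κ := ⟨_, rfl⟩
  have ht₀2 : t₀ < Real.pi / 2 := by rw [ht₀]; exact Real.arcsin_lt_pi_div_two.2 hκ1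
  obtain ⟨t₁, ht₁⟩ : ∃ t₁, t₁ = (t₀ + Real.pi / 2) / 2 := ⟨_, rfl⟩
  have h01 : t₀ < t₁ := by rw [ht₁]; linarith
  have h12 : t₁ < Real.pi / 2 := by rw [ht₁]; linarith
  obtain ⟨χ, hχ⟩ : ∃ χ : ℝ → ℝ, χ = fun t => max 0 (min 1 ((t₁ - |t|) / (t₁ - t₀))) := ⟨_, rfl⟩
  have hχc : Continuous χ := by
    rw [hχ]
    fun_prop
  have hχ0 : ∀ t, 0 ≤ χ t := fun t => by rw [hχ]; exact le_max_left _ _
  have hχ1 : ∀ t, χ t ≤ 1 := fun t => by rw [hχ]; exact max_le zero_le_one (min_le_left _ _)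
  have hχone : ∀ t, |t| ≤ t₀ → χ t = 1 := by
    intro t ht
    rw [hχ]
    have h : 1 ≤ (t₁ - |t|) / (t₁ - t₀) := by
      rw [le_div_iff₀ (by linarith)]
      linarith
    show max 0 (min 1 ((t₁ - |t|) / (t₁ - t₀))) = 1
    rw [min_eq_left h, max_eq_right zero_le_one]
  have hχzero : ∀ t, t₁ ≤ |t| → χ t = 0 := by
    intro t ht
    rw [hχ]
    have h : (t₁ - |t|) / (t₁ - t₀) ≤ 0 := div_nonpos_of_nonpos_of_nonneg (by linarith) (by linarith)
    show max 0 (min 1 ((t₁ - |t|) / (t₁ - t₀))) = 0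
    exact max_eq_left ((min_le_right _ _).trans h)
  have hF : FaeDen U (fun _ t => e t * χ t) t₁ := by
    refine ⟨?_, fun p _ t => mul_nonneg (he0 t) (hχ0 t), fun _ _ _ _ _ => rfl, h12, fun p _ t ht => ?_⟩
    · exact (((he.mul hχc).comp continuous_snd)).continuousOn
    · show e t * χ t = 0
      rw [hχzero t ht, mul_zero]
  have hth : ∀ y, |faTh (gmtSimSd S) v y| ≤ t₀ := by
    intro y
    have h1 : |faPsi (gmtSimSd S) v y / ‖y‖| ≤ κ := by
      rcases eq_or_ne y 0 with rfl | hy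
      · rw [norm_zero, div_zero, abs_zero]
        exact hκ0
      · have hy' : 0 < ‖y‖ := norm_pos_iff.2 hy
        rw [abs_div, abs_of_pos hy', div_le_iff₀ hy']
        exact hκ y
    obtain ⟨h2, h3⟩ := abs_le.1 h1
    unfold faTh
    rw [ht₀, abs_le, ← Real.arcsin_neg]
    exact ⟨Real.monotone_arcsin h2, Real.monotone_arcsin h3⟩
  have hmain := fae_master hc hF (fun y => ENNReal.ofReal (e (faTh (gmtSimSd S) v y)))
    (he.measurable.comp (fae_th_meas hc.sd hc.v1.le)).ennreal_ofReal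
    (fun r hr y => by simp only [fa_th_hom hc.sd v hr y])
    (by
      intro p hp hp0 s hs
      have hpU := hc.tube.bd p hp hp0
      have hN := hc.tube.eik p hpU
      have hpN : ⟪p, gradient (gmtSimSd S) p⟫ = 0 := by
        rw [hc.tube.hom p hpU]
        exact (hc.tube.zero_iff p hpU).2 hp
      have e1 := fae_th_ct hc.sd hc.v1 hp0 hN hpN hs
      have e2 := hth (faYs (gmtSimSd S) v p s)
      rw [e1] at e2
      simp only [e1]
      rw [hχone _ e2, mul_one])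
  refine hmain.trans ?_
  refine setLIntegral_mono' measurableSet_Ioo fun t ht => ?_
  have hcos : 0 < Real.cos t := Real.cos_pos_of_mem_Ioo ht
  have h1 : faLk S (fun p => ENNReal.ofReal (e t * χ t * faDet (1 + faS (gmtSimSd S) v p t • gmtSimH (gmtSimSd S) p)))
      ≤ ENNReal.ofReal (e t) * faA S v t := by
    unfold faA faLk
    rw [mul_left_comm]
    refine mul_le_mul_right ?_ _
    rw [← lintegral_const_mul' _ _ ENNReal.ofReal_ne_top]
    refine lintegral_mono fun p => ?_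
    rw [ENNReal.ofReal_mul (mul_nonneg (he0 t) (hχ0 t))]
    refine mul_le_mul_left (ENNReal.ofReal_le_ofReal ?_) _
    calc e t * χ t ≤ e t * 1 := mul_le_mul_of_nonneg_left (hχ1 t) (he0 t)
      _ = e t := mul_one _
  calc ENNReal.ofReal (Real.cos t ^ (n - 2)) *
        faLk S (fun p => ENNReal.ofReal (e t * χ t * faDet (1 + faS (gmtSimSd S) v p t • gmtSimH (gmtSimSd S) p)))
      ≤ ENNReal.ofReal (Real.cos t ^ (n - 2)) * (ENNReal.ofReal (e t) * faA S v t) := mul_le_mul_right h1 _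
    _ = ENNReal.ofReal (e t * Real.cos t ^ (n - 2)) * faA S v t := by
        rw [ENNReal.ofReal_mul (he0 t), ← mul_assoc, mul_comm (ENNReal.ofReal (Real.cos t ^ (n - 2)))]

/-! ### L-EN-E4 : the boundary of the parameter space -/

/-- Fatou (`lintegral_liminf_le`) along `r_k = 1 - 1/(k+2)`; `θ_{r_k v}(y) → θ_v(y)` for `y ≠ 0` (`fa_th_cont`); `{0}` is a null set. -/
theorem fae_fatou (hn : 1 ≤ n) {u : E n → ℝ} (hK : FaSd K u) {v : E n} (hv : ‖v‖ = 1) (e : ℝ → ℝ) (he : Continuous e) {c : ℝ≥0∞}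
    (h : ∀ r : ℝ, 1 / 2 ≤ r → r < 1 → ∫⁻ y in ball (0 : E n) 1, ENNReal.ofReal (e (faTh u (r • v) y)) ≤ c) :
    ∫⁻ y in ball (0 : E n) 1, ENNReal.ofReal (e (faTh u v y)) ≤ c := by
  have hne : ∀ᵐ y : E n, y ≠ 0 := by
    have : Nonempty (Fin n) := ⟨⟨0, by omega⟩⟩
    have : (volume : Measure (E n)) {0} = 0 := measure_singleton 0
    exact compl_mem_ae_iff.2 this
  obtain ⟨r, hrdef⟩ : ∃ r : ℕ → ℝ, r = fun k => 1 - 1 / (((k + 1 : ℕ) : ℝ) + 1) := ⟨_, rfl⟩
  have hr : Tendsto r atTop (𝓝 1) := by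
    have h1 := (tendsto_one_div_add_atTop_nhds_zero_nat (𝕜 := ℝ)).comp (tendsto_add_atTop_nat 1)
    have h2 := h1.const_sub 1
    rw [sub_zero] at h2
    rw [hrdef]
    exact h2
  have hr1 : ∀ k, 1 / 2 ≤ r k := by
    intro k
    rw [hrdef]
    have h1 : (2 : ℝ) ≤ ((k + 1 : ℕ) : ℝ) + 1 := by
      push_cast
      have : (0 : ℝ) ≤ k := Nat.cast_nonneg k
      linarith
    have h2 : 1 / (((k + 1 : ℕ) : ℝ) + 1) ≤ 1 / 2 := one_div_le_one_div_of_le (by norm_num) h1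
    show 1 / 2 ≤ 1 - 1 / (((k + 1 : ℕ) : ℝ) + 1)
    linarith
  have hr2 : ∀ k, r k < 1 := by
    intro k
    rw [hrdef]
    have h2 : 0 < 1 / (((k + 1 : ℕ) : ℝ) + 1) := by positivity
    show 1 - 1 / (((k + 1 : ℕ) : ℝ) + 1) < 1
    linarith
  have hrv : ∀ k, ‖r k • v‖ ≤ 1 := by
    intro k
    rw [norm_smul, hv, mul_one, Real.norm_eq_abs, abs_of_nonneg (by linarith [hr1 k])]
    exact (hr2 k).le
  have hm : ∀ k, Measurable fun y => ENNReal.ofReal (e (faTh u (r k • v) y)) := fun k =>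
    (he.measurable.comp (fae_th_meas hK (hrv k))).ennreal_ofReal
  have hlim : ∀ y : E n, y ≠ 0 →
      Tendsto (fun k => ENNReal.ofReal (e (faTh u (r k • v) y))) atTop (𝓝 (ENNReal.ofReal (e (faTh u v y)))) := by
    intro y hy
    have hcw : ContinuousWithinAt (fun q : E n × E n => faTh u q.1 q.2) (closedBall 0 1 ×ˢ {0}ᶜ) (v, y) :=
      fa_th_cont hK (v, y) ⟨by simp [hv], hy⟩
    have ht : Tendsto (fun k : ℕ => (r k • v, y)) atTop (𝓝[closedBall 0 1 ×ˢ {0}ᶜ] (v, y)) := by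
      refine tendsto_nhdsWithin_iff.2 ⟨?_, Eventually.of_forall fun k => ⟨?_, hy⟩⟩
      · refine Tendsto.prodMk_nhds ?_ tendsto_const_nhds
        have h1 : Tendsto (fun k => r k • v) atTop (𝓝 ((1 : ℝ) • v)) := hr.smul_const v
        rwa [one_smul] at h1
      · simpa using hrv k
    have h3 := hcw.tendsto.comp ht
    exact (ENNReal.continuous_ofReal.tendsto _).comp ((he.tendsto _).comp h3)
  calc ∫⁻ y in ball (0 : E n) 1, ENNReal.ofReal (e (faTh u v y))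
      = ∫⁻ y in ball (0 : E n) 1, liminf (fun k => ENNReal.ofReal (e (faTh u (r k • v) y))) atTop := by
        refine lintegral_congr_ae (ae_restrict_of_ae ?_)
        filter_upwards [hne] with y hy
        exact (hlim y hy).liminf_eq.symm
    _ ≤ liminf (fun k => ∫⁻ y in ball (0 : E n) 1, ENNReal.ofReal (e (faTh u (r k • v) y))) atTop :=
        lintegral_liminf_le hm
    _ ≤ liminf (fun _ : ℕ => c) atTop := liminf_le_liminf (Eventually.of_forall fun k => h (r k) (hr1 k) (hr2 k))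
    _ = c := liminf_const c

/-! ### L-EN-E5 : `faA ≤ |Σ|` -/

/-- `fa_det_le_one` with `X = s • H p` (`gmtSim_H_symm`; `gmtSimTr (H p) = gmtDiv (∇u) p = 0`: `gmtSim_div_eq_tr`, `tube.harm`, `tube.zero_iff`) for `p ∈ gmtBd S \\ 0`, i.e. `μ`-a.e. (`fa_mu_ae`); `fa_lk_one`. -/
theorem fae_A_le (hb : FaeBase n S U K) (v : E n) (t : ℝ) : faA S v t ≤ ENNReal.ofReal (linkArea S) := by
  rw [← fa_lk_one hb.n2 hb.cone.lf]
  unfold faA faLk
  refine mul_le_mul_right ?_ _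
  refine lintegral_mono_ae (ae_restrict_of_ae ?_)
  filter_upwards [fa_mu_ae hb.n2 hb.cone.meas hb.cone.cone hb.cone.lf] with p hpp
  obtain ⟨hp, hp0⟩ := hpp
  rw [← ENNReal.ofReal_one]
  apply ENNReal.ofReal_le_ofReal
  have hpU := hb.tube.bd p hp hp0
  apply fa_det_le_one
  · intro a b
    rw [ContinuousLinearMap.smul_apply, ContinuousLinearMap.smul_apply, real_inner_smul_left,
      real_inner_smul_right, gmtSim_H_symm hb.tube.opn hb.tube.smooth hpU]
  · have h0 : gmtSimTr (gmtSimH (gmtSimSd S) p) = 0 := by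
      rw [gmtSimH, ← gmtSim_div_eq_tr]
      exact hb.tube.harm p hpU ((hb.tube.zero_iff p hpU).2 hp)
    unfold gmtSimTr at h0 ⊢
    simp only [ContinuousLinearMap.smul_apply, real_inner_smul_left]
    rw [← Finset.mul_sum, h0, mul_zero]

theorem fae_link_nonneg (S : Set (E n)) (hn : 1 ≤ n) : 0 ≤ linkArea S := by
  unfold linkArea
  have h1 : (1 : ℝ) ≤ n := by exact_mod_cast hn
  exact mul_nonneg (by linarith) ENNReal.toReal_nonneg

/-! ### exits -/

/-- the interior estimate. -/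
theorem fae_int (hb : FaeBase n S U K) {v : E n} (hv : ‖v‖ < 1) (β : ℝ) {ε lam M : ℝ} (hε : 0 < ε) (hl : 0 < lam)
    (hA : ∀ t ∈ Ioo (-(Real.pi / 2)) (Real.pi / 2), |t - β| < 2 * faT ε lam →
      ENNReal.ofReal (Real.cos t ^ (n - 2)) * faA S v t ≤ ENNReal.ofReal M) :
    ENNReal.ofReal n * ∫⁻ y in ball (0 : E n) 1, ENNReal.ofReal (faeE ε lam (faTh (gmtSimSd S) v y - β))
      ≤ ENNReal.ofReal M * ENNReal.ofReal (acC * (((1 + lam) ^ 2 + 1) / 2)) := by
  have h1 := fae_en (hb.ctx hv) (fun t => faeE ε lam (t - β))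
    ((fae_E_cont hε lam).comp (continuous_id.sub continuous_const)) (fun t => fae_E_nonneg hε lam _)
  refine h1.trans ?_
  have h2 : ∀ t ∈ Ioo (-(Real.pi / 2)) (Real.pi / 2),
      ENNReal.ofReal (faeE ε lam (t - β) * Real.cos t ^ (n - 2)) * faA S v t
        ≤ ENNReal.ofReal M * ENNReal.ofReal (faeE ε lam (t - β)) := by
    intro t ht
    by_cases h : |t - β| < 2 * faT ε lam
    · rw [ENNReal.ofReal_mul (fae_E_nonneg hε lam _), mul_assoc, mul_comm (ENNReal.ofReal M)]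
      gcongr
      exact hA t ht h
    · rw [fae_E_zero hε hl (not_lt.1 h)]
      simp
  calc ∫⁻ t in Ioo (-(Real.pi / 2)) (Real.pi / 2),
        ENNReal.ofReal (faeE ε lam (t - β) * Real.cos t ^ (n - 2)) * faA S v t
      ≤ ∫⁻ t in Ioo (-(Real.pi / 2)) (Real.pi / 2), ENNReal.ofReal M * ENNReal.ofReal (faeE ε lam (t - β)) :=
        setLIntegral_mono' measurableSet_Ioo h2
    _ ≤ ∫⁻ t, ENNReal.ofReal M * ENNReal.ofReal (faeE ε lam (t - β)) := setLIntegral_le_lintegral _ _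
    _ = ENNReal.ofReal M * ∫⁻ t, ENNReal.ofReal (faeE ε lam (t - β)) :=
        lintegral_const_mul' _ _ ENNReal.ofReal_ne_top
    _ ≤ _ := by
        gcongr
        exact fae_E_lintegral hε lam β

/-- **the energy estimate**: `cos^{n-2} t · faA S (r v) t ≤ M` on the transition layer `|t - β| < 2T`, for `r ∈ [1/2,1]`, `|r v| < 1`. -/
theorem fae_acE_le (hb : FaeBase n S U K) {v : E n} (hv : ‖v‖ ≤ 1) (β : ℝ) {ε lam M : ℝ} (hε : 0 < ε) (hl : 0 < lam) (hM : 0 ≤ M)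
    (hA : ∀ r : ℝ, 1 / 2 ≤ r → r ≤ 1 → ‖r • v‖ < 1 → ∀ t ∈ Ioo (-(Real.pi / 2)) (Real.pi / 2), |t - β| < 2 * faT ε lam →
      ENNReal.ofReal (Real.cos t ^ (n - 2)) * faA S (r • v) t ≤ ENNReal.ofReal M) :
    acE n ε (fun y => faProf ε lam (faTh (gmtSimSd S) v y - β)) ≤ M * (((1 + lam) ^ 2 + 1) / 2) := by
  have hn := hb.n2
  have hn0 : (0 : ℝ) < n := by exact_mod_cast (by omega : 0 < n)
  have hC : 0 ≤ acC := by unfold acC; positivity
  refine fa_acE_le hε _ (fun y => ENNReal.ofReal (faeE ε lam (faTh (gmtSimSd S) v y - β)))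
    (fae_dens_le hn hb.sd hv β hε hl) (by positivity) ?_
  have e1 : ENNReal.ofReal (acC * (M * (((1 + lam) ^ 2 + 1) / 2)))
      = ENNReal.ofReal M * ENNReal.ofReal (acC * (((1 + lam) ^ 2 + 1) / 2)) := by
    rw [← ENNReal.ofReal_mul hM]
    congr 1
    ring
  rw [e1]
  rcases hv.lt_or_eq with hv1 | hv1
  · have := fae_int hb hv1 β hε hl (M := M) (by
      have := hA 1 (by norm_num) le_rfl (by rwa [one_smul])
      rwa [one_smul] at this)
    exact this
  · have hne : ENNReal.ofReal n ≠ 0 := (ENNReal.ofReal_pos.2 hn0).ne'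
    have key := fae_fatou (by omega) hb.sd hv1 (fun t => faeE ε lam (t - β))
      ((fae_E_cont hε lam).comp (continuous_id.sub continuous_const))
      (c := (ENNReal.ofReal n)⁻¹ * (ENNReal.ofReal M * ENNReal.ofReal (acC * (((1 + lam) ^ 2 + 1) / 2)))) (by
        intro r hr1 hr2
        have hr0 : 0 ≤ r := by linarith
        have hrv : ‖r • v‖ < 1 := by
          rw [norm_smul, hv1, mul_one, Real.norm_eq_abs, abs_of_nonneg hr0]
          exact hr2
        have := fae_int hb hrv β hε hl (M := M) (hA r hr1 hr2.le hrv)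
        rw [← ENNReal.mul_le_mul_iff_right hne ENNReal.ofReal_ne_top, ← mul_assoc,
          ENNReal.mul_inv_cancel hne ENNReal.ofReal_ne_top, one_mul]
        exact this)
    calc ENNReal.ofReal n * ∫⁻ y in ball (0 : E n) 1, ENNReal.ofReal (faeE ε lam (faTh (gmtSimSd S) v y - β))
        ≤ ENNReal.ofReal n * ((ENNReal.ofReal n)⁻¹ *
            (ENNReal.ofReal M * ENNReal.ofReal (acC * (((1 + lam) ^ 2 + 1) / 2)))) := by
          gcongr
      _ = _ := by
          rw [← mul_assoc, ENNReal.mul_inv_cancel hne ENNReal.ofReal_ne_top, one_mul]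

/-- **EXIT (upper bound)**: all members of the family have energy `≤ |Σ| ((1+λ)²+1)/2`. -/
theorem fae_up (hb : FaeBase n S U K) {v : E n} (hv : ‖v‖ ≤ 1) (β : ℝ) {ε lam : ℝ} (hε : 0 < ε) (hl : 0 < lam) :
    acE n ε (fun y => faProf ε lam (faTh (gmtSimSd S) v y - β)) ≤ linkArea S * (((1 + lam) ^ 2 + 1) / 2) := by
  refine fae_acE_le hb hv β hε hl (fae_link_nonneg S (by have := hb.n2; omega)) ?_
  intro r _ _ _ t ht _
  have h1 : ENNReal.ofReal (Real.cos t ^ (n - 2)) ≤ 1 := by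
    rw [← ENNReal.ofReal_one]
    exact ENNReal.ofReal_le_ofReal (pow_le_one₀ (Real.cos_pos_of_mem_Ioo ht).le (Real.cos_le_one t))
  calc ENNReal.ofReal (Real.cos t ^ (n - 2)) * faA S (r • v) t ≤ 1 * ENNReal.ofReal (linkArea S) := by
        gcongr
        exact fae_A_le hb _ _
    _ = _ := one_mul _

/-- **EXIT (outer region)**: from the strict loss of `cos^{n-2} t · faA` (block E3). -/
theorem fae_out (hb : FaeBase n S U K) {ρ M : ℝ} (hM : 0 ≤ M)
    (hloss : ∀ (v : E n) (t : ℝ), ‖v‖ < 1 → |t| < Real.pi / 2 → (ρ ≤ ‖v‖ ∨ ρ ≤ |t|) →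
      ENNReal.ofReal (Real.cos t ^ (n - 2)) * faA S v t ≤ ENNReal.ofReal M)
    {v : E n} (hv : ‖v‖ ≤ 1) {β : ℝ} (hq : 2 * ρ ≤ ‖v‖ ∨ 2 * ρ ≤ |β|) {ε lam : ℝ} (hε : 0 < ε) (hl : 0 < lam)
    (hT : 2 * faT ε lam ≤ ρ) :
    acE n ε (fun y => faProf ε lam (faTh (gmtSimSd S) v y - β)) ≤ M * (((1 + lam) ^ 2 + 1) / 2) := by
  refine fae_acE_le hb hv β hε hl hM ?_
  intro r hr1 hr2 hrv t ht htβ
  refine hloss (r • v) t hrv (abs_lt.2 ht) ?_
  rcases hq with hq | hq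
  · left
    rw [norm_smul, Real.norm_eq_abs, abs_of_nonneg (by linarith)]
    nlinarith [norm_nonneg v]
  · right
    have h1 : |β| ≤ |t| + |t - β| := by
      have := abs_sub_abs_le_abs_sub β t
      rw [abs_sub_comm β t] at this
      linarith
    linarith

end Claimed.Agent.R323
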