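import Claimed.Agent.R323.Fa.Psi
import Claimed.Agent.R323.Fa.Prof

/-!
# Row 323, block E1c: `faFam` IS AN ADMISSIBLE FAMILY.   Owner: helper175.   Exit statement: helper256.   No GMT: only `FaSd K u`, `Hom0 et`.

`h (v,β) y = Ψ(θ_v(y) - β - σ(v,β) et(z_v(y)))`, `σ = σ₀ faCut r₀ √(|v|²+β²)` (`= 0` as soon as `|v| ≥ r₀` or `|β| ≥ r₀`; `r₀ < 1`).
* `hom`: `fa_th_hom`, `fa_Zy_hom`, `het.hom`.   `bdd`: `fa_prof_abs_le`.
* `odd`: on `acQb` `σ = 0` at `q` and at `-q`.  `|v| = 1`: `fa_th_neg`, `fa_prof_odd`.  `|β| = 3`: `|θ| ≤ π/2 ≤ 2`, `T ≤ 1`: `Ψ = ∓1` (`fa_prof_one`, `fa_prof_neg_one`).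
* `cont`: the map `(q,y) ↦ h q y` is continuous on the compact set `acQ m ×ˢ sphere 0 1` (then uniformly continuous: `IsCompact.uniformContinuousOn_of_continuous`).
  `fa_th_cont`; the product `σ(q) · et(z_v(y))`: where `σ(q₀) ≠ 0`, `|v₀| < r₀ < 1`: `fa_Zy_cont`, `z_v(y) ≠ 0` (`fa_Zy_norm`: `|z|² ≥ |y|² - ψ² > 0`), `et` continuous off `0`;
  where `σ(q₀) = 0`: if `|v₀| < 1` same argument; if `|v₀| = 1` then `σ = 0` near `q₀`.
* `lip`: `Ψ` Lipschitz (`fa_prof_lip`), `θ_v` Lipschitz on the sphere (`fa_th_lip`); if `σ ≠ 0`: `y ↦ z_v(y)` is Lipschitz (`fa_psi_lip`), maps the sphere into `{0}ᶜ`, `et` is `C¹` there: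
  locally Lipschitz on the sphere, then `LocallyLipschitzOn.exists_lipschitzOnWith_of_compact`.
-/

set_option autoImplicit false
open scoped ContDiff ENNReal NNReal RealInnerProductSpace Topology
open MeasureTheory Metric Set Filter

namespace Claimed.Agent.R323

open Claimed.Agent.Gmt

variable {n : ℕ}

/-- `z_v(y) ≠ 0` for `y ≠ 0`. -/
theorem fap_Zy_ne {K : ℝ} {u : E n → ℝ} (hK : FaSd K u) {v : E n} (hv : ‖v‖ < 1) {y : E n} (hy : y ≠ 0) :
    faZy u v y ≠ 0 := by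
  intro h0
  obtain ⟨κ, hκ0, hκ1, hκ⟩ := fa_psi_lt hK hv
  have h1 := (fa_Zy_norm hK hv y).2
  rw [h0, norm_zero] at h1
  have hy0 : 0 < ‖y‖ := norm_pos_iff.2 hy
  have h2 : faPsi u v y ^ 2 ≤ (κ * ‖y‖) ^ 2 := by
    rw [← sq_abs]
    exact pow_le_pow_left₀ (abs_nonneg _) (hκ y) 2
  have h3 : (κ * ‖y‖) ^ 2 < ‖y‖ ^ 2 := by
    have : κ * ‖y‖ < ‖y‖ := by nlinarith
    exact pow_lt_pow_left₀ this (by positivity) two_ne_zero
  nlinarith [sq_nonneg (faC v * (faPsi u v y + ⟪v, y⟫))]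

/-- `y ↦ z_v(y)` is Lipschitz. -/
theorem fap_Zy_lip {K : ℝ} {u : E n → ℝ} (hK : FaSd K u) {v : E n} (hv : ‖v‖ < 1) :
    ∃ L : ℝ≥0, LipschitzWith L (faZy u v) := by
  have h1 : LipschitzWith ‖faB v‖₊ (faB v) := (faB v).lipschitz
  have h2 : LipschitzWith 1 (faPsi u v) := fa_psi_lip hK hv.le
  have h3 : LipschitzWith (‖(ContinuousLinearMap.id ℝ ℝ).smulRight (faC v • v)‖₊ * 1)
      (fun y => (ContinuousLinearMap.id ℝ ℝ).smulRight (faC v • v) (faPsi u v y)) :=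
    ((ContinuousLinearMap.id ℝ ℝ).smulRight (faC v • v)).lipschitz.comp h2
  have e : faZy u v = fun y => faB v y +
      (ContinuousLinearMap.id ℝ ℝ).smulRight (faC v • v) (faPsi u v y) := by
    funext y
    simp [faZy, faZ, smul_smul, mul_comm]
  rw [e]
  exact ⟨_, h1.add h3⟩

/-- `et ∘ z_v` is Lipschitz on the sphere. -/
theorem fap_et_lip {K : ℝ} {u et : E n → ℝ} (hK : FaSd K u) (het : Hom0 et) {v : E n} (hv : ‖v‖ < 1) :
    ∃ L : ℝ≥0, LipschitzOnWith L (fun y => et (faZy u v y)) (sphere (0 : E n) 1) := by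
  obtain ⟨L₂, hL₂⟩ := fap_Zy_lip hK hv
  refine LocallyLipschitzOn.exists_lipschitzOnWith_of_compact (isCompact_sphere 0 1) fun y hy => ?_
  have hy0 : y ≠ 0 := by
    intro h
    rw [h, mem_sphere_zero_iff_norm, norm_zero] at hy
    exact zero_ne_one hy
  have hz : faZy u v y ≠ 0 := fap_Zy_ne hK hv hy0
  have hc : ContDiffAt ℝ 1 et (faZy u v y) :=
    ((het.smooth.contDiffAt (isOpen_compl_singleton.mem_nhds hz)).of_le (by exact_mod_cast le_top))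
  obtain ⟨K₁, t, ht, hKt⟩ := hc.exists_lipschitzOnWith
  refine ⟨K₁ * L₂, faZy u v ⁻¹' t, mem_nhdsWithin_of_mem_nhds (hL₂.continuous.continuousAt ht), ?_⟩
  exact hKt.comp hL₂.lipschitzOnWith (mapsTo_preimage _ _)

theorem fap_cut_zero {r₀ : ℝ} (hr₀ : 0 < r₀) {a b : ℝ} (h : r₀ ^ 2 ≤ a ^ 2 + b ^ 2) :
    faCut r₀ (Real.sqrt (a ^ 2 + b ^ 2)) = 0 :=
  fa_cut_zero hr₀ (by rw [abs_of_nonneg (Real.sqrt_nonneg _)]; exact (Real.le_sqrt' hr₀).2 h)

/-- joint continuity of the phase. -/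
theorem fap_cont {K : ℝ} {u et : E n → ℝ} (hK : FaSd K u) (het : Hom0 et) {r₀ : ℝ} (σ₀ : ℝ) (hr₀ : 0 < r₀)
    (hr₁ : r₀ < 1) :
    ContinuousOn (fun p : (E n × ℝ) × E n =>
      faW u et p.1.1 p.1.2 (σ₀ * faCut r₀ (Real.sqrt (‖p.1.1‖ ^ 2 + p.1.2 ^ 2))) p.2)
      ({q : E n × ℝ | ‖q.1‖ ≤ 1} ×ˢ {0}ᶜ) := by
  unfold faW
  have hπ : Continuous (fun p : (E n × ℝ) × E n => (p.1.1, p.2)) := by fun_prop
  have hσ : Continuous (fun p : (E n × ℝ) × E n =>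
      σ₀ * faCut r₀ (Real.sqrt (‖p.1.1‖ ^ 2 + p.1.2 ^ 2))) :=
    continuous_const.mul ((fa_cut_cont r₀).comp (by fun_prop))
  refine ContinuousOn.sub (ContinuousOn.sub ?_ (by fun_prop)) ?_
  · have hm : MapsTo (fun p : (E n × ℝ) × E n => (p.1.1, p.2)) ({q : E n × ℝ | ‖q.1‖ ≤ 1} ×ˢ {0}ᶜ)
        (closedBall (0 : E n) 1 ×ˢ {0}ᶜ) := by
      rintro p ⟨hp1, hp2⟩
      exact ⟨mem_closedBall_zero_iff.2 hp1, hp2⟩
    exact ContinuousOn.comp (g := fun q : E n × E n => faTh u q.1 q.2)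
      (f := fun p : (E n × ℝ) × E n => (p.1.1, p.2)) (fa_th_cont hK) hπ.continuousOn hm
  · rintro p ⟨hp1, hp2⟩
    have hp1 : ‖p.1.1‖ ≤ 1 := hp1
    have hp2 : p.2 ≠ 0 := hp2
    refine ContinuousAt.continuousWithinAt ?_
    rcases lt_or_eq_of_le hp1 with hv | hv
    · refine hσ.continuousAt.mul ?_
      have hz : faZy u p.1.1 p.2 ≠ 0 := fap_Zy_ne hK hv hp2
      have h1 : ContinuousAt et (faZy u p.1.1 p.2) :=
        het.smooth.continuousOn.continuousAt (isOpen_compl_singleton.mem_nhds hz)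
      have h2 : ContinuousAt (fun q : E n × E n => faZy u q.1 q.2) (p.1.1, p.2) :=
        (fa_Zy_cont hK).continuousAt ((isOpen_ball.prod isOpen_univ).mem_nhds
          ⟨mem_ball_zero_iff.2 hv, mem_univ _⟩)
      have h3 : ContinuousAt (fun p : (E n × ℝ) × E n => faZy u p.1.1 p.2) p :=
        ContinuousAt.comp (f := fun p : (E n × ℝ) × E n => (p.1.1, p.2)) h2 hπ.continuousAt
      exact ContinuousAt.comp (f := fun p : (E n × ℝ) × E n => faZy u p.1.1 p.2) h1 h3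
    · have hO : ∀ᶠ p' : (E n × ℝ) × E n in 𝓝 p, r₀ < ‖p'.1.1‖ := by
        have hc : Continuous (fun p' : (E n × ℝ) × E n => ‖p'.1.1‖) := by fun_prop
        exact hc.continuousAt.eventually (lt_mem_nhds (by show r₀ < ‖p.1.1‖; rw [hv]; exact hr₁))
      refine (continuousAt_const (y := (0 : ℝ))).congr ?_
      filter_upwards [hO] with p' hp'
      rw [fap_cut_zero hr₀ (by nlinarith [sq_nonneg p'.1.2]), mul_zero, zero_mul]

theorem fap_acQ_compact (m : ℕ) : IsCompact (acQ m) := by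
  have e : acQ m = closedBall (0 : E (m + 2)) 1 ×ˢ closedBall (0 : ℝ) 3 := by
    ext q
    simp [acQ, Real.norm_eq_abs]
  rw [e]
  exact (isCompact_closedBall _ _).prod (isCompact_closedBall _ _)

theorem fap_fam (m : ℕ) {S : Set (E (m + 2))} {K : ℝ} (hK : FaSd K (gmtSimSd S)) {et : E (m + 2) → ℝ} (het : Hom0 et)
    {ε lam σ₀ r₀ : ℝ} (hε : 0 < ε) (hl : 0 < lam) (hT : faT ε lam ≤ 1) (hr₀ : 0 < r₀) (hr₁ : r₀ < 1) :
    AcFam m (faFam S et ε lam σ₀ r₀) := by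
  obtain ⟨L₁, hL₁⟩ := fa_prof_lip (ε := ε) (lam := lam) hε hl.le
  refine ⟨?_, ?_, ?_, ?_, ?_⟩
  · -- hom
    intro q _ t ht x
    simp only [faFam, faU, faW]
    rw [fa_th_hom hK _ ht, fa_Zy_hom hK _ ht, het.hom t ht]
  · -- lip
    intro q hq
    obtain ⟨L₂, hL₂⟩ := fa_th_lip hK hq.1
    set σ := σ₀ * faCut r₀ (Real.sqrt (‖q.1‖ ^ 2 + q.2 ^ 2)) with hσ
    have hg : ∃ L₃ : ℝ≥0, LipschitzOnWith L₃ (fun y => σ * et (faZy (gmtSimSd S) q.1 y))
        (sphere (0 : E (m + 2)) 1) := by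
      by_cases hv : ‖q.1‖ < r₀
      · obtain ⟨L, hL⟩ := fap_et_lip hK het (hv.trans hr₁)
        refine ⟨‖σ‖₊ * L, ?_⟩
        exact (lipschitzWith_smul σ : LipschitzWith ‖σ‖₊ (σ • · : ℝ → ℝ)).comp_lipschitzOnWith hL
      · have h0 : σ = 0 := by
          rw [hσ, fap_cut_zero hr₀ (by push Not at hv; nlinarith [sq_nonneg q.2]), mul_zero]
        refine ⟨0, ?_⟩
        simp only [h0, zero_mul]
        exact (LipschitzWith.const (0 : ℝ)).lipschitzOnWith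
    obtain ⟨L₃, hL₃⟩ := hg
    refine ⟨L₁ * (L₂ + 0 + L₃), ?_⟩
    exact hL₁.comp_lipschitzOnWith ((hL₂.sub (LipschitzWith.const q.2).lipschitzOnWith).sub hL₃)
  · -- bdd
    intro q _ x
    exact fa_prof_abs_le _ _ _
  · -- cont
    intro q₀ hq₀ δ hδ
    have hc : ContinuousOn (fun p : (E (m + 2) × ℝ) × E (m + 2) => faFam S et ε lam σ₀ r₀ p.1 p.2)
        (acQ m ×ˢ sphere (0 : E (m + 2)) 1) := by
      refine hL₁.continuous.comp_continuousOn ((fap_cont hK het σ₀ hr₀ hr₁).mono ?_)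
      rintro p ⟨hp1, hp2⟩
      refine ⟨hp1.1, fun h => ?_⟩
      rw [mem_singleton_iff.1 h, mem_sphere_zero_iff_norm, norm_zero] at hp2
      exact zero_ne_one hp2
    have hu := ((fap_acQ_compact m).prod (isCompact_sphere (0 : E (m + 2)) 1)).uniformContinuousOn_of_continuous hc
    obtain ⟨ρ, hρ, h⟩ := Metric.uniformContinuousOn_iff.1 hu δ hδ
    refine ⟨ρ, hρ, fun q hq hd x hx => ?_⟩
    have := h (q, x) ⟨hq, hx⟩ (q₀, x) ⟨hq₀, hx⟩ (by
      rw [Prod.dist_eq, dist_self, max_eq_left dist_nonneg]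
      exact hd)
    rw [Real.dist_eq] at this
    exact this.le
  · -- odd
    rintro q ⟨hq, hb⟩ x
    have hπ : Real.pi / 2 ≤ 2 := by linarith [Real.pi_le_four]
    have h1 : r₀ ^ 2 ≤ ‖q.1‖ ^ 2 + q.2 ^ 2 := by
      rcases hb with hb | hb
      · rw [hb]
        nlinarith [sq_nonneg q.2]
      · have : q.2 ^ 2 = 9 := by rw [← sq_abs, hb]; norm_num
        nlinarith [sq_nonneg ‖q.1‖]
    have h2 : r₀ ^ 2 ≤ ‖(-q).1‖ ^ 2 + (-q).2 ^ 2 := by
      simpa using h1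
    simp only [faFam, faU, faW]
    rw [fap_cut_zero hr₀ h1, fap_cut_zero hr₀ h2]
    simp only [mul_zero, zero_mul, sub_zero, Prod.fst_neg, Prod.snd_neg]
    rcases hb with hb | hb
    · rw [fa_th_neg _ hb, ← fa_prof_odd]
      congr 1
      ring
    · have t1 := abs_le.1 (fa_th_abs_le (gmtSimSd S) q.1 x)
      have t2 := abs_le.1 (fa_th_abs_le (gmtSimSd S) (-q.1) x)
      rcases abs_eq (by norm_num : (0 : ℝ) ≤ 3) |>.1 hb with h3 | h3
      · rw [h3, fa_prof_one hε hl (by linarith), fa_prof_neg_one hε hl (by linarith)]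
        norm_num
      · rw [h3, fa_prof_neg_one hε hl (by linarith), fa_prof_one hε hl (by linarith)]

end Claimed.Agent.R323
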