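import Claimed.Agent.R323.Fa.Cen
import Claimed.Agent.R323.Fa.Fam

/-!
# Row 323, block E (the Lorentz-distance family at the Allen-Cahn level; paper sec. 5).   Chief: helper256.

GLUE of the two contracts `fa_upper`, `fa_strict` from the exits of the sub-blocks:
* E1 `Fa/Lor`, `Fa/Psi`, `Fa/Fam` (`fap_fam`: `faFam` is an admissible family)            owner helper175
* E2 `Fa/Area*` (`faa_main`: chart free area inequality; contact facts)                   owner helper209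
* E3 `Fa/Loss` (`fal_away`: uniform strict loss of `cos^m t · faA S v t` off the centre)  helper15, PROVED
* E4 `Fa/Cen*` (`fac_main`: the centre, extra index direction)                            owner helper56
* E5 `Fa/Prof`, `Fa/En*` (`fae_master`, `fae_upper`, `fae_outer`)                         owner helper33
* `Fa/Det` (determinant inequalities), `Fa/Polar` / `Kit/LinkE` (polar integration), `Fa/Ctx` (Kit ⟹ `FaSd`).

THE FAMILY: `q = (v,β) ∈ \bar B × [-3,3] ↦ Ψ_{ε,λ}(θ_v - β - σ₀ χ(|q|) et(z_v))`.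
-/

set_option autoImplicit false
open scoped ContDiff ENNReal NNReal RealInnerProductSpace Topology
open MeasureTheory Metric Set Filter

namespace Claimed.Agent.R323

open Claimed.Agent.Gmt

/-- eventually `faT ε lam ≤ 1`. -/
theorem fa_T_le_one {lam : ℝ} (hl : 0 < lam) : ∀ᶠ ε in 𝓝[>] (0 : ℝ), faT ε lam ≤ 1 :=
  ((fa_T_tendsto hl).eventually (gt_mem_nhds zero_lt_one)).mono fun _ h => le_of_lt h

theorem fa_upper (m : ℕ) (hm : 2 ≤ m) (w : ℝ → ℝ) (hw : WidthSpec m w) (S : Set (E (m + 2))) (hS : MinCone (m + 2) S)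
    (hnf : ¬ IsHalf S) (δ : ℝ) (hδ : 0 < δ) : ∀ᶠ ε in 𝓝[>] (0 : ℝ), w ε ≤ linkArea S + δ := by
  obtain ⟨K, hK⟩ := fa_sd (by omega) hS hnf
  have hL : 0 ≤ linkArea S := fa_linkArea_nonneg (by omega) S
  -- the choice of `lam`
  set lam : ℝ := min 1 (δ / (3 * (linkArea S + 1))) with hlam
  have hl0 : 0 < lam := lt_min one_pos (by positivity)
  have hl1 : lam ≤ 1 := min_le_left _ _
  have hl2 : lam * (3 * (linkArea S + 1)) ≤ δ := by
    have := min_le_right (1 : ℝ) (δ / (3 * (linkArea S + 1)))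
    rw [← hlam, le_div_iff₀ (by positivity)] at this
    exact this
  have hbound : (1 + lam) ^ 2 * linkArea S ≤ linkArea S + δ := by nlinarith
  filter_upwards [fa_T_le_one hl0, self_mem_nhdsWithin] with ε hT hε
  have hε' : 0 < ε := hε
  refine hw.le ε hε' (faFam S (fun _ => 0) ε lam 0 (1 / 2))
    (fap_fam m hK fa_hom0_zero hε' hl0 hT (by norm_num) (by norm_num)) _ fun q _ hq1 => ?_
  have h := fae_upper m hm hS hnf hε' hl0 hq1 q.2 (fun _ => 0)
  have e : faFam S (fun _ => 0) ε lam 0 (1 / 2) q = faU (gmtSimSd S) (fun _ => 0) ε lam q.1 q.2 0 := by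
    funext y
    simp [faFam]
  rw [e]
  exact h.trans hbound

theorem fa_strict (m : ℕ) (hm : 2 ≤ m) (w : ℝ → ℝ) (hw : WidthSpec m w) (S : Set (E (m + 2))) (hS : MinCone (m + 2) S)
    (hnf : ¬ IsHalf S) (hx : ExtraIndex S) : ∃ c > 0, ∀ᶠ ε in 𝓝[>] (0 : ℝ), w ε ≤ linkArea S - c := by
  obtain ⟨K, hK⟩ := fa_sd (by omega) hS hnf
  have hL : 0 ≤ linkArea S := fa_linkArea_nonneg (by omega) S
  obtain ⟨et, het, r₀, hr0, hr1, c₁, hc₁, hcen⟩ := fac_main m hm hS hnf hx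
  obtain ⟨c₂, hc₂, hout⟩ := fae_outer m hm hS hnf (ρ := r₀ / 2) (by positivity)
  -- the gain in the centre
  set κ : ℝ := c₁ * r₀ ^ 2 / 8 with hκ
  have hκ0 : 0 < κ := by positivity
  obtain ⟨l₀, hl₀, hcen'⟩ := hcen κ hκ0
  -- the choice of `lam`
  set lam : ℝ := min (min 1 l₀) (c₂ / (6 * (linkArea S + 1))) with hlam
  have hl0 : 0 < lam := lt_min (lt_min one_pos hl₀) (by positivity)
  have hl1 : lam ≤ 1 := (min_le_left _ _).trans (min_le_left _ _)
  have hl2 : lam ≤ l₀ := (min_le_left _ _).trans (min_le_right _ _)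
  have hl3 : lam * (6 * (linkArea S + 1)) ≤ c₂ := by
    have := min_le_right (min 1 l₀) (c₂ / (6 * (linkArea S + 1)))
    rw [← hlam, le_div_iff₀ (by positivity)] at this
    exact this
  have hbound : (1 + lam) ^ 2 * (linkArea S - c₂) ≤ linkArea S - c₂ / 2 := by
    have h1 : (1 + lam) ^ 2 ≤ 1 + 3 * lam := by nlinarith
    have h2 : 1 ≤ (1 + lam) ^ 2 := by nlinarith
    have h3 : (1 + lam) ^ 2 * linkArea S ≤ (1 + 3 * lam) * linkArea S := mul_le_mul_of_nonneg_right h1 hL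
    have h4 : 1 * c₂ ≤ (1 + lam) ^ 2 * c₂ := mul_le_mul_of_nonneg_right h2 hc₂.le
    nlinarith
  refine ⟨min κ (c₂ / 2), lt_min hκ0 (by positivity), ?_⟩
  filter_upwards [fa_T_le_one hl0, self_mem_nhdsWithin, hcen' lam hl0 hl2, hout lam hl0] with ε hT hε hC hO
  have hε' : 0 < ε := hε
  refine hw.le ε hε' (faFam S et ε lam r₀ r₀) (fap_fam m hK het hε' hl0 hT hr0 hr1) _ fun q _ hq1 => ?_
  set R : ℝ := Real.sqrt (‖q.1‖ ^ 2 + q.2 ^ 2) with hR
  have hR0 : 0 ≤ R := Real.sqrt_nonneg _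
  have hR2 : R ^ 2 = ‖q.1‖ ^ 2 + q.2 ^ 2 := Real.sq_sqrt (by positivity)
  have e : faFam S et ε lam r₀ r₀ q = faU (gmtSimSd S) et ε lam q.1 q.2 (r₀ * faCut r₀ R) := rfl
  rw [e]
  by_cases hRr : r₀ ≤ R
  · -- outside: `σ = 0`
    rw [fa_cut_zero hr0 (by rwa [abs_of_nonneg hR0]), mul_zero]
    have hor : r₀ / 2 ≤ ‖q.1‖ ∨ r₀ / 2 ≤ |q.2| := by
      by_contra hcon
      push Not at hcon
      have h1 : ‖q.1‖ ^ 2 < (r₀ / 2) ^ 2 := by
        have := norm_nonneg q.1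
        nlinarith [hcon.1]
      have h2 : q.2 ^ 2 < (r₀ / 2) ^ 2 := by
        rw [← sq_abs]
        have := abs_nonneg q.2
        nlinarith [hcon.2]
      nlinarith
    have := hO q.1 q.2 hq1 hor et
    calc _ ≤ (1 + lam) ^ 2 * (linkArea S - c₂) := this
      _ ≤ linkArea S - c₂ / 2 := hbound
      _ ≤ linkArea S - min κ (c₂ / 2) := by linarith [min_le_right κ (c₂ / 2)]
  · -- the centre
    push Not at hRr
    have hv : ‖q.1‖ ≤ r₀ := by
      have := norm_nonneg q.1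
      nlinarith [sq_nonneg q.2]
    have hβ : |q.2| ≤ r₀ := by
      have := abs_nonneg q.2
      have h2 : |q.2| ^ 2 = q.2 ^ 2 := sq_abs _
      nlinarith [sq_nonneg ‖q.1‖]
    have hc0 := fa_cut_nonneg r₀ R
    have hc1 := fa_cut_le_one r₀ R
    have hσ : |r₀ * faCut r₀ R| ≤ r₀ := by
      rw [abs_of_nonneg (by positivity)]
      nlinarith
    have h := hC q.1 q.2 (r₀ * faCut r₀ R) hv hβ hσ
    have hlow : r₀ ^ 2 / 4 ≤ ‖q.1‖ ^ 2 + q.2 ^ 2 + (r₀ * faCut r₀ R) ^ 2 := by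
      by_cases hh : R ≤ r₀ / 2
      · rw [fa_cut_one hr0 (by rwa [abs_of_nonneg hR0]), mul_one]
        nlinarith [sq_nonneg ‖q.1‖, sq_nonneg q.2]
      · push Not at hh
        rw [← hR2]
        nlinarith [sq_nonneg (r₀ * faCut r₀ R)]
    have h3 : c₁ * (r₀ ^ 2 / 4) ≤ c₁ * (‖q.1‖ ^ 2 + q.2 ^ 2 + (r₀ * faCut r₀ R) ^ 2) :=
      mul_le_mul_of_nonneg_left hlow hc₁.le
    have h4 : c₁ * (r₀ ^ 2 / 4) = 2 * κ := by rw [hκ]; ring
    linarith [min_le_left κ (c₂ / 2)]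

end Claimed.Agent.R323
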